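import Vale.Agent.Lib.P327.Search

/-!
# P327 / Coding: the coding lemma (Step 0)

For `c : ℕ → ℕ → Bool → ℕ` put `D c Z (pair n j) = c n j (Z n)` and `A c m j = c m j true`. Then
`TLE (A c m) (D c Z)` if `Z m = true`, and `TLE (D c Z) (join (bit Z) K)` where `K` codes `c`.
We need one `c` such that for all `Z` and all `m` with `Z m = false` and all `φ : Tr`: `¬ Red φ (D c Z) (A c m)`.

Conditions: pairs `(L, d)`, `d : ℕ → ℕ → Bool → ℕ`; `c` extends `(L, d)` if `c n j b = d n j b` for all `n, j < L`.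
Claim: for every condition `(L₀, d₀)` and every `(φ, m)` there is an extending condition `(L', d')`, `L' > L₀`, such that every
`c` extending it satisfies: for all `Z` with `Z m = false`, `¬ Red φ (D c Z) (A c m)`.
Proof: first enlarge `L = L₀` so that `m < L`. Treat the finitely many `ζ : Fin L → Bool` with `ζ m = false` one after the other, keeping
the invariant that the current condition `(L_i, d_i)` satisfies `d_i n j false = d_i n j true` for `L ≤ n` (all `j`). For `ζ` put `k = L_i`.
* If there is `c'` extending `(L_i, d_i)`, symmetric for `n ≥ L`, and `l, v` with `(φ.T (pref (D c' Z) l))[k]? = some v` for one (equivalently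
  every) `Z` extending `ζ` (`D c' Z` only depends on `ζ`): put `d_{i+1} = c'` except `d_{i+1} m k true = v + 1` (not read by `D _ Z` because
  `m < L`, `ζ m = false`), `L_{i+1}` larger than `L_i`, `k`, `l`. Every `c` extending `(L_{i+1}, d_{i+1})` and `Z` extending `ζ` has
  `pref (D c Z) l = pref (D c' Z) l`, so `T` gives `v` at `k`, but `A c m k = v + 1`.
* Otherwise the same condition works: if `c` extends `(L_i, d_i)`, `Z` extends `ζ` and `Red φ (D c Z) (A c m)`, then
  `c' n j b = c n j (Z n)` for `n ≥ L`, `c' = c` for `n < L`, is symmetric, extends `(L_i, d_i)` and `D c' Z = D c Z`: contradiction.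
Then iterate over all `(φ, m)` (`Tr × ℕ` is countable) and take the limit `c`.
-/

namespace Vale.Agent.P327

open Filter Topology Set

/-- the coded real `D c Z` -/
private def codD (c : ℕ → ℕ → Bool → ℕ) (Z : ℕ → Bool) : R :=
  fun x => c x.unpair.1 x.unpair.2 (Z x.unpair.1)

/-- the real `A c m` -/
private def codA (c : ℕ → ℕ → Bool → ℕ) (m : ℕ) : R := fun j => c m j true

/-- the real coding `c` -/
private def codK (c : ℕ → ℕ → Bool → ℕ) : R :=
  fun x => c x.unpair.1 x.unpair.2.unpair.1 (x.unpair.2.unpair.2 == 1)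

/-- `c` extends the condition `(L, d)` -/
private def CodExt (L : ℕ) (d c : ℕ → ℕ → Bool → ℕ) : Prop :=
  ∀ n j b, n < L → j < L → c n j b = d n j b

/-- symmetry above `L` -/
private def CodSym (L : ℕ) (d : ℕ → ℕ → Bool → ℕ) : Prop :=
  ∀ n j, L ≤ n → d n j false = d n j true

private theorem CodSym.eq {L : ℕ} {d : ℕ → ℕ → Bool → ℕ} (h : CodSym L d) {n : ℕ} (hn : L ≤ n)
    (j : ℕ) (b b' : Bool) : d n j b = d n j b' := by
  cases b <;> cases b' <;> simp [h n j hn]

private theorem cod_one (φ : Tr) (m L : ℕ) (hm : m < L) (ζ : ℕ → Bool) (hζ : ζ m = false)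
    (k : ℕ) (d : ℕ → ℕ → Bool → ℕ) (hk : L ≤ k) (hd : CodSym L d) :
    ∃ (k' : ℕ) (d' : ℕ → ℕ → Bool → ℕ), k ≤ k' ∧ CodExt k d d' ∧ CodSym L d' ∧
      ∀ c, CodExt k' d' c → ∀ Z : ℕ → Bool, (∀ i < L, Z i = ζ i) →
        ¬ Red φ (codD c Z) (codA c m) := by
  by_cases hcase : ∃ c', CodExt k d c' ∧ CodSym L c' ∧ ∃ l v,
      (φ.T (pref (codD c' ζ) l))[k]? = some v
  · obtain ⟨c', hc1, hc2, l, v, hv⟩ := hcase
    refine ⟨max (k + 1) (l + 1), fun n j b => if n = m ∧ j = k ∧ b = true then v + 1 else c' n j b,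
      le_trans (Nat.le_succ k) (le_max_left _ _), ?_, ?_, ?_⟩
    · intro n j b hn hj
      have : ¬ (n = m ∧ j = k ∧ b = true) := fun h => by omega
      simp only [this, if_false]
      exact hc1 n j b hn hj
    · intro n j hn
      have h1 : ∀ b : Bool, ¬ (n = m ∧ j = k ∧ b = true) := fun b h => by omega
      change (if n = m ∧ j = k ∧ false = true then v + 1 else c' n j false) =
        (if n = m ∧ j = k ∧ true = true then v + 1 else c' n j true)
      rw [if_neg (h1 false), if_neg (h1 true)]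
      exact hc2 n j hn
    · intro c hc Z hZ hred
      have hpref : pref (codD c Z) l = pref (codD c' ζ) l := by
        rw [pref_eq_iff]
        intro x hx
        have h1 : x.unpair.1 ≤ x := Nat.unpair_left_le x
        have h2 : x.unpair.2 ≤ x := Nat.unpair_right_le x
        have h3 : x.unpair.1 < max (k + 1) (l + 1) := by
          have := le_max_right (k + 1) (l + 1)
          omega
        have h4 : x.unpair.2 < max (k + 1) (l + 1) := by
          have := le_max_right (k + 1) (l + 1)
          omega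
        unfold codD
        rw [hc _ _ _ h3 h4]
        by_cases hn : x.unpair.1 < L
        · rw [hZ _ hn]
          have h5 : ¬ (x.unpair.1 = m ∧ x.unpair.2 = k ∧ ζ x.unpair.1 = true) := by
            rintro ⟨h6, -, h7⟩
            rw [h6, hζ] at h7
            exact Bool.noConfusion h7
          simp only [h5, if_false]
        · have h5 : ¬ (x.unpair.1 = m ∧ x.unpair.2 = k ∧ Z x.unpair.1 = true) := by
            rintro ⟨h6, -, -⟩
            omega
          simp only [h5, if_false]
          exact hc2.eq (not_lt.mp hn) _ _ _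
      have h1 := hred.out_prefix l
      rw [hpref] at h1
      rw [h1] at hv
      have hlt : k < (φ.T (pref (codD c' ζ) l)).length := by
        by_contra hnot
        rw [List.getElem?_eq_none (by rw [pref_length]; omega)] at hv
        simp at hv
      rw [pref_getElem _ _ _ hlt] at hv
      have h2 : codA c m k = v := Option.some.inj hv
      unfold codA at h2
      rw [hc m k true (by have := le_max_left (k + 1) (l + 1); omega)
        (by have := le_max_left (k + 1) (l + 1); omega)] at h2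
      simp only [and_self, if_true] at h2
      omega
  · refine ⟨k, d, le_refl k, fun _ _ _ _ _ => rfl, hd, ?_⟩
    intro c hc Z hZ hred
    apply hcase
    refine ⟨fun n j b => if n < L then c n j b else c n j (Z n), ?_, ?_, ?_⟩
    · intro n j b hn hj
      by_cases h : n < L
      · simp only [h, if_true]
        exact hc n j b hn hj
      · simp only [h, if_false]
        rw [hc n j _ hn hj]
        exact hd.eq (not_lt.mp h) _ _ _
    · intro n j hn
      have h : ¬ n < L := not_lt.mpr hn
      simp only [h, if_false]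
    · have hD : codD (fun n j b => if n < L then c n j b else c n j (Z n)) ζ = codD c Z := by
        funext x
        unfold codD
        by_cases h : x.unpair.1 < L
        · simp only [h, if_true]
          rw [hZ _ h]
        · simp only [h, if_false]
      rw [hD]
      obtain ⟨M, hM⟩ := hred (k + 1)
      refine ⟨M, codA c m k, ?_⟩
      have h1 : (pref (codA c m) (k + 1))[k]? = some (codA c m k) :=
        pref_getElem _ _ _ (Nat.lt_succ_self k)
      obtain ⟨t, ht⟩ := hM
      rw [← ht, List.getElem?_append_left (by rw [pref_length]; omega)]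
      exact h1

private theorem cod_list (φ : Tr) (m L : ℕ) (hm : m < L) (s : List (ℕ → Bool)) :
    (∀ ζ ∈ s, ζ m = false) → ∀ (k : ℕ) (d : ℕ → ℕ → Bool → ℕ), L ≤ k → CodSym L d →
    ∃ (k' : ℕ) (d' : ℕ → ℕ → Bool → ℕ), k ≤ k' ∧ CodExt k d d' ∧ CodSym L d' ∧
      ∀ c, CodExt k' d' c → ∀ ζ ∈ s, ∀ Z : ℕ → Bool, (∀ i < L, Z i = ζ i) →
        ¬ Red φ (codD c Z) (codA c m) := by
  induction s with
  | nil =>
    intro _ k d hk hd
    exact ⟨k, d, le_refl k, fun _ _ _ _ _ => rfl, hd, fun c _ ζ hζ => by simp at hζ⟩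
  | cons ζ s ih =>
    intro hs k d hk hd
    obtain ⟨k1, d1, h1, h2, h3, h4⟩ := cod_one φ m L hm ζ (hs ζ (by simp)) k d hk hd
    obtain ⟨k2, d2, g1, g2, g3, g4⟩ := ih (fun ζ' h => hs ζ' (by simp [h])) k1 d1 (hk.trans h1) h3
    refine ⟨k2, d2, h1.trans g1, ?_, g3, ?_⟩
    · intro n j b hn hj
      rw [g2 n j b (by omega) (by omega)]
      exact h2 n j b hn hj
    · intro c hc ζ' hζ' Z hZ
      have hc1 : CodExt k1 d1 c := by
        intro n j b hn hj
        rw [hc n j b (by omega) (by omega)]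
        exact g2 n j b hn hj
      rcases List.mem_cons.mp hζ' with rfl | hmem
      · exact h4 c hc1 Z hZ
      · exact g4 c hc ζ' hmem Z hZ

private theorem cod_step (p : Tr × ℕ) (L₀ : ℕ) (d₀ : ℕ → ℕ → Bool → ℕ) :
    ∃ (k' : ℕ) (d' : ℕ → ℕ → Bool → ℕ), L₀ < k' ∧ CodExt L₀ d₀ d' ∧
      ∀ c, CodExt k' d' c → ∀ Z : ℕ → Bool, Z p.2 = false →
        ¬ Red p.1 (codD c Z) (codA c p.2) := by
  obtain ⟨φ, m⟩ := p
  set L : ℕ := max (L₀ + 1) (m + 1) with hL
  have hL1 : L₀ + 1 ≤ L := le_max_left _ _
  have hL2 : m + 1 ≤ L := le_max_right _ _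
  let ext : (Fin L → Bool) → ℕ → Bool := fun ζ i => if h : i < L then ζ ⟨i, h⟩ else false
  have hext : ∀ (ζ : Fin L → Bool) (i : ℕ) (h : i < L), ext ζ i = ζ ⟨i, h⟩ := by
    intro ζ i h
    simp only [ext, h, dif_pos]
  let s : List (ℕ → Bool) :=
    ((Finset.univ : Finset (Fin L → Bool)).filter
      (fun ζ => ζ ⟨m, by omega⟩ = false)).toList.map ext
  have hs : ∀ ζ ∈ s, ζ m = false := by
    intro ζ hζ
    obtain ⟨ξ, hξ, rfl⟩ := List.mem_map.mp hζ
    rw [Finset.mem_toList, Finset.mem_filter] at hξ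
    rw [hext ξ m (by omega)]
    exact hξ.2
  obtain ⟨k', d', h1, h2, h3, h4⟩ := cod_list φ m L (by omega) s hs L
    (fun n j b => if n < L then d₀ n j b else 0) le_rfl (by
      intro n j hn
      have : ¬ n < L := not_lt.mpr hn
      simp only [this, if_false])
  refine ⟨k', d', by omega, ?_, ?_⟩
  · intro n j b hn hj
    rw [h2 n j b (by omega) (by omega)]
    have : n < L := by omega
    simp only [this, if_true]
  · intro c hc Z hZ
    have hZ' : Z m = false := hZ
    refine h4 c hc (ext (fun i : Fin L => Z i)) ?_ Z ?_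
    · refine List.mem_map.mpr ⟨fun i : Fin L => Z i, ?_, rfl⟩
      rw [Finset.mem_toList, Finset.mem_filter]
      exact ⟨Finset.mem_univ _, hZ'⟩
    · intro i hi
      exact (hext (fun i : Fin L => Z i) i hi).symm

private theorem cod_exists : ∃ c : ℕ → ℕ → Bool → ℕ, ∀ (φ : Tr) (m : ℕ) (Z : ℕ → Bool),
    Z m = false → ¬ Red φ (codD c Z) (codA c m) := by
  classical
  have hne : Nonempty (Tr × ℕ) :=
    ⟨(⟨fun _ => [], Computable.const [], fun _ _ _ => List.prefix_refl _⟩, 0)⟩
  obtain ⟨e, he⟩ := exists_surjective_nat (Tr × ℕ)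
  choose K' D' h1 h2 h3 using cod_step
  let S : ℕ → ℕ × (ℕ → ℕ → Bool → ℕ) := fun i =>
    Nat.rec (0, fun _ _ _ => 0) (fun i q => (K' (e i) q.1 q.2, D' (e i) q.1 q.2)) i
  have hS : ∀ i, S (i + 1) = (K' (e i) (S i).1 (S i).2, D' (e i) (S i).1 (S i).2) := fun i => rfl
  have hS1 : ∀ i, (S i).1 < (S (i + 1)).1 := by
    intro i
    rw [hS]
    exact h1 (e i) (S i).1 (S i).2
  have hS2 : ∀ i, CodExt (S i).1 (S i).2 (S (i + 1)).2 := by
    intro i
    rw [hS]
    exact h2 (e i) (S i).1 (S i).2
  have hmono : StrictMono (fun i => (S i).1) := strictMono_nat_of_lt_succ hS1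
  have hge : ∀ i, i ≤ (S i).1 := fun i => hmono.id_le i
  have hcomp : ∀ i i', i ≤ i' → CodExt (S i).1 (S i).2 (S i').2 := by
    intro i i' h
    induction i', h using Nat.le_induction with
    | base => exact fun _ _ _ _ _ => rfl
    | succ i' hi ih =>
      intro n j b hn hj
      have h5 : (S i).1 ≤ (S i').1 := hmono.monotone hi
      rw [hS2 i' n j b (by omega) (by omega)]
      exact ih n j b hn hj
  refine ⟨fun n j b => (S (max n j + 1)).2 n j b, fun φ m Z hZ => ?_⟩
  obtain ⟨i, hi⟩ := he (φ, m)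
  have h4 := h3 (e i) (S i).1 (S i).2 (fun n j b => (S (max n j + 1)).2 n j b) (by
    have hSi : K' (e i) (S i).1 (S i).2 = (S (i + 1)).1 := by rw [hS]
    have hDi : D' (e i) (S i).1 (S i).2 = (S (i + 1)).2 := by rw [hS]
    rw [hSi, hDi]
    intro n j b hn hj
    rcases le_total (max n j + 1) (i + 1) with h | h
    · have h6 := hge (max n j + 1)
      have h7 := le_max_left n j
      have h8 := le_max_right n j
      exact (hcomp _ _ h n j b (by omega) (by omega)).symm
    · exact hcomp _ _ h n j b hn hj) Z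
  rw [hi] at h4
  exact h4 hZ

private theorem cod_tle_A (c : ℕ → ℕ → Bool → ℕ) (m : ℕ) (Z : ℕ → Bool) (hZ : Z m = true) :
    TLE (codA c m) (codD c Z) := by
  have hval : ∀ n, codD c Z (Nat.pair m n) = codA c m n := by
    intro n
    simp only [codD, codA, Nat.unpair_pair, hZ]
  refine tle_of_search (fun σ n _ => σ[Nat.pair m n]?) ?_ ?_ ?_
  · have h1 : Primrec fun p : List ℕ × ℕ × ℕ => p.1[Nat.pair m p.2.1]? :=
      Primrec.list_getElem?.comp Primrec.fst
        (Primrec₂.natPair.comp (Primrec.const m) (Primrec.fst.comp Primrec.snd))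
    exact h1.to_comp
  · intro l n _ v hv
    by_cases h : Nat.pair m n < l
    · rw [pref_getElem _ _ _ h] at hv
      rw [← hval n]
      exact (Option.some.inj hv).symm
    · rw [List.getElem?_eq_none (by rw [pref_length]; omega)] at hv
      simp at hv
  · intro n
    refine ⟨Nat.pair m n + 1, 0, ?_⟩
    rw [pref_getElem _ _ _ (Nat.lt_succ_self _), hval n]

private theorem cod_tle_D (c : ℕ → ℕ → Bool → ℕ) (Z : ℕ → Bool) :
    TLE (codD c Z) (join (bit Z) (codK c)) := by
  have hj0 : ∀ n, join (bit Z) (codK c) (2 * n) = bit Z n := by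
    intro n
    unfold join
    rw [if_pos (by omega)]
    congr 1
    omega
  have hj1 : ∀ n, join (bit Z) (codK c) (2 * n + 1) = codK c n := by
    intro n
    unfold join
    rw [if_neg (by omega)]
    congr 1
    omega
  have hval : ∀ n, codK c (Nat.pair n.unpair.1 (Nat.pair n.unpair.2 (bit Z n.unpair.1)))
      = codD c Z n := by
    intro n
    simp only [codK, codD, Nat.unpair_pair, bit]
    congr 1
    cases Z n.unpair.1 <;> rfl
  refine tle_of_search (fun σ n _ => (σ[2 * n.unpair.1]?).bind fun b =>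
    σ[2 * Nat.pair n.unpair.1 (Nat.pair n.unpair.2 b) + 1]?) ?_ ?_ ?_
  · have hn1 : Primrec fun p : List ℕ × ℕ × ℕ => (p.2.1).unpair.1 :=
      Primrec.fst.comp (Primrec.unpair.comp (Primrec.fst.comp Primrec.snd))
    have hn2 : Primrec fun p : List ℕ × ℕ × ℕ => (p.2.1).unpair.2 :=
      Primrec.snd.comp (Primrec.unpair.comp (Primrec.fst.comp Primrec.snd))
    have h1 : Primrec fun p : List ℕ × ℕ × ℕ => p.1[2 * (p.2.1).unpair.1]? :=
      Primrec.list_getElem?.comp Primrec.fst
        (Primrec.nat_mul.comp (Primrec.const 2) hn1)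
    have h2 : Primrec₂ fun (p : List ℕ × ℕ × ℕ) (b : ℕ) =>
        p.1[2 * Nat.pair (p.2.1).unpair.1 (Nat.pair (p.2.1).unpair.2 b) + 1]? := by
      have h3 : Primrec fun q : (List ℕ × ℕ × ℕ) × ℕ =>
          2 * Nat.pair (q.1.2.1).unpair.1 (Nat.pair (q.1.2.1).unpair.2 q.2) + 1 :=
        Primrec.succ.comp (Primrec.nat_mul.comp (Primrec.const 2)
          (Primrec₂.natPair.comp (hn1.comp Primrec.fst)
            (Primrec₂.natPair.comp (hn2.comp Primrec.fst) Primrec.snd)))
      exact Primrec.list_getElem?.comp (Primrec.fst.comp Primrec.fst) h3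
    exact (Primrec.option_bind h1 h2).to_comp
  · intro l n _ v hv
    by_cases h : 2 * n.unpair.1 < l
    · rw [pref_getElem _ _ _ h, hj0, Option.bind_some] at hv
      by_cases h' : 2 * Nat.pair n.unpair.1 (Nat.pair n.unpair.2 (bit Z n.unpair.1)) + 1 < l
      · rw [pref_getElem _ _ _ h', hj1, hval] at hv
        exact (Option.some.inj hv).symm
      · rw [List.getElem?_eq_none (by rw [pref_length]; omega)] at hv
        simp at hv
    · rw [List.getElem?_eq_none (by rw [pref_length]; omega)] at hv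
      simp at hv
  · intro n
    refine ⟨max (2 * n.unpair.1 + 1)
      (2 * Nat.pair n.unpair.1 (Nat.pair n.unpair.2 (bit Z n.unpair.1)) + 1 + 1), 0, ?_⟩
    have h1 : 2 * n.unpair.1 < max (2 * n.unpair.1 + 1)
      (2 * Nat.pair n.unpair.1 (Nat.pair n.unpair.2 (bit Z n.unpair.1)) + 1 + 1) :=
      lt_of_lt_of_le (Nat.lt_succ_self _) (le_max_left _ _)
    have h2 : 2 * Nat.pair n.unpair.1 (Nat.pair n.unpair.2 (bit Z n.unpair.1)) + 1 <
      max (2 * n.unpair.1 + 1)
      (2 * Nat.pair n.unpair.1 (Nat.pair n.unpair.2 (bit Z n.unpair.1)) + 1 + 1) :=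
      lt_of_lt_of_le (Nat.lt_succ_self _) (le_max_right _ _)
    rw [pref_getElem _ _ _ h1, hj0, Option.bind_some, pref_getElem _ _ _ h2, hj1, hval]

theorem coding : ∃ (A : ℕ → R) (K : R), ∀ Z : ℕ → Bool, ∃ D : R,
    TLE D (join (bit Z) K) ∧ ∀ n, TLE (A n) D ↔ Z n = true := by
  obtain ⟨c, hc⟩ := cod_exists
  refine ⟨codA c, codK c, fun Z => ⟨codD c Z, cod_tle_D c Z, fun n => ⟨fun h => ?_, fun h =>
    cod_tle_A c n Z h⟩⟩⟩
  by_contra hZ
  obtain ⟨φ, hφ⟩ := tle_iff.mp h
  exact hc φ n Z (by simpa using hZ) hφ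

end Vale.Agent.P327
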