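import Vale.Agent.Lib.P327.KUA

/-!
# P327 / KU: Baire category lemmas in products

`ku`: for `U` open dense in `X × Y` and a countable basis `V k` of `Y`: the set of `x` such that some `(x, y) ∈ U`, `y ∈ V k`, is open and dense.
`freq_prod`: otherwise comeager many `p` satisfy `¬ (P p.1 ∧ Q p.2)`, apply `ku`.
`ku_conv`: otherwise the complement of `E` is comeager in a nonempty open subset of `U ×ˢ V` (`bp_in`), hence in a box, contradiction with `ku`.
`eventually_fst`: a projection is open and continuous (`tendsto_residual_of_isOpenMap`).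
-/

namespace Vale.Agent.P327

open Filter Topology Set

theorem KU_slice {X Y : Type*} [TopologicalSpace X] [TopologicalSpace Y]
    {U : Set (X × Y)} (hU : IsOpen U) (hd : Dense U) {V : Set Y} (hV : IsOpen V)
    (hne : V.Nonempty) : ∀ᶠ x in residual X, (V ∩ {y | (x, y) ∈ U}).Nonempty := by
  have h1 : IsOpen (Prod.fst '' (U ∩ (univ ×ˢ V))) :=
    isOpenMap_fst _ (hU.inter (isOpen_univ.prod hV))
  have h2 : Dense (Prod.fst '' (U ∩ (univ ×ˢ V))) := by
    rw [dense_iff_inter_open]
    intro W hW hWne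
    have h3 : IsOpen (W ×ˢ V) := hW.prod hV
    obtain ⟨p, hp1, hp2⟩ := (dense_iff_inter_open.mp hd) _ h3 (hWne.prod hne)
    exact ⟨p.1, hp1.1, p, ⟨hp2, trivial, hp1.2⟩, rfl⟩
  have h3 : Prod.fst '' (U ∩ (univ ×ˢ V)) ∈ residual X := residual_of_dense_open h1 h2
  filter_upwards [h3] with x hx
  obtain ⟨p, ⟨hp1, hp2⟩, hpx⟩ := hx
  refine ⟨p.2, hp2.2, ?_⟩
  change (x, p.2) ∈ U
  rw [← hpx]
  exact hp1

/-- Kuratowski-Ulam, easy direction -/
theorem ku {X Y : Type*} [TopologicalSpace X] [TopologicalSpace Y] [SecondCountableTopology Y]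
    {P : X × Y → Prop} (h : ∀ᶠ p in residual (X × Y), P p) :
    ∀ᶠ x in residual X, ∀ᶠ y in residual Y, P (x, y) := by
  obtain ⟨S, hSo, hSd, hSc, hS⟩ := mem_residual_iff.mp h
  have h1 : ∀ U ∈ S, ∀ᶠ x in residual X, ∀ᶠ y in residual Y, (x, y) ∈ U := by
    intro U hU
    have h2 : ∀ᶠ x in residual X, ∀ V ∈ TopologicalSpace.countableBasis Y,
        (V ∩ {y | (x, y) ∈ U}).Nonempty := by
      rw [eventually_countable_ball (TopologicalSpace.countable_countableBasis Y)]
      intro V hV
      exact KU_slice (hSo U hU) (hSd U hU) (TopologicalSpace.isOpen_of_mem_countableBasis hV)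
        (TopologicalSpace.nonempty_of_mem_countableBasis hV)
    filter_upwards [h2] with x hx
    have h3 : IsOpen {y | (x, y) ∈ U} := (hSo U hU).preimage (Continuous.prodMk_right x)
    have h4 : Dense {y | (x, y) ∈ U} := by
      rw [(TopologicalSpace.isBasis_countableBasis Y).dense_iff]
      intro V hV _
      exact hx V hV
    exact residual_of_dense_open h3 h4
  have h2 : ∀ᶠ x in residual X, ∀ U ∈ S, ∀ᶠ y in residual Y, (x, y) ∈ U := by
    rw [eventually_countable_ball hSc]
    exact h1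
  filter_upwards [h2] with x hx
  have h3 : ∀ᶠ y in residual Y, ∀ U ∈ S, (x, y) ∈ U := by
    rw [eventually_countable_ball hSc]
    exact hx
  filter_upwards [h3] with y hy
  exact hS (mem_sInter.mpr hy)

/-- a comeager property holds comeagerly after a homeomorphism -/
theorem eventually_homeo {X Y : Type*} [TopologicalSpace X] [TopologicalSpace Y] (e : X ≃ₜ Y)
    {P : Y → Prop} (h : ∀ᶠ y in residual Y, P y) : ∀ᶠ x in residual X, P (e x) :=
  (tendsto_residual_of_isOpenMap e.continuous e.isOpenMap).eventually h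

theorem ku' {X Y : Type*} [TopologicalSpace X] [TopologicalSpace Y] [SecondCountableTopology X]
    {P : X × Y → Prop} (h : ∀ᶠ p in residual (X × Y), P p) :
    ∀ᶠ y in residual Y, ∀ᶠ x in residual X, P (x, y) := by
  have h1 : ∀ᶠ p in residual (Y × X), P ((Homeomorph.prodComm Y X) p) :=
    eventually_homeo (Homeomorph.prodComm Y X) h
  exact ku h1

/-- a product of nonmeager sets is nonmeager -/
theorem freq_prod {X Y : Type*} [TopologicalSpace X] [TopologicalSpace Y]
    [SecondCountableTopology Y] {P : X → Prop} {Q : Y → Prop}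
    (hP : ∃ᶠ x in residual X, P x) (hQ : ∃ᶠ y in residual Y, Q y) :
    ∃ᶠ p in residual (X × Y), P p.1 ∧ Q p.2 := by
  intro h
  have h1 := ku h
  obtain ⟨x, hx1, hx2⟩ := (hP.and_eventually h1).exists
  apply hQ
  filter_upwards [hx2] with y hy hQy
  exact hy ⟨hx1, hQy⟩

/-- converse of `ku` for sets with the Baire property, in a box -/
theorem ku_conv {X Y : Type*} [TopologicalSpace X] [TopologicalSpace Y] [BaireSpace X]
    [BaireSpace Y] [BaireSpace (X × Y)]
    [SecondCountableTopology X] [SecondCountableTopology Y] [MeasurableSpace X] [BorelSpace X]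
    [MeasurableSpace Y] [BorelSpace Y] {E : Set (X × Y)} (hE : MeasurableSet E)
    {U : Set X} {V : Set Y} (hU : IsOpen U) (hV : IsOpen V)
    (h : ∀ᶠ x in residual X, x ∈ U → ∀ᶠ y in residual Y, y ∈ V → (x, y) ∈ E) :
    ∀ᶠ p in residual (X × Y), p.1 ∈ U → p.2 ∈ V → p ∈ E := by
  by_contra hcon
  have h1 : ∃ᶠ p in residual (X × Y), p ∈ U ×ˢ V ∧ p ∈ Eᶜ := by
    intro h2
    apply hcon
    filter_upwards [h2] with p hp hpU hpV
    by_contra hpE
    exact hp ⟨⟨hpU, hpV⟩, hpE⟩
  obtain ⟨O, hO, ⟨⟨x0, y0⟩, hxy⟩, hOW, hOE⟩ := bp_in hE.compl (hU.prod hV) h1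
  obtain ⟨U1, V1, hU1, hV1, hx0, hy0, hUV⟩ := isOpen_prod_iff.mp hO x0 y0 hxy
  have h2 := ku hOE
  obtain ⟨x, hx1, hx2, hx3⟩ := ((open_freq hU1 ⟨x0, hx0⟩).and_eventually (h.and h2)).exists
  obtain ⟨y, hy1, hy2, hy3⟩ := ((open_freq hV1 ⟨y0, hy0⟩).and_eventually
    ((hx2 (hOW (hUV (mk_mem_prod hx1 hy0))).1).and hx3)).exists
  have h3 : (x, y) ∈ O := hUV (mk_mem_prod hx1 hy1)
  exact hy3 h3 (hy2 (hOW h3).2)

/-- a nonmeager property stays nonmeager after a homeomorphism -/
theorem frequently_homeo {X Y : Type*} [TopologicalSpace X] [TopologicalSpace Y] (e : X ≃ₜ Y)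
    {P : Y → Prop} (h : ∃ᶠ y in residual Y, P y) : ∃ᶠ x in residual X, P (e x) := by
  intro h1
  apply h
  have h2 := eventually_homeo e.symm h1
  filter_upwards [h2] with y hy
  rwa [e.apply_symm_apply] at hy

/-- pull back along projections -/
theorem eventually_fst {X Y : Type*} [TopologicalSpace X] [TopologicalSpace Y] {P : X → Prop}
    (h : ∀ᶠ x in residual X, P x) : ∀ᶠ p in residual (X × Y), P p.1 :=
  (tendsto_residual_of_isOpenMap continuous_fst isOpenMap_fst).eventually h

theorem eventually_snd {X Y : Type*} [TopologicalSpace X] [TopologicalSpace Y] {P : Y → Prop}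
    (h : ∀ᶠ y in residual Y, P y) : ∀ᶠ p in residual (X × Y), P p.2 :=
  (tendsto_residual_of_isOpenMap continuous_snd isOpenMap_snd).eventually h

end Vale.Agent.P327
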