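import Vale.Agent.Lib.P327.TopA

/-!
# P327 / Top: cylinders

`cyl_basis`: by `exists_cyl` `O` contains `{h | ∀ i < m, h i = g i}`; choose `n₀` larger than `m` and all
`g i`, `i < m`; the injective map `i ↦ g i` on `[m]` extends to a permutation supported below `n₀`, i.e. a product of
transpositions (induction on `m`: if `w = fpn 0 l` agrees with `g` on `[m]`, then `swap (w m) (g m) * w` agrees on `[m + 1]`).
`fpn_dense`: the same construction with all transpositions above `n`.
-/

namespace Vale.Agent.P327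

open Filter Topology Set

theorem supp_mono {w : G} {n m : ℕ} (h : Supp n w) (hnm : n ≤ m) : Supp m w :=
  fun i hi => h i (hnm.trans hi)

/-- a permutation supported below `n` maps `[n]` to itself -/
theorem Supp.lt {w : G} {n : ℕ} (h : Supp n w) {i : ℕ} (hi : i < n) : w i < n := by
  by_contra hc
  have h1 : w (w i) = w i := h (w i) (not_lt.1 hc)
  have h2 : w i = i := w.injective h1
  exact hc (by rw [h2]; exact hi)

theorem top_fpn_cons (n : ℕ) (p : ℕ × ℕ) (l : List (ℕ × ℕ)) (i : ℕ) :
    fpn n (p :: l) i = Equiv.swap (n + p.1) (n + p.2) (fpn n l i) := by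
  simp only [fpn, List.map_cons, List.prod_cons, Equiv.Perm.coe_mul, Function.comp_apply]

theorem top_fpn_nil (n : ℕ) (i : ℕ) : fpn n [] i = i := by
  simp only [fpn, List.map_nil, List.prod_nil, Equiv.Perm.coe_one, id]

/-- product of transpositions code finitely supported permutations -/
theorem supp_fpn (l : List (ℕ × ℕ)) : ∃ n, Supp n (fpn 0 l) := by
  induction l with
  | nil => exact ⟨0, fun i _ => top_fpn_nil 0 i⟩
  | cons p l ih =>
    obtain ⟨n, hn⟩ := ih
    refine ⟨n + p.1 + p.2 + 1, fun i hi => ?_⟩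
    rw [top_fpn_cons, hn i (by omega)]
    exact Equiv.swap_apply_of_ne_of_ne (by omega) (by omega)

theorem fpn_fix (n : ℕ) (l : List (ℕ × ℕ)) (i : ℕ) (hi : i < n) : fpn n l i = i := by
  induction l with
  | nil => exact top_fpn_nil n i
  | cons p l ih =>
    rw [top_fpn_cons, ih]
    exact Equiv.swap_apply_of_ne_of_ne (by omega) (by omega)

theorem top_ge_of_fix {w : G} {n : ℕ} (h : ∀ i < n, w i = i) {m : ℕ} (hm : n ≤ m) : n ≤ w m := by
  by_contra hc
  have h1 : w (w m) = w m := h (w m) (not_le.1 hc)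
  have h2 : w m = m := w.injective h1
  exact hc (by rw [h2]; exact hm)

theorem top_dense (n m : ℕ) (g : G) (hg : ∀ i < n, g i = i) :
    ∃ l : List (ℕ × ℕ), ∀ i < m, fpn n l i = g i := by
  induction m with
  | zero => exact ⟨[], fun i hi => absurd hi (Nat.not_lt_zero i)⟩
  | succ m ih =>
    obtain ⟨l, hl⟩ := ih
    rcases lt_or_ge m n with hmn | hmn
    · refine ⟨l, fun i hi => ?_⟩
      rcases Nat.lt_succ_iff_lt_or_eq.1 hi with h | h
      · exact hl i h
      · rw [h, fpn_fix n l m hmn, hg m hmn]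
    · have h1 : n ≤ fpn n l m := top_ge_of_fix (fpn_fix n l) hmn
      have h2 : n ≤ g m := top_ge_of_fix hg hmn
      have e1 : n + (fpn n l m - n) = fpn n l m := by omega
      have e2 : n + (g m - n) = g m := by omega
      refine ⟨(fpn n l m - n, g m - n) :: l, fun i hi => ?_⟩
      rw [top_fpn_cons]
      show Equiv.swap (n + (fpn n l m - n)) (n + (g m - n)) (fpn n l i) = g i
      rw [e1, e2]
      rcases Nat.lt_succ_iff_lt_or_eq.1 hi with h | h
      · have h3 : fpn n l i ≠ fpn n l m := fun hc => absurd ((fpn n l).injective hc) (by omega)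
        have h4 : fpn n l i ≠ g m := by
          rw [hl i h]
          exact fun hc => absurd (g.injective hc) (by omega)
        rw [Equiv.swap_apply_of_ne_of_ne h3 h4]
        exact hl i h
      · rw [h, Equiv.swap_apply_left]

/-- cylinders of finitely supported permutations form a basis -/
theorem cyl_basis {O : Set G} (hO : IsOpen O) (hne : O.Nonempty) :
    ∃ (l : List (ℕ × ℕ)) (n₀ : ℕ), Supp n₀ (fpn 0 l) ∧ ∀ n ≥ n₀, Cyl (fpn 0 l) n ⊆ O := by
  obtain ⟨g, hg⟩ := hne
  obtain ⟨m, hm⟩ := exists_cyl hO hg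
  obtain ⟨l, hl⟩ := top_dense 0 m g (fun i hi => absurd hi (Nat.not_lt_zero i))
  obtain ⟨n₁, hn₁⟩ := supp_fpn l
  refine ⟨l, n₁ + m, supp_mono hn₁ (Nat.le_add_right _ _), fun n hn h hh => hm fun i hi => ?_⟩
  rw [← hl i hi]
  exact hh i (by omega)

/-- inside the pointwise stabiliser of `[n]`, products of transpositions are dense -/
theorem fpn_dense (n m : ℕ) (g : G) (hg : ∀ i < n, g i = i) :
    ∃ l : List (ℕ × ℕ), ∀ i < m, fpn n l i = g i :=
  top_dense n m g hg

end Vale.Agent.P327
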