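import Vale.Agent.Lib.P327.Search
import Vale.Agent.Lib.P327.Top
import Vale.Agent.Lib.P327.KU

/-!
# P327 / Dense: the lemma (M)

`tle_of_dense`: choose `Cyl (fpn 0 lw) n ⊆ O` (`cyl_basis`), `w = fpn 0 lw`. `ψ α k j`: decode `j` as `(l : List (ℕ × ℕ), L)`, put
`σ = pref (r (w * fpn n l)) L` (computable in `(l, L)`: the value `(w * fpn n l) i` is a fold of transpositions), output
`(φ.T (ljoin α σ))[k]?`.  Sound: the set `{g | pref (r g) L = σ} ∩ Cyl w n` is open and contains `w * fpn n l`, so it contains some `g ∈ N`;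
then `ljoin α σ` is an initial segment of `join A (r g)` if `α` is one of `A`.
Complete: take `g ∈ N ∩ Cyl w n`, a long initial segment, and `fpn_dense` for `w⁻¹ * g`.
`tle_of_freq`: from nonmeager many `g`, one functional (pigeonhole, `Tr` countable), localize.
-/

namespace Vale.Agent.P327

open Filter Topology Set

theorem fpn_foldr (n : ℕ) (l : List (ℕ × ℕ)) (i : ℕ) :
    fpn n l i = l.foldr (fun p x => if x = n + p.1 then n + p.2
      else if x = n + p.2 then n + p.1 else x) i := by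
  induction l with
  | nil => simp [fpn]
  | cons a t ih =>
    have h : fpn n (a :: t) i = Equiv.swap (n + a.1) (n + a.2) (fpn n t i) := by
      simp [fpn, Equiv.Perm.mul_apply]
    rw [h, ih, List.foldr_cons, Equiv.swap_apply_def]

theorem primrec_fpn (n : ℕ) : Primrec (fun p : List (ℕ × ℕ) × ℕ => fpn n p.1 p.2) := by
  have h : (fun p : List (ℕ × ℕ) × ℕ => fpn n p.1 p.2) = fun p : List (ℕ × ℕ) × ℕ =>
      p.1.foldr (fun q x => if x = n + q.1 then n + q.2
      else if x = n + q.2 then n + q.1 else x) p.2 := by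
    funext p
    exact fpn_foldr n p.1 p.2
  rw [h]
  refine Primrec.list_foldr (h := fun (_ : List (ℕ × ℕ) × ℕ) (b : (ℕ × ℕ) × ℕ) =>
    if b.2 = n + b.1.1 then n + b.1.2 else if b.2 = n + b.1.2 then n + b.1.1 else b.2)
    Primrec.fst Primrec.snd ?_
  have hx : Primrec fun p : (List (ℕ × ℕ) × ℕ) × ((ℕ × ℕ) × ℕ) => p.2.2 :=
    Primrec.snd.comp Primrec.snd
  have ha : Primrec fun p : (List (ℕ × ℕ) × ℕ) × ((ℕ × ℕ) × ℕ) => n + p.2.1.1 :=
    Primrec.nat_add.comp (Primrec.const n)
      (Primrec.fst.comp (Primrec.fst.comp Primrec.snd))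
  have hb : Primrec fun p : (List (ℕ × ℕ) × ℕ) × ((ℕ × ℕ) × ℕ) => n + p.2.1.2 :=
    Primrec.nat_add.comp (Primrec.const n)
      (Primrec.snd.comp (Primrec.fst.comp Primrec.snd))
  exact Primrec.ite (Primrec.eq.comp hx ha) hb (Primrec.ite (Primrec.eq.comp hx hb) ha hx)

/-- values of products of transpositions are computable, uniformly -/
theorem computable_fpn (n : ℕ) : Computable (fun p : List (ℕ × ℕ) × ℕ => fpn n p.1 p.2) :=
  (primrec_fpn n).to_comp

/-- initial segments of `w * fpn n l`, with `w = fpn 0 lw`, are primitive recursive in `(l, L)` -/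
theorem primrec_pref_fpn (lw : List (ℕ × ℕ)) (n : ℕ) :
    Primrec (fun q : List (ℕ × ℕ) × ℕ => pref (r (fpn 0 lw * fpn n q.1)) q.2) := by
  have h : (fun q : List (ℕ × ℕ) × ℕ => pref (r (fpn 0 lw * fpn n q.1)) q.2) =
      fun q : List (ℕ × ℕ) × ℕ => (List.range q.2).map fun i => fpn 0 lw (fpn n q.1 i) := by
    funext q
    rfl
  rw [h]
  refine Primrec.list_map (Primrec.list_range.comp Primrec.snd) ?_
  have h1 : Primrec fun p : (List (ℕ × ℕ) × ℕ) × ℕ => fpn n p.1.1 p.2 :=
    (primrec_fpn n).comp (Primrec.pair (Primrec.fst.comp Primrec.fst) Primrec.snd)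
  exact (primrec_fpn 0).comp (Primrec.pair (Primrec.const lw) h1)

theorem isOpen_agree (g : G) (L : ℕ) : IsOpen {h : G | ∀ i < L, h i = g i} :=
  isOpen_cyl g L

theorem tle_of_dense {A W : R} (φ : Tr) (O : Set G) (hO : IsOpen O) (hne : O.Nonempty)
    (N : Set G) (hN : ∀ V : Set G, IsOpen V → V.Nonempty → V ⊆ O → (N ∩ V).Nonempty)
    (h : ∀ g ∈ N, Red φ (join A (r g)) W) : TLE W A := by
  obtain ⟨lw, n, hsupp, hcyl⟩ := cyl_basis hO hne
  have hsub : Cyl (fpn 0 lw) n ⊆ O := hcyl n le_rfl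
  refine tle_of_search (f := A) (g := W)
    (fun α k j => (Encodable.decode (α := List (ℕ × ℕ) × ℕ) j).bind fun q =>
      (φ.T (ljoin α (pref (r (fpn 0 lw * fpn n q.1)) q.2)))[k]?) ?_ ?_ ?_
  · refine Computable.option_bind
      (f := fun p : List ℕ × ℕ × ℕ => Encodable.decode (α := List (ℕ × ℕ) × ℕ) p.2.2)
      (g := fun p q => (φ.T (ljoin p.1 (pref (r (fpn 0 lw * fpn n q.1)) q.2)))[p.2.1]?)
      (Computable.decode.comp (Computable.snd.comp Computable.snd)) ?_
    refine Computable.list_getElem?.comp (φ.comp.comp (computable_ljoin.comp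
      (Computable.fst.comp Computable.fst) ?_))
      (Computable.fst.comp (Computable.snd.comp Computable.fst))
    exact (primrec_pref_fpn lw n).to_comp.comp Computable.snd
  · intro l' k j v hv
    obtain ⟨q, hq, hv⟩ := Option.bind_eq_some_iff.1 hv
    obtain ⟨l, L⟩ := q
    simp only at hv
    have hmem : fpn 0 lw * fpn n l ∈ Cyl (fpn 0 lw) n := by
      intro i hi
      rw [Equiv.Perm.mul_apply, fpn_fix n l i hi]
    obtain ⟨g, hgN, hgV⟩ := hN
      (Cyl (fpn 0 lw * fpn n l) L ∩ Cyl (fpn 0 lw) n)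
      ((isOpen_cyl _ L).inter (isOpen_cyl _ n)) ⟨_, fun i _ => rfl, hmem⟩
      (fun x hx => hsub hx.2)
    have hpref : pref (r (fpn 0 lw * fpn n l)) L = pref (r g) L :=
      (pref_eq_iff _ _ L).2 fun i hi => (hgV.1 i hi).symm
    rw [hpref, ljoin_pref] at hv
    have hout := (h g hgN).out_prefix (2 * min l' L)
    rw [hout] at hv
    have hk : k < (φ.T (pref (join A (r g)) (2 * min l' L))).length := by
      by_contra hcon
      rw [List.getElem?_eq_none (by rw [pref_length]; omega)] at hv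
      exact absurd hv (by simp)
    rw [pref_getElem _ _ _ hk] at hv
    exact (Option.some.inj hv).symm
  · intro k
    obtain ⟨g, hgN, hgV⟩ := hN (Cyl (fpn 0 lw) n) (isOpen_cyl _ n) ⟨_, fun i _ => rfl⟩ hsub
    obtain ⟨m₀, hm₀⟩ := (h g hgN).eventually (k + 1)
    have hfix : ∀ i < n, ((fpn 0 lw)⁻¹ * g) i = i := by
      intro i hi
      rw [Equiv.Perm.mul_apply, hgV i hi]
      exact (fpn 0 lw).symm_apply_apply i
    obtain ⟨l, hl⟩ := fpn_dense n m₀ ((fpn 0 lw)⁻¹ * g) hfix
    refine ⟨m₀, Encodable.encode (l, m₀), ?_⟩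
    have hpref : pref (r (fpn 0 lw * fpn n l)) m₀ = pref (r g) m₀ := by
      refine (pref_eq_iff _ _ m₀).2 fun i hi => ?_
      show fpn 0 lw (fpn n l i) = g i
      rw [hl i hi, Equiv.Perm.mul_apply]
      exact (fpn 0 lw).apply_symm_apply (g i)
    have hval : (φ.T (ljoin (pref A m₀) (pref (r (fpn 0 lw * fpn n l)) m₀)))[k]? =
        some (W k) := by
      rw [hpref, ljoin_pref]
      obtain ⟨t, ht⟩ := hm₀ (2 * min m₀ m₀) (by rw [min_self]; omega)
      rw [← ht, List.getElem?_append_left (by rw [pref_length]; omega)]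
      exact pref_getElem _ _ _ (by omega)
    simp only [Encodable.encodek, Option.bind_some]
    exact hval

/-- lemma (M) -/
theorem tle_of_freq {A W : R} (h : ∃ᶠ g in residual G, TLE W (join A (r g))) : TLE W A := by
  have h1 : ∃ᶠ g in residual G, ∃ φ : Tr, Red φ (join A (r g)) W :=
    h.mono fun g hg => tle_iff.1 hg
  obtain ⟨φ, hφ⟩ := pigeon h1
  obtain ⟨U, hU, hne, hloc⟩ := localize hφ
  refine tle_of_dense φ U hU hne {g | Red φ (join A (r g)) W} ?_ fun g hg => hg
  intro V hV hVne hVU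
  obtain ⟨x, hx⟩ := (hloc V hV hVne hVU).exists
  exact ⟨x, hx.2, hx.1⟩

end Vale.Agent.P327
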