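import Vale.Agent.Lib.P327.PermA

/-!
# P327 / PermComp: computability facts about permutations

Use `Nat.RecursiveIn` directly (`rfind`, `comp`, …) or `tle_of_search`.
* `tle_mul`: `(g * h) n = g (h n)`.
* `tle_inv`: `g⁻¹ n` is the least `x` with `g x = n`.
* `exists_perm`: code `f` by the permutation which swaps `2 k` and `2 k + 1` iff `k = pair a b` with `f a = b`.
* `exists_bit`: `Z k = true` iff `k = pair a b` with `f a = b`.
* `teq_mul_right`, `teq_mul_left`: from `tle_mul`, `tle_of_computable` and `cp_inv`.
* `tle_quot`: `α = g⁻¹ * (g * α)`.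
-/

namespace Vale.Agent.P327

open Filter Topology Set

private theorem permComp_comp {f g h : R} (hf : TLE f h) (hg : TLE g h) :
    TLE (fun n => f (g n)) h := by
  have h1 := Nat.RecursiveIn.comp hf hg
  refine Nat.RecursiveIn.of_eq h1 fun n => ?_
  exact Part.bind_some _ _

private theorem permComp_pair {f g h : R} (hf : TLE f h) (hg : TLE g h) :
    TLE (fun n => Nat.pair (f n) (g n)) h := by
  have h1 := Nat.RecursiveIn.pair hf hg
  refine Nat.RecursiveIn.of_eq h1 fun n => ?_
  simp [Seq.seq]

private theorem permComp_rfind {F h : R} {v : R} (hF : TLE F h)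
    (h0 : ∀ a, F (Nat.pair a (v a)) = 0) (h1 : ∀ a b, b < v a → F (Nat.pair a b) ≠ 0) :
    TLE v h := by
  have h2 := Nat.RecursiveIn.rfind hF
  refine Nat.RecursiveIn.of_eq_tot h2 fun a => ?_
  refine Nat.mem_rfind.2 ⟨?_, ?_⟩
  · have := h0 a
    simp [this]
  · intro m hm
    have := h1 a m hm
    simp [this]

/-- a computable real is below every real -/
theorem tle_of_computable {f : R} (hf : Computable f) (g : R) : TLE f g :=
  Nat.Partrec.recursiveIn (Partrec.nat_iff.1 hf.partrec)

theorem tle_mul (g h : G) : TLE (r (g * h)) (join (r g) (r h)) :=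
  permComp_comp (f := r g) (g := r h) (tle_join_left (r g) (r h)) (tle_join_right (r g) (r h))

private theorem permComp_sub : Computable (fun p : ℕ => (p.unpair.1 - p.unpair.2) : R) :=
  (Primrec.nat_sub.comp (Primrec.fst.comp Primrec.unpair)
    (Primrec.snd.comp Primrec.unpair)).to_comp

private theorem permComp_absdiff :
    Computable (fun p : ℕ => (p.unpair.1 - p.unpair.2) + (p.unpair.2 - p.unpair.1) : R) :=
  (Primrec.nat_add.comp (Primrec.nat_sub.comp (Primrec.fst.comp Primrec.unpair)
    (Primrec.snd.comp Primrec.unpair)) (Primrec.nat_sub.comp (Primrec.snd.comp Primrec.unpair)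
    (Primrec.fst.comp Primrec.unpair))).to_comp

private theorem permComp_fst : Computable (fun p : ℕ => p.unpair.1 : R) :=
  (Primrec.fst.comp Primrec.unpair).to_comp

private theorem permComp_snd : Computable (fun p : ℕ => p.unpair.2 : R) :=
  (Primrec.snd.comp Primrec.unpair).to_comp

theorem tle_inv (g : G) : TLE (r g⁻¹) (r g) := by
  have e1 : TLE (fun p : ℕ => g p.unpair.2) (r g) :=
    permComp_comp (f := r g) (TLE.refl _) (tle_of_computable permComp_snd _)
  have e2 : TLE (fun p : ℕ => Nat.pair (g p.unpair.2) p.unpair.1) (r g) :=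
    permComp_pair e1 (tle_of_computable permComp_fst _)
  have e3 := permComp_comp (tle_of_computable permComp_absdiff (r g)) e2
  refine permComp_rfind e3 ?_ ?_
  · intro a
    simp [r]
  · intro a b hb
    simp only [Nat.unpair_pair]
    intro h
    have h1 : g b = a := by omega
    have h2 : g⁻¹ a = b := by rw [← h1]; simp
    simp only [r] at hb
    omega

theorem teq_mul_right (g : G) {u : G} (hu : CP u) : TEq (r (g * u)) (r g) := by
  constructor
  · exact TLE.trans (tle_mul g u) (join_tle (TLE.refl _) (tle_of_computable hu.1 _))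
  · have h1 := tle_mul (g * u) u⁻¹
    rw [mul_inv_cancel_right] at h1
    exact TLE.trans h1 (join_tle (TLE.refl _) (tle_of_computable (cp_inv hu).1 _))

theorem teq_mul_left (g : G) {u : G} (hu : CP u) : TEq (r (u * g)) (r g) := by
  constructor
  · exact TLE.trans (tle_mul u g) (join_tle (tle_of_computable hu.1 _) (TLE.refl _))
  · have h1 := tle_mul u⁻¹ (u * g)
    rw [inv_mul_cancel_left] at h1
    exact TLE.trans h1 (join_tle (tle_of_computable (cp_inv hu).1 _) (TLE.refl _))

/-- the swap of `2 k` and `2 k + 1` controlled by `f` -/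
private def permCompFun (f : R) (n : ℕ) : ℕ :=
  if f (n / 2).unpair.1 = (n / 2).unpair.2 then (if n % 2 = 0 then n + 1 else n - 1) else n

private theorem permComp_invol (f : R) (n : ℕ) : permCompFun f (permCompFun f n) = n := by
  by_cases h : f (n / 2).unpair.1 = (n / 2).unpair.2
  · by_cases h2 : n % 2 = 0
    · have e1 : permCompFun f n = n + 1 := by simp [permCompFun, h, h2]
      have e2 : (n + 1) / 2 = n / 2 := by omega
      have e3 : ¬ (n + 1) % 2 = 0 := by omega
      rw [e1]
      simp only [permCompFun, e2, if_pos h, if_neg e3]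
      omega
    · have e1 : permCompFun f n = n - 1 := by simp [permCompFun, h, h2]
      have e2 : (n - 1) / 2 = n / 2 := by omega
      have e3 : (n - 1) % 2 = 0 := by omega
      rw [e1]
      simp only [permCompFun, e2, if_pos h, if_pos e3]
      omega
  · have e1 : permCompFun f n = n := by simp [permCompFun, h]
    rw [e1, e1]

private def permCompPerm (f : R) : G where
  toFun := permCompFun f
  invFun := permCompFun f
  left_inv := permComp_invol f
  right_inv := permComp_invol f

private theorem permComp_computable_one :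
    Computable (fun p : ℕ => (if p.unpair.2 = (p.unpair.1 / 2).unpair.2 then
      (if p.unpair.1 % 2 = 0 then p.unpair.1 + 1 else p.unpair.1 - 1) else p.unpair.1) : R) := by
  have pf : Primrec (fun p : ℕ => p.unpair.1) := Primrec.fst.comp Primrec.unpair
  have ps : Primrec (fun p : ℕ => p.unpair.2) := Primrec.snd.comp Primrec.unpair
  have ph : Primrec (fun p : ℕ => (p.unpair.1 / 2).unpair.2) :=
    ps.comp (Primrec.nat_div.comp pf (Primrec.const 2))
  have c1 : PrimrecPred (fun p : ℕ => p.unpair.2 = (p.unpair.1 / 2).unpair.2) :=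
    Primrec.eq.comp ps ph
  have c2 : PrimrecPred (fun p : ℕ => p.unpair.1 % 2 = 0) :=
    Primrec.eq.comp (Primrec.nat_mod.comp pf (Primrec.const 2)) (Primrec.const 0)
  exact (Primrec.ite c1 (Primrec.ite c2 (Primrec.succ.comp pf)
    (Primrec.pred.comp pf)) pf).to_comp

private theorem permComp_computable_two :
    Computable (fun p : ℕ => (if p.unpair.2 = p.unpair.1.unpair.2 then 1 else 0) : R) := by
  have pf : Primrec (fun p : ℕ => p.unpair.1) := Primrec.fst.comp Primrec.unpair
  have ps : Primrec (fun p : ℕ => p.unpair.2) := Primrec.snd.comp Primrec.unpair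
  have c1 : PrimrecPred (fun p : ℕ => p.unpair.2 = p.unpair.1.unpair.2) :=
    Primrec.eq.comp ps (ps.comp pf)
  exact (Primrec.ite c1 (Primrec.const 1) (Primrec.const 0)).to_comp

theorem exists_perm (f : R) : ∃ α : G, TEq (r α) f := by
  refine ⟨permCompPerm f, ?_, ?_⟩
  · have ce : Computable (fun n : ℕ => (n / 2).unpair.1 : R) :=
      ((Primrec.fst.comp Primrec.unpair).comp
        (Primrec.nat_div.comp Primrec.id (Primrec.const 2))).to_comp
    have e1 : TLE (fun n : ℕ => f (n / 2).unpair.1) f :=
      permComp_comp (f := f) (TLE.refl _) (tle_of_computable ce _)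
    have e2 : TLE (fun n : ℕ => Nat.pair n (f (n / 2).unpair.1)) f :=
      permComp_pair (f := fun n => n) (tle_of_computable Computable.id _) e1
    have e3 := permComp_comp (tle_of_computable permComp_computable_one f) e2
    have e4 : (fun n : ℕ => (fun p : ℕ => (if p.unpair.2 = (p.unpair.1 / 2).unpair.2 then
      (if p.unpair.1 % 2 = 0 then p.unpair.1 + 1 else p.unpair.1 - 1) else p.unpair.1))
        (Nat.pair n (f (n / 2).unpair.1))) = r (permCompPerm f) := by
      funext n
      simp only [Nat.unpair_pair, r]
      rfl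
    rw [← e4]
    exact e3
  · have c2 : Computable (fun n : ℕ => 2 * n : R) :=
      (Primrec.nat_mul.comp (Primrec.const 2) Primrec.id).to_comp
    have c3 : Computable (fun n : ℕ => 2 * n + 1 : R) :=
      (Primrec.succ.comp (Primrec.nat_mul.comp (Primrec.const 2) Primrec.id)).to_comp
    have e1 : TLE (fun n : ℕ => permCompPerm f (2 * n)) (r (permCompPerm f)) :=
      permComp_comp (f := r (permCompPerm f)) (TLE.refl _) (tle_of_computable c2 _)
    have e2 : TLE (fun n : ℕ => Nat.pair (2 * n + 1) (permCompPerm f (2 * n)))
        (r (permCompPerm f)) :=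
      permComp_pair (f := fun n : ℕ => 2 * n + 1) (tle_of_computable c3 _) e1
    have e3 := permComp_comp (tle_of_computable permComp_sub (r (permCompPerm f))) e2
    have hval : ∀ a b : ℕ, (permCompPerm f) (2 * Nat.pair a b) =
        if f a = b then 2 * Nat.pair a b + 1 else 2 * Nat.pair a b := by
      intro a b
      have h1 : 2 * Nat.pair a b / 2 = Nat.pair a b := by omega
      have h2 : 2 * Nat.pair a b % 2 = 0 := by omega
      change permCompFun f (2 * Nat.pair a b) = _
      simp only [permCompFun, h1, h2, Nat.unpair_pair, if_true]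
    refine permComp_rfind e3 ?_ ?_
    · intro a
      simp only [Nat.unpair_pair, hval, if_true, Nat.sub_self]
    · intro a b hb
      simp only [Nat.unpair_pair, hval]
      rw [if_neg (by omega)]
      omega

theorem exists_bit (f : R) : ∃ Z : ℕ → Bool, TEq (bit Z) f := by
  refine ⟨fun k => decide (f k.unpair.1 = k.unpair.2), ?_, ?_⟩
  · have e1 : TLE (fun n : ℕ => f n.unpair.1) f :=
      permComp_comp (f := f) (TLE.refl _) (tle_of_computable permComp_fst _)
    have e2 : TLE (fun n : ℕ => Nat.pair n (f n.unpair.1)) f :=
      permComp_pair (f := fun n => n) (tle_of_computable Computable.id _) e1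
    have e3 := permComp_comp (tle_of_computable permComp_computable_two f) e2
    have e4 : (fun n : ℕ => (fun p : ℕ => (if p.unpair.2 = p.unpair.1.unpair.2 then 1 else 0))
        (Nat.pair n (f n.unpair.1))) = bit fun k => decide (f k.unpair.1 = k.unpair.2) := by
      funext n
      simp only [Nat.unpair_pair, bit, decide_eq_true_eq]
    rw [← e4]
    exact e3
  · have c3 : Computable (fun _ : ℕ => 1 : R) := Computable.const 1
    have e2 : TLE (fun n : ℕ => Nat.pair 1
        ((bit fun k => decide (f k.unpair.1 = k.unpair.2)) n))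
        (bit fun k => decide (f k.unpair.1 = k.unpair.2)) :=
      permComp_pair (f := fun _ : ℕ => 1) (tle_of_computable c3 _) (TLE.refl _)
    have e3 := permComp_comp (tle_of_computable permComp_sub
      (bit fun k => decide (f k.unpair.1 = k.unpair.2))) e2
    refine permComp_rfind e3 ?_ ?_
    · intro a
      simp [bit]
    · intro a b hb
      have h1 : ¬ f a = b := by omega
      simp [bit, h1]

/-- `α` is computed by `g` and `g * α` -/
theorem tle_quot (g α : G) : TLE (r α) (join (r g) (r (g * α))) := by
  have h1 := tle_mul g⁻¹ (g * α)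
  rw [inv_mul_cancel_left] at h1
  exact TLE.trans h1 (join_tle (TLE.trans (tle_inv g) (tle_join_left _ _))
    (tle_join_right _ _))

end Vale.Agent.P327
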