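import Vale.Agent.Lib.P327.Meas
import Vale.Agent.Lib.P327.PermComp
import Vale.Agent.Lib.P327.Coding
import Vale.Agent.Lib.P327.Dense

/-!
# P327 / Bound: Step 1, `π f ≤ f + C` for all `f`

Let `A, K` be as in `coding`, `B = π.g K`, `A' n = π.g (A n)`.
For a real `f` choose `Z` with `bit Z ≡ join (π.f f) K` (`exists_bit`), `D ≤ join (bit Z) K ≤ bit Z` from `coding`. Then
`π.g D ≤ π.g (bit Z) ≤ π.g (join (π.f f) K) ≤ join f B` (`auto_join`), so `Red φ (join f B) (π.g D)` for some `φ`, and
`Z n = true ↔ TLE (A n) D ↔ TLE (A' n) (π.g D) ↔ TLE (A' n) (val φ (join f B))`. And `π.f f ≤ bit Z`: `Red χ (bit Z) (π.f f)`.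
So with `Zφ f n := decide (TLE (A' n) (val φ (join f B)))` we have `π.f f = val χ (bit (Zφ f))` for some `φ, χ`.
The function `g ↦ val χ (bit (Zφ (r g)))` on `G` is Borel; `tle_of_measurable` gives `c φ χ`; `C` above all of them.
So for comeager many `g`: `π.f (r g) ≤ join (r g) C`. For any real `a`, `a ≡ r α`, comeager many `g`:
`a ≤ join (r g) (r (g * α))`, so `π.f a ≤ join (π.f (r g)) (π.f (r (g * α))) ≤ join (join a C) (r g)`; conclude by `tle_of_freq`.
-/

namespace Vale.Agent.P327

open Filter Topology Set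

/-- an automorphism preserves joins -/
theorem auto_join (π : Auto) (a b : R) : TEq (π.f (join a b)) (join (π.f a) (π.f b)) := by
  constructor
  · have ha : TLE a (π.g (join (π.f a) (π.f b))) :=
      TLE.trans (π.gf a).2 ((π.hg _ _).1 (tle_join_left _ _))
    have hb : TLE b (π.g (join (π.f a) (π.f b))) :=
      TLE.trans (π.gf b).2 ((π.hg _ _).1 (tle_join_right _ _))
    exact TLE.trans ((π.hf _ _).1 (join_tle ha hb)) (π.fg _).1
  · exact join_tle ((π.hf _ _).1 (tle_join_left _ _)) ((π.hf _ _).1 (tle_join_right _ _))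

open Classical in
/-- the set decoded by `φ` -/
noncomputable def boundZ (A' : ℕ → R) (B : R) (φ : Tr) (f : R) : ℕ → Bool :=
  fun n => decide (TLE (A' n) (val φ (join f B)))

theorem boundZ_iff (A' : ℕ → R) (B : R) (φ : Tr) (f : R) (n : ℕ) :
    boundZ A' B φ f n = true ↔ TLE (A' n) (val φ (join f B)) := by
  classical
  unfold boundZ
  exact decide_eq_true_iff

theorem bound_repr (π : Auto) : ∃ (A' : ℕ → R) (B : R), ∀ f : R, ∃ φ χ : Tr,
    π.f f = val χ (bit (boundZ A' B φ f)) := by
  obtain ⟨A, K, hAK⟩ := coding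
  refine ⟨fun n => π.g (A n), π.g K, fun f => ?_⟩
  obtain ⟨Z, hZ⟩ := exists_bit (join (π.f f) K)
  obtain ⟨D, hD, hAD⟩ := hAK Z
  have hDZ : TLE D (bit Z) :=
    TLE.trans hD (join_tle (TLE.refl _) (TLE.trans (tle_join_right _ _) hZ.2))
  have h1 : TLE (π.g (join (π.f f) K)) (join f (π.g K)) :=
    TLE.trans (auto_join π.symm (π.f f) K).1
      (join_tle (TLE.trans (π.gf f).1 (tle_join_left _ _)) (tle_join_right _ _))
  have h2 : TLE (π.g D) (join f (π.g K)) :=
    TLE.trans ((π.hg _ _).1 hDZ) (TLE.trans ((π.hg _ _).1 hZ.1) h1)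
  obtain ⟨φ, hφ⟩ := tle_iff.1 h2
  have hval : val φ (join f (π.g K)) = π.g D := Red.val_eq hφ
  have h3 : TLE (π.f f) (bit Z) := TLE.trans (tle_join_left _ _) hZ.2
  obtain ⟨χ, hχ⟩ := tle_iff.1 h3
  refine ⟨φ, χ, ?_⟩
  have hZ' : boundZ (fun n => π.g (A n)) (π.g K) φ f = Z := by
    funext n
    rw [Bool.eq_iff_iff, boundZ_iff, hval]
    exact (π.hg (A n) D).symm.trans (hAD n)
  rw [hZ']
  exact (Red.val_eq hχ).symm

theorem bound_measurable (A' : ℕ → R) (B : R) (φ χ : Tr) :
    Measurable fun g : G => val χ (bit (boundZ A' B φ (r g))) := by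
  refine (measurable_val χ).comp (measurable_pi_lambda _ fun n => ?_)
  have hm : Measurable fun g : G => ((A' n, val φ (join (r g) B)) : R × R) := by
    refine Measurable.prodMk measurable_const ((measurable_val φ).comp ?_)
    exact measurable_join.comp (Measurable.prodMk measurable_r measurable_const)
  have hS : MeasurableSet {g : G | TLE (A' n) (val φ (join (r g) B))} := hm measurableSet_tle
  have hS' : MeasurableSet {g : G | boundZ A' B φ (r g) n = true} := by
    have he : {g : G | boundZ A' B φ (r g) n = true}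
        = {g : G | TLE (A' n) (val φ (join (r g) B))} := by
      ext g
      exact boundZ_iff A' B φ (r g) n
    rw [he]
    exact hS
  exact Measurable.ite hS' measurable_const measurable_const

theorem bound_nonempty_tr : Nonempty Tr :=
  ⟨⟨fun _ => [], Computable.const [], fun _ _ _ => List.prefix_rfl⟩⟩

theorem bound_generic (π : Auto) : ∃ C : R, ∀ᶠ g in residual G, TLE (π.f (r g)) (join (r g) C) := by
  obtain ⟨A', B, hrep⟩ := bound_repr π
  have hc : ∀ p : Tr × Tr, ∃ c : R, ∀ᶠ g in residual G,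
      TLE (val p.2 (bit (boundZ A' B p.1 (r g)))) (join (r g) c) := fun p =>
    tle_of_measurable _ (bound_measurable A' B p.1 p.2)
  choose c hc using hc
  have : Nonempty Tr := bound_nonempty_tr
  obtain ⟨e, he⟩ := exists_surjective_nat (Tr × Tr)
  obtain ⟨C, hC⟩ := exists_upper fun n => c (e n)
  refine ⟨C, ?_⟩
  have hall : ∀ᶠ g in residual G, ∀ p : Tr × Tr,
      TLE (val p.2 (bit (boundZ A' B p.1 (r g)))) (join (r g) (c p)) :=
    eventually_countable_forall.2 hc
  filter_upwards [hall] with g hg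
  obtain ⟨φ, χ, hφ⟩ := hrep (r g)
  obtain ⟨n, hn⟩ := he (φ, χ)
  have h1 := hg (φ, χ)
  have h2 := hC n
  simp only [hn] at h2
  rw [hφ]
  exact TLE.trans h1 (join_tle (tle_join_left _ _) (TLE.trans h2 (tle_join_right _ _)))

theorem bound_aux (π : Auto) (C : R) (h : ∀ᶠ g in residual G, TLE (π.f (r g)) (join (r g) C)) (a : R) :
    TLE (π.f a) (join a C) := by
  obtain ⟨α, hα⟩ := exists_perm a
  have h' : ∀ᶠ g in residual G, TLE (π.f (r (g * α))) (join (r (g * α)) C) :=
    eventually_homeo (Homeomorph.mulRight α) h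
  refine tle_of_freq ?_
  refine (open_freq (X := G) isOpen_univ univ_nonempty).mp ?_
  filter_upwards [h, h'] with g hg hg' _
  have h1 : TLE a (join (r g) (r (g * α))) := TLE.trans hα.2 (tle_quot g α)
  have h2 : TLE (π.f a) (join (π.f (r g)) (π.f (r (g * α)))) :=
    TLE.trans ((π.hf _ _).1 h1) (auto_join π _ _).1
  have hrg : TLE (r g) (join (join a C) (r g)) := tle_join_right _ _
  have hC : TLE C (join (join a C) (r g)) := TLE.trans (tle_join_right a C) (tle_join_left _ _)
  have ha : TLE a (join (join a C) (r g)) := TLE.trans (tle_join_left a C) (tle_join_left _ _)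
  have hga : TLE (r (g * α)) (join (join a C) (r g)) :=
    TLE.trans (tle_mul g α) (join_tle hrg (TLE.trans hα.1 ha))
  exact TLE.trans h2 (join_tle (TLE.trans hg (join_tle hrg hC)) (TLE.trans hg' (join_tle hga hC)))

/-- Step 1 -/
theorem bound (π : Auto) : ∃ C : R, (∀ a, TLE (π.f a) (join a C)) ∧ ∀ a, TLE (π.g a) (join a C) := by
  obtain ⟨C₁, h₁⟩ := bound_generic π
  obtain ⟨C₂, h₂⟩ := bound_generic π.symm
  refine ⟨join C₁ C₂, fun a => ?_, fun a => ?_⟩
  · exact TLE.trans (bound_aux π C₁ h₁ a)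
      (join_tle (tle_join_left _ _) (TLE.trans (tle_join_left _ _) (tle_join_right _ _)))
  · exact TLE.trans (bound_aux π.symm C₂ h₂ a)
      (join_tle (tle_join_left _ _) (TLE.trans (tle_join_right _ _) (tle_join_right _ _)))

end Vale.Agent.P327
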