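import Vale.Agent.Lib.P327.Lists

/-!
# P327 / Comb: combinators for functionals, uniform in the oracle

composition: `T = ψ.T ∘ φ.T`; identity; `T = levens`, `T = lodds`; pairing: `T σ = ljoin (φ.T σ) (ψ.T σ)`.
-/

namespace Vale.Agent.P327

open Filter Topology Set

/-- composition -/
theorem red_comp (φ ψ : Tr) : ∃ κ : Tr, ∀ f g h, Red φ f g → Red ψ g h → Red κ f h := by
  refine ⟨⟨fun σ => ψ.T (φ.T σ), ψ.comp.comp φ.comp,
    fun σ τ h => ψ.mono _ _ (φ.mono _ _ h)⟩, fun f g h h1 h2 l => ?_⟩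
  obtain ⟨m', hm'⟩ := h2 l
  obtain ⟨m, hm⟩ := h1 m'
  exact ⟨m, hm'.trans (ψ.mono _ _ hm)⟩

theorem red_id : ∃ κ : Tr, ∀ f, Red κ f f :=
  ⟨⟨fun σ => σ, Computable.id, fun _ _ h => h⟩, fun _ l => ⟨l, List.prefix_rfl⟩⟩

theorem red_fst : ∃ κ : Tr, ∀ f g, Red κ (join f g) f := by
  refine ⟨⟨levens, computable_levens, fun _ _ h => levens_mono h⟩, fun f g l => ⟨2 * l, ?_⟩⟩
  show pref f l <+: levens (pref (join f g) (2 * l))
  rw [levens_pref_join, Nat.mul_div_cancel_left l (by norm_num)]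

theorem red_snd : ∃ κ : Tr, ∀ f g, Red κ (join f g) g := by
  refine ⟨⟨lodds, computable_lodds, fun _ _ h => lodds_mono h⟩, fun f g l => ⟨2 * l, ?_⟩⟩
  show pref g l <+: lodds (pref (join f g) (2 * l))
  rw [lodds_pref_join, Nat.mul_div_cancel_left l (by norm_num)]

/-- pairing of two functionals with the same oracle -/
theorem red_join (φ ψ : Tr) : ∃ κ : Tr, ∀ f g h, Red φ f g → Red ψ f h → Red κ f (join g h) := by
  refine ⟨⟨fun σ => ljoin (φ.T σ) (ψ.T σ), computable_ljoin.comp φ.comp ψ.comp,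
    fun σ τ h => ljoin_mono (φ.mono _ _ h) (ψ.mono _ _ h)⟩, fun f g h h1 h2 l => ?_⟩
  obtain ⟨m1, hm1⟩ := h1 l
  obtain ⟨m2, hm2⟩ := h2 l
  refine ⟨max m1 m2, ?_⟩
  show pref (join g h) l <+: ljoin (φ.T (pref f (max m1 m2))) (ψ.T (pref f (max m1 m2)))
  have h3 : pref (join g h) l <+: pref (join g h) (2 * l) := pref_mono _ (by omega)
  rw [pref_join] at h3
  exact h3.trans (ljoin_mono
    (hm1.trans (φ.mono _ _ (pref_mono f (le_max_left m1 m2))))
    (hm2.trans (ψ.mono _ _ (pref_mono f (le_max_right m1 m2)))))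

end Vale.Agent.P327
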