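import Vale.Agent.Lib.P327.Dense
import Vale.Agent.Lib.P327.PermComp

/-!
# P327 / DecodeD: Lemma D

`X k` is computed from `γ`: if `k < n` it is `wX k` (finite table, `Supp n wX`). If `k ≥ n`, search for codes of `(ls, lt, i, L)` with
`s = ws * fpn n ls`, `t = wt * fpn n lt`, `i < L`, `n < L`, `s i = n`, `t n = k` and
`r0 <+: e.T (ljoin (pref (r s) L) (ljoin (pref (r t) L) γ'))` (`γ'` the available initial segment of `γ`; note that
`ljoin σ (ljoin τ γ')` is an initial segment of `join s (join t γ)`, see `ljoin_pref`); output `i`.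
Sound: the open set of all `(s', t')` in the box with `pref (r s') L = pref (r s) L`, `pref (r t') L = pref (r t) L` contains `(s, t)`, so it contains
a point `p` of `S`; `Red e` and monotonicity give `pref (h p) r0.length = r0`, so `(s' * X * t') n = n`, `s' (X (t' n)) = n`, `t' n = k`, `s' i = n`.
Complete: `t0 = wt * swap n k`, `s0 = Zs * t0⁻¹ * X⁻¹` satisfy `t0 ∈ Cyl wt n`, `s0 ∈ Cyl ws n`, `s0 * X * t0 = Zs`. The set of `(s, t)` in the box with
`t n = k`, `(s * X * t) i = Zs i` for `i < l'`, and `(s * X * t) n = n` is open and contains `(s0, t0)`, so it contains `p ∈ S`; then `pref (h p) r0.length = r0`;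
take `L` large, `i = X k` (`s (X k) = n`), and approximate `s, t` by `fpn_dense`.
-/

namespace Vale.Agent.P327

open Filter Topology Set

theorem primrec_of_supp {n : ℕ} {w : G} (h : Supp n w) : Primrec (fun i => w i) := by
  have h1 : (fun i => w i) = fun i => if i < n then ((pref (r w) n)[i]?).getD 0 else i := by
    funext i
    by_cases hi : i < n
    · rw [if_pos hi, pref_getElem _ _ _ hi]
      rfl
    · rw [if_neg hi]
      exact h i (not_lt.1 hi)
  rw [h1]
  refine Primrec.ite (Primrec.nat_lt.comp Primrec.id (Primrec.const n)) ?_ Primrec.id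
  exact Primrec.option_getD.comp (Primrec.list_getElem?.comp (Primrec.const _) Primrec.id)
    (Primrec.const 0)

/-- the codes used in the search of `decodeD` -/
abbrev DCode : Type := (List (ℕ × ℕ) × List (ℕ × ℕ)) × (ℕ × ℕ)

/-- the final check of the search of `decodeD` -/
def dcheck (n : ℕ) (r0 : List ℕ) (k i : ℕ) (σ τ ρ : List ℕ) : Option ℕ :=
  if σ[i]? = some n ∧ τ[n]? = some k ∧ (List.range r0.length).map (fun a => ρ[a]?) = r0.map some
  then some i else none

theorem primrecPred_map (r0 : List ℕ) :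
    PrimrecPred fun ρ : List ℕ => (List.range r0.length).map (fun a => ρ[a]?) = r0.map some := by
  have hm : Primrec fun ρ : List ℕ => (List.range r0.length).map (fun a => ρ[a]?) :=
    Primrec.list_map (Primrec.const _) Primrec.list_getElem?
  exact PrimrecRel.comp Primrec.eq hm (Primrec.const _)

theorem primrec_dcheck (n : ℕ) (r0 : List ℕ) :
    Primrec fun x : (ℕ × ℕ) × (List ℕ × (List ℕ × List ℕ)) =>
      dcheck n r0 x.1.1 x.1.2 x.2.1 x.2.2.1 x.2.2.2 := by
  have hk : Primrec fun x : (ℕ × ℕ) × (List ℕ × (List ℕ × List ℕ)) => some x.1.1 :=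
    Primrec.option_some.comp (Primrec.fst.comp Primrec.fst)
  have hi : Primrec fun x : (ℕ × ℕ) × (List ℕ × (List ℕ × List ℕ)) => x.1.2 :=
    Primrec.snd.comp Primrec.fst
  have h1 : Primrec fun x : (ℕ × ℕ) × (List ℕ × (List ℕ × List ℕ)) => x.2.1[x.1.2]? :=
    Primrec.list_getElem?.comp (Primrec.fst.comp Primrec.snd) hi
  have h2 : Primrec fun x : (ℕ × ℕ) × (List ℕ × (List ℕ × List ℕ)) => x.2.2.1[n]? :=
    Primrec.list_getElem?.comp (Primrec.fst.comp (Primrec.snd.comp Primrec.snd)) (Primrec.const n)
  have h3 : Primrec fun x : (ℕ × ℕ) × (List ℕ × (List ℕ × List ℕ)) => x.2.2.2 :=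
    Primrec.snd.comp (Primrec.snd.comp Primrec.snd)
  have c1 : PrimrecPred fun x : (ℕ × ℕ) × (List ℕ × (List ℕ × List ℕ)) =>
      x.2.1[x.1.2]? = some n := PrimrecRel.comp Primrec.eq h1 (Primrec.const _)
  have c2 : PrimrecPred fun x : (ℕ × ℕ) × (List ℕ × (List ℕ × List ℕ)) =>
      x.2.2.1[n]? = some x.1.1 := PrimrecRel.comp Primrec.eq h2 hk
  have c3 := (primrecPred_map r0).comp h3
  exact Primrec.ite (c1.and (c2.and c3)) (Primrec.option_some.comp hi) (Primrec.const none)

theorem primrec_pref_supp {n : ℕ} {w : G} (h : Supp n w) :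
    Primrec (fun q : List (ℕ × ℕ) × ℕ => pref (r (w * fpn n q.1)) q.2) := by
  have h' : (fun q : List (ℕ × ℕ) × ℕ => pref (r (w * fpn n q.1)) q.2) =
      fun q : List (ℕ × ℕ) × ℕ => (List.range q.2).map fun i => w (fpn n q.1 i) := by
    funext q
    rfl
  rw [h']
  refine Primrec.list_map (Primrec.list_range.comp Primrec.snd) ?_
  exact (primrec_of_supp h).comp ((primrec_fpn n).comp
    (Primrec.pair (Primrec.fst.comp Primrec.fst) Primrec.snd))

theorem map_getElem?_of_prefix {r0 τ : List ℕ} (h : r0 <+: τ) :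
    (List.range r0.length).map (fun a => τ[a]?) = r0.map some := by
  obtain ⟨t, rfl⟩ := h
  refine List.ext_getElem? fun a => ?_
  by_cases ha : a < r0.length
  · rw [List.getElem?_map, List.getElem?_map, List.getElem?_range ha,
      List.getElem?_eq_getElem ha]
    simp [List.getElem?_append_left ha, List.getElem?_eq_getElem ha]
  · rw [List.getElem?_eq_none (by simpa using not_lt.1 ha),
      List.getElem?_eq_none (by simpa using not_lt.1 ha)]

theorem prefix_of_map_getElem? {r0 τ : List ℕ}
    (h : (List.range r0.length).map (fun a => τ[a]?) = r0.map some) : r0 <+: τ := by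
  have key : ∀ a (ha : a < r0.length), τ[a]? = some r0[a] := by
    intro a ha
    have h1 := congrArg (fun l => l[a]?) h
    simp only [List.getElem?_map, List.getElem?_range ha, List.getElem?_eq_getElem ha,
      Option.map_some] at h1
    exact Option.some.inj h1
  refine List.prefix_iff_getElem?.2 fun a ha => ?_
  exact key a ha

/-- the body of the search of `decodeD` -/
def dbody (n : ℕ) (ws wt : G) (e : Tr) (r0 : List ℕ) (α : List ℕ) (k : ℕ) (q : DCode) : Option ℕ :=
  dcheck n r0 k q.2.1 (pref (r (ws * fpn n q.1.1)) q.2.2) (pref (r (wt * fpn n q.1.2)) q.2.2)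
    (e.T (ljoin (pref (r (ws * fpn n q.1.1)) q.2.2) (ljoin (pref (r (wt * fpn n q.1.2)) q.2.2) α)))

theorem computable_dsig (n : ℕ) {w : G} (hw : Supp n w) {β : Type*} [Primcodable β]
    {f : β → List (ℕ × ℕ)} {g : β → ℕ} (hf : Computable f) (hg : Computable g) :
    Computable fun x : β => pref (r (w * fpn n (f x))) (g x) := by
  have h1 := (primrec_pref_supp hw).to_comp
  have h2 : Computable fun x : β => (f x, g x) := Computable.pair hf hg
  have h3 := h1.comp h2
  exact h3

theorem computable_dcheck (n : ℕ) (r0 : List ℕ) {β : Type*} [Primcodable β]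
    {k i : β → ℕ} {σ τ ρ : β → List ℕ} (hk : Computable k) (hi : Computable i)
    (hσ : Computable σ) (hτ : Computable τ) (hρ : Computable ρ) :
    Computable fun x : β => dcheck n r0 (k x) (i x) (σ x) (τ x) (ρ x) := by
  have h1 := (primrec_dcheck n r0).to_comp
  have h2 : Computable fun x : β => ((k x, i x), (σ x, (τ x, ρ x))) :=
    Computable.pair (Computable.pair hk hi) (Computable.pair hσ (Computable.pair hτ hρ))
  have h3 := h1.comp h2
  exact h3

theorem computable_drho (e : Tr) {β : Type*} [Primcodable β]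
    {σ τ α : β → List ℕ} (hσ : Computable σ) (hτ : Computable τ) (hα : Computable α) :
    Computable fun x : β => e.T (ljoin (σ x) (ljoin (τ x) (α x))) :=
  e.comp.comp (computable_ljoin.comp hσ (computable_ljoin.comp hτ hα))

theorem computable_dbody (n : ℕ) {ws wt : G} (hws : Supp n ws) (hwt : Supp n wt) (e : Tr)
    (r0 : List ℕ) : Computable fun x : (List ℕ × ℕ × ℕ) × DCode =>
      dbody n ws wt e r0 x.1.1 x.1.2.1 x.2 := by
  have hL : Computable fun x : (List ℕ × ℕ × ℕ) × DCode => x.2.2.2 :=
    Computable.snd.comp (Computable.snd.comp Computable.snd)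
  have hi : Computable fun x : (List ℕ × ℕ × ℕ) × DCode => x.2.2.1 :=
    Computable.fst.comp (Computable.snd.comp Computable.snd)
  have hk : Computable fun x : (List ℕ × ℕ × ℕ) × DCode => x.1.2.1 :=
    Computable.fst.comp (Computable.snd.comp Computable.fst)
  have hα : Computable fun x : (List ℕ × ℕ × ℕ) × DCode => x.1.1 :=
    Computable.fst.comp Computable.fst
  have hls : Computable fun x : (List ℕ × ℕ × ℕ) × DCode => x.2.1.1 :=
    Computable.fst.comp (Computable.fst.comp Computable.snd)
  have hlt : Computable fun x : (List ℕ × ℕ × ℕ) × DCode => x.2.1.2 :=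
    Computable.snd.comp (Computable.fst.comp Computable.snd)
  have hσ := computable_dsig n hws hls hL
  have hτ := computable_dsig n hwt hlt hL
  have hρ := computable_drho e hσ hτ hα
  exact computable_dcheck n r0 hk hi hσ hτ hρ

theorem dbody_some {n : ℕ} {ws wt : G} {e : Tr} {r0 α : List ℕ} {k v : ℕ} {q : DCode}
    (h : dbody n ws wt e r0 α k q = some v) :
    q.2.1 = v ∧ (pref (r (ws * fpn n q.1.1)) q.2.2)[v]? = some n ∧
      (pref (r (wt * fpn n q.1.2)) q.2.2)[n]? = some k ∧
      r0 <+: e.T (ljoin (pref (r (ws * fpn n q.1.1)) q.2.2)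
        (ljoin (pref (r (wt * fpn n q.1.2)) q.2.2) α)) := by
  unfold dbody dcheck at h
  split_ifs at h with hc
  have hv : q.2.1 = v := Option.some.inj h
  subst hv
  exact ⟨rfl, hc.1, hc.2.1, prefix_of_map_getElem? hc.2.2⟩

theorem pref_getElem_some {f : R} {L a b : ℕ} (h : (pref f L)[a]? = some b) : a < L ∧ f a = b := by
  by_cases ha : a < L
  · rw [pref_getElem _ _ _ ha] at h
    exact ⟨ha, Option.some.inj h⟩
  · rw [List.getElem?_eq_none (by rw [pref_length]; omega)] at h
    exact absurd h (by simp)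

theorem decodeD (n l' : ℕ) (ws wt wX X Zs : G) (hws : Supp n ws) (hwt : Supp n wt)
    (hwX : Supp n wX) (hX : X ∈ Cyl wX n) (hZs : Zs ∈ Cyl (ws * wX * wt) n) (hZn : Zs n = n)
    (e : Tr) (γ : R) (S : Set (G × G)) (h : G × G → R) (r0 : List ℕ)
    (hSsub : ∀ p ∈ S, p.1 ∈ Cyl ws n ∧ p.2 ∈ Cyl wt n)
    (hS : ∀ V : Set (G × G), IsOpen V → (V ∩ (Cyl ws n ×ˢ Cyl wt n)).Nonempty → (S ∩ V).Nonempty)
    (hred : ∀ p ∈ S, Red e (join (r p.1) (join (r p.2) γ)) (h p))
    (hsound : ∀ p ∈ S, pref (h p) r0.length = r0 → (p.1 * X * p.2) n = n)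
    (hcomp : ∀ p ∈ S, (∀ i < l', (p.1 * X * p.2) i = Zs i) → pref (h p) r0.length = r0) :
    TLE (r X) γ := by
  refine tle_of_search (f := γ) (g := r X)
    (fun α k j => bif decide (k < n) then some (wX k) else
      (Encodable.decode (α := DCode) j).bind fun q => dbody n ws wt e r0 α k q) ?_ ?_ ?_
  · have hlt : PrimrecPred fun p : List ℕ × ℕ × ℕ => p.2.1 < n :=
      PrimrecRel.comp Primrec.nat_lt (Primrec.fst.comp Primrec.snd) (Primrec.const n)
    have hlt' : Computable fun p : List ℕ × ℕ × ℕ => decide (p.2.1 < n) :=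
      hlt.decide.to_comp
    have hw : Computable fun p : List ℕ × ℕ × ℕ => some (wX p.2.1) :=
      (Primrec.option_some.comp ((primrec_of_supp hwX).comp
        (Primrec.fst.comp Primrec.snd))).to_comp
    have hb : Computable fun p : List ℕ × ℕ × ℕ =>
        (Encodable.decode (α := DCode) p.2.2).bind fun q => dbody n ws wt e r0 p.1 p.2.1 q :=
      Computable.option_bind
        (Computable.decode.comp (Computable.snd.comp Computable.snd))
        (computable_dbody n hws hwt e r0)
    exact Computable.cond hlt' hw hb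
  · intro m k j v hv
    by_cases hk : k < n
    · simp only [hk, decide_true, cond_true] at hv
      rw [← Option.some.inj hv]
      exact (hX k hk).symm
    · simp only [hk, decide_false, cond_false] at hv
      obtain ⟨q, hq, hv⟩ := Option.bind_eq_some_iff.1 hv
      obtain ⟨⟨ls, lt⟩, i, L⟩ := q
      obtain ⟨hvi, hsi, htn, hpre⟩ := dbody_some hv
      simp only at hvi hsi htn hpre
      obtain ⟨hiL, hsi⟩ := pref_getElem_some hsi
      obtain ⟨hnL, htn⟩ := pref_getElem_some htn
      have hsC : ws * fpn n ls ∈ Cyl ws n := fun a ha => by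
        rw [Equiv.Perm.mul_apply, fpn_fix n ls a ha]
      have htC : wt * fpn n lt ∈ Cyl wt n := fun a ha => by
        rw [Equiv.Perm.mul_apply, fpn_fix n lt a ha]
      obtain ⟨p, hpS, hpV⟩ := hS (Cyl (ws * fpn n ls) L ×ˢ Cyl (wt * fpn n lt) L)
        ((isOpen_cyl _ L).prod (isOpen_cyl _ L))
        ⟨(ws * fpn n ls, wt * fpn n lt), ⟨fun a _ => rfl, fun a _ => rfl⟩, hsC, htC⟩
      have hp1 : pref (r (ws * fpn n ls)) L = pref (r p.1) L :=
        (pref_eq_iff _ _ L).2 fun a ha => (hpV.1 a ha).symm
      have hp2 : pref (r (wt * fpn n lt)) L = pref (r p.2) L :=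
        (pref_eq_iff _ _ L).2 fun a ha => (hpV.2 a ha).symm
      rw [hp1, hp2, ljoin_pref, ljoin_pref, (hred p hpS).out_prefix] at hpre
      have hr0 : pref (h p) r0.length = r0 := (eq_pref_of_prefix _ _ _ hpre).symm
      have hfix := hsound p hpS hr0
      have h2 : p.2 n = k := (hpV.2 n hnL).trans htn
      have h1 : p.1 v = n := (hpV.1 v hiL).trans hsi
      rw [Equiv.Perm.mul_apply, Equiv.Perm.mul_apply, h2] at hfix
      exact (p.1.injective (hfix.trans h1.symm)).symm
  · intro k
    by_cases hk : k < n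
    · refine ⟨0, 0, ?_⟩
      simp only [hk, decide_true, cond_true]
      exact congrArg some (hX k hk).symm
    · have hkn : n ≤ k := not_lt.1 hk
      -- the target pair
      set t0 : G := wt * Equiv.swap n k with ht0
      set s0 : G := Zs * t0⁻¹ * X⁻¹ with hs0
      have ht0n : t0 n = k := by
        rw [ht0, Equiv.Perm.mul_apply, Equiv.swap_apply_left]
        exact hwt k hkn
      have ht0C : t0 ∈ Cyl wt n := by
        intro i hi
        rw [ht0, Equiv.Perm.mul_apply, Equiv.swap_apply_of_ne_of_ne (by omega) (by omega)]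
      have hprod : s0 * X * t0 = Zs := by
        rw [hs0]
        group
      have hs0C : s0 ∈ Cyl ws n := by
        intro i hi
        -- `i = X (t0 c)` with `c < n`
        have hX' : wX.symm i < n := by
          have hsupp' : Supp n wX⁻¹ := fun j hj => by
            rw [Equiv.Perm.inv_eq_iff_eq]
            exact (hwX j hj).symm
          exact hsupp'.lt hi
        have ht' : wt.symm (wX.symm i) < n := by
          have hsupp' : Supp n wt⁻¹ := fun j hj => by
            rw [Equiv.Perm.inv_eq_iff_eq]
            exact (hwt j hj).symm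
          exact hsupp'.lt hX'
        have e1 : t0 (wt.symm (wX.symm i)) = wX.symm i := by
          rw [ht0C _ ht', Equiv.apply_symm_apply]
        have e2 : X (wX.symm i) = i := by
          rw [hX _ hX', Equiv.apply_symm_apply]
        have e3 : (s0 * X * t0) (wt.symm (wX.symm i)) = s0 i := by
          rw [Equiv.Perm.mul_apply, Equiv.Perm.mul_apply, e1, e2]
        rw [← e3, hprod, hZs _ ht', Equiv.Perm.mul_apply, Equiv.Perm.mul_apply,
          Equiv.apply_symm_apply, Equiv.apply_symm_apply]
      have hcont : Continuous fun p : G × G => p.1 * X * p.2 :=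
        (continuous_fst.mul continuous_const).mul continuous_snd
      have hopen : ∀ a b : ℕ, IsOpen {p : G × G | (p.1 * X * p.2) a = b} := fun a b =>
        (isOpen_eval a b).preimage hcont
      have hV1 : IsOpen {p : G × G | p.2 n = k} := (isOpen_eval n k).preimage continuous_snd
      have hV2 : IsOpen {p : G × G | ∀ i < l', (p.1 * X * p.2) i = Zs i} := by
        have : {p : G × G | ∀ i < l', (p.1 * X * p.2) i = Zs i} =
            ⋂ i ∈ Set.Iio l', {p : G × G | (p.1 * X * p.2) i = Zs i} := by
          ext p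
          simp
        rw [this]
        exact (Set.finite_Iio l').isOpen_biInter fun i _ => hopen i (Zs i)
      obtain ⟨p, hpS, hpV⟩ := hS ({p : G × G | p.2 n = k} ∩
          {p : G × G | ∀ i < l', (p.1 * X * p.2) i = Zs i} ∩
          {p : G × G | (p.1 * X * p.2) n = n})
        ((hV1.inter hV2).inter (hopen n n))
        ⟨(s0, t0), ⟨⟨ht0n, fun i _ => by rw [hprod]⟩, by
          show (s0 * X * t0) n = n
          rw [hprod, hZn]⟩, hs0C, ht0C⟩
      obtain ⟨⟨hp2, hpl⟩, hpn⟩ := hpV
      have hp2 : p.2 n = k := hp2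
      have hpl : ∀ i < l', (p.1 * X * p.2) i = Zs i := hpl
      have hpn : (p.1 * X * p.2) n = n := hpn
      have hr0 := hcomp p hpS hpl
      have hp1 : p.1 (X k) = n := by
        rw [Equiv.Perm.mul_apply, Equiv.Perm.mul_apply, hp2] at hpn
        exact hpn
      obtain ⟨m₀, hm₀⟩ := (hred p hpS).eventually r0.length
      rw [hr0] at hm₀
      obtain ⟨L, hL1, hL2, hL3⟩ : ∃ L, m₀ ≤ L ∧ n < L ∧ X k < L :=
        ⟨m₀ + (n + 1) + (X k + 1), by omega, by omega, by omega⟩
      have happ : ∀ (w g : G), g ∈ Cyl w n → ∃ l : List (ℕ × ℕ),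
          pref (r (w * fpn n l)) L = pref (r g) L := by
        intro w g hg
        obtain ⟨l, hl⟩ := fpn_dense n L (w⁻¹ * g) fun i hi => by
          rw [Equiv.Perm.mul_apply, hg i hi]
          exact w.symm_apply_apply i
        refine ⟨l, (pref_eq_iff _ _ L).2 fun i hi => ?_⟩
        show w (fpn n l i) = g i
        rw [hl i hi, Equiv.Perm.mul_apply]
        exact w.apply_symm_apply (g i)
      obtain ⟨ls, hls⟩ := happ ws p.1 (hSsub p hpS).1
      obtain ⟨lt, hlt⟩ := happ wt p.2 (hSsub p hpS).2
      refine ⟨L, Encodable.encode (((ls, lt), (X k, L)) : DCode), ?_⟩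
      simp only [hk, decide_false, cond_false, Encodable.encodek, Option.bind_some]
      unfold dbody dcheck
      simp only [hls, hlt]
      rw [if_pos]
      · rfl
      · refine ⟨?_, ?_, map_getElem?_of_prefix ?_⟩
        · rw [pref_getElem _ _ _ hL3]
          exact congrArg some hp1
        · rw [pref_getElem _ _ _ hL2]
          exact congrArg some hp2
        · rw [ljoin_pref, ljoin_pref]
          exact hm₀ _ (by rw [min_self]; omega)

end Vale.Agent.P327
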