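import Vale.Agent.Lib.P327.Gen
import Vale.Agent.Lib.P327.DecodeD

/-!
# P327 / DecodeE: Lemma E (decoding by iteration)

Letters `c = 0, 1, 2` (any other number is treated like `2`). For words `La, Lb : List ℕ` put `a = (La.map (letter n)).prod`,
`b = (Lb.map (letter n)).prod`. `H (a * Y * b)` is computed from `join (H Y) z`, uniformly in the words: starting with an initial segment `σ` of
`H Y` apply successively `σ ↦ (κR c).T (ljoin σ ζ)` for the letters of `Lb` from left to right (`Y * c1 * c2 …`), and
`σ ↦ (κL c).T (ljoin σ ζ)` for the letters of `La` from right to left; `ζ` is an initial segment of `z`. The result is an initial segment of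
`H (a * Y * b)` and it becomes arbitrarily long (induction on the length of the words, `Red.eventually`).
`Y k` for `k < n` is `w k`. For `k ≥ n` search words `La, Lb` and `σ, ζ` with `b n = k` and `r0 <+:` (computed initial segment of `H (a * Y * b)`);
output `a⁻¹ n` (the product of the inverse letters, applied to `n`; inverse letters: `0 ↦ 0`, `1 ↔ 2`).
Sound: `(a * Y * b) n = n`, so `Y k = a⁻¹ n`. Complete: `b = swap n k`; `a` fixing `[n]` with
`a * Y * b` equal to `Zs` below `l'` (and `a (Y k) = n`): `a0 = Zs * b⁻¹ * Y⁻¹` fixes `[n]`; approximate by `fpn_dense`, then `gen`.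
-/

namespace Vale.Agent.P327

open Filter Topology Set

theorem dE_apply_inv (g : G) (i : ℕ) : g (g⁻¹ i) = i := Equiv.apply_symm_apply g i

theorem dE_inv_apply (g : G) (i : ℕ) : g⁻¹ (g i) = i := Equiv.symm_apply_apply g i

/-! ### letters -/

/-- normal form of a letter -/
def dE_norm (c : ℕ) : ℕ := if c = 0 then 0 else if c = 1 then 1 else 2

theorem dE_norm_lt (c : ℕ) : dE_norm c < 3 := by
  unfold dE_norm
  split_ifs <;> omega

theorem dE_letter_norm (n c : ℕ) : letter n (dE_norm c) = letter n c := by
  unfold dE_norm letter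
  by_cases h0 : c = 0
  · simp [h0]
  · by_cases h1 : c = 1
    · simp [h1]
    · simp [h0, h1]

/-- inverse letter -/
def dE_inv (c : ℕ) : ℕ := if c = 0 then 0 else if c = 1 then 2 else 1

theorem dE_letter_inv (n c : ℕ) : letter n (dE_inv c) = (letter n c)⁻¹ := by
  have h2 : (shiftPerm n (Equiv.swap 0 1))⁻¹ = shiftPerm n (Equiv.swap 0 1) := by
    ext i
    show (if i < n then i else n + (Equiv.swap 0 1 : G).symm (i - n)) =
      (if i < n then i else n + (Equiv.swap 0 1 : G) (i - n))
    rw [Equiv.symm_swap]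
  unfold dE_inv letter
  by_cases h0 : c = 0
  · simp [h0, h2]
  · by_cases h1 : c = 1
    · simp [h1]
    · simp [h0, h1]

/-- core of a letter -/
def dE_core (c y : ℕ) : ℕ :=
  if c = 0 then (if y = 0 then 1 else if y = 1 then 0 else y) else if c = 1 then vfun y else vinv y

theorem dE_letter_apply (n c x : ℕ) :
    letter n c x = if x < n then x else n + dE_core c (x - n) := by
  unfold letter dE_core
  by_cases h0 : c = 0
  · simp only [h0, if_true]
    show (if x < n then x else n + (Equiv.swap 0 1 : G) (x - n)) = _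
    rw [Equiv.swap_apply_def]
  · by_cases h1 : c = 1
    · simp only [h1, if_true]
      rfl
    · simp only [h0, h1, if_false]
      rfl

theorem dE_primrec_vfun : Primrec vfun := by
  unfold vfun
  refine Primrec.ite (Primrec.eq.comp Primrec.id (Primrec.const 0)) (Primrec.const 0) ?_
  refine Primrec.ite (Primrec.eq.comp Primrec.id (Primrec.const 1)) (Primrec.const 2) ?_
  refine Primrec.ite (Primrec.eq.comp (Primrec.nat_mod.comp Primrec.id (Primrec.const 2))
    (Primrec.const 0)) ?_ ?_
  · exact Primrec.nat_add.comp Primrec.id (Primrec.const 2)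
  · exact Primrec.nat_sub.comp Primrec.id (Primrec.const 2)

theorem dE_primrec_vinv : Primrec vinv := by
  unfold vinv
  refine Primrec.ite (Primrec.eq.comp Primrec.id (Primrec.const 0)) (Primrec.const 0) ?_
  refine Primrec.ite (Primrec.eq.comp Primrec.id (Primrec.const 2)) (Primrec.const 1) ?_
  refine Primrec.ite (Primrec.eq.comp (Primrec.nat_mod.comp Primrec.id (Primrec.const 2))
    (Primrec.const 0)) ?_ ?_
  · exact Primrec.nat_sub.comp Primrec.id (Primrec.const 2)
  · exact Primrec.nat_add.comp Primrec.id (Primrec.const 2)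

theorem dE_primrec_core : Primrec₂ dE_core := by
  unfold dE_core
  refine Primrec.ite (Primrec.eq.comp Primrec.fst (Primrec.const 0)) ?_ ?_
  · refine Primrec.ite (Primrec.eq.comp Primrec.snd (Primrec.const 0)) (Primrec.const 1) ?_
    exact Primrec.ite (Primrec.eq.comp Primrec.snd (Primrec.const 1)) (Primrec.const 0) Primrec.snd
  · refine Primrec.ite (Primrec.eq.comp Primrec.fst (Primrec.const 1)) ?_ ?_
    · exact dE_primrec_vfun.comp Primrec.snd
    · exact dE_primrec_vinv.comp Primrec.snd

theorem dE_primrec_letter (n : ℕ) : Primrec₂ (fun c x => letter n c x) := by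
  have h : (fun c x => letter n c x) = fun c x => if x < n then x else n + dE_core c (x - n) := by
    funext c x
    exact dE_letter_apply n c x
  rw [h]
  refine Primrec.ite (Primrec.nat_lt.comp Primrec.snd (Primrec.const n)) Primrec.snd ?_
  exact Primrec.nat_add.comp (Primrec.const n)
    (dE_primrec_core.comp Primrec.fst (Primrec.nat_sub.comp Primrec.snd (Primrec.const n)))

theorem dE_primrec_inv : Primrec dE_inv := by
  unfold dE_inv
  refine Primrec.ite (Primrec.eq.comp Primrec.id (Primrec.const 0)) (Primrec.const 0) ?_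
  exact Primrec.ite (Primrec.eq.comp Primrec.id (Primrec.const 1)) (Primrec.const 2)
    (Primrec.const 1)

/-- value of the word `L` at `x` -/
def dE_ev (n : ℕ) (L : List ℕ) (x : ℕ) : ℕ := L.foldr (fun c s => letter n c s) x

theorem dE_ev_eq (n : ℕ) (L : List ℕ) (x : ℕ) : dE_ev n L x = (L.map (letter n)).prod x := by
  induction L with
  | nil => rfl
  | cons c L ih =>
    rw [List.map_cons, List.prod_cons, Equiv.Perm.mul_apply, ← ih]
    rfl

/-- value of the inverse of the product of the reversed word -/
def dE_evi (n : ℕ) (L : List ℕ) (x : ℕ) : ℕ := L.foldr (fun c s => letter n (dE_inv c) s) x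

theorem dE_evi_eq (n : ℕ) (L : List ℕ) (x : ℕ) :
    dE_evi n L x = ((L.reverse.map (letter n)).prod)⁻¹ x := by
  induction L with
  | nil => rfl
  | cons c L ih =>
    rw [List.reverse_cons, List.map_append, List.prod_append, mul_inv_rev, List.map_cons,
      List.map_nil, List.prod_cons, List.prod_nil, mul_one, Equiv.Perm.mul_apply, ← ih,
      ← dE_letter_inv]
    rfl

theorem dE_primrec_ev (n x : ℕ) : Primrec (fun L => dE_ev n L x) := by
  unfold dE_ev
  exact Primrec.list_foldr Primrec.id (Primrec.const x)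
    ((dE_primrec_letter n).comp (Primrec.fst.comp Primrec.snd)
      (Primrec.snd.comp Primrec.snd)).to₂

theorem dE_primrec_evi (n x : ℕ) : Primrec (fun L => dE_evi n L x) := by
  unfold dE_evi
  exact Primrec.list_foldr Primrec.id (Primrec.const x)
    ((dE_primrec_letter n).comp (dE_primrec_inv.comp (Primrec.fst.comp Primrec.snd))
      (Primrec.snd.comp Primrec.snd)).to₂

/-! ### iteration of the functionals -/

/-- one step -/
def dE_step (κ : ℕ → Tr) (c : ℕ) (τ : List ℕ) : List ℕ := (κ (dE_norm c)).T τ

theorem dE_step_comp (κ : ℕ → Tr) : Computable₂ (dE_step κ) := by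
  have h : Computable (fun p : ℕ × List ℕ => bif (p.1 == 0) then (κ 0).T p.2 else
      bif (p.1 == 1) then (κ 1).T p.2 else (κ 2).T p.2) := by
    refine Computable.cond ?_ ((κ 0).comp.comp Computable.snd)
      (Computable.cond ?_ ((κ 1).comp.comp Computable.snd) ((κ 2).comp.comp Computable.snd))
    · exact (Primrec.beq.comp Primrec.fst (Primrec.const 0)).to_comp
    · exact (Primrec.beq.comp Primrec.fst (Primrec.const 1)).to_comp
  refine h.of_eq ?_
  rintro ⟨c, τ⟩
  by_cases h0 : c = 0
  · simp [dE_step, dE_norm, h0]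
  · by_cases h1 : c = 1
    · simp [dE_step, dE_norm, h1]
    · have e0 : (c == 0) = false := by simpa using h0
      have e1 : (c == 1) = false := by simpa using h1
      simp [dE_step, dE_norm, h0, h1, e0, e1]

/-- iteration along the word `L`, from left to right -/
def dE_it (κ : ℕ → Tr) (ζ : List ℕ) (L : List ℕ) (σ : List ℕ) : List ℕ :=
  Nat.rec σ (fun i t => dE_step κ (L.getD i 0) (ljoin t ζ)) L.length

theorem dE_it_nil (κ : ℕ → Tr) (ζ σ : List ℕ) : dE_it κ ζ [] σ = σ := rfl

theorem dE_rec_congr {κ : ℕ → Tr} {ζ σ L L' : List ℕ} (m : ℕ)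
    (h : ∀ i < m, L.getD i 0 = L'.getD i 0) :
    (Nat.rec σ (fun i t => dE_step κ (L.getD i 0) (ljoin t ζ)) m : List ℕ) =
      Nat.rec σ (fun i t => dE_step κ (L'.getD i 0) (ljoin t ζ)) m := by
  induction m with
  | zero => rfl
  | succ m ih =>
    have h1 := ih fun i hi => h i (by omega)
    show dE_step κ (L.getD m 0) (ljoin _ ζ) = dE_step κ (L'.getD m 0) (ljoin _ ζ)
    rw [h1, h m (by omega)]

theorem dE_it_append (κ : ℕ → Tr) (ζ σ L : List ℕ) (c : ℕ) :
    dE_it κ ζ (L ++ [c]) σ = dE_step κ c (ljoin (dE_it κ ζ L σ) ζ) := by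
  unfold dE_it
  rw [List.length_append, List.length_singleton]
  show dE_step κ ((L ++ [c]).getD L.length 0) (ljoin (Nat.rec σ
    (fun i t => dE_step κ ((L ++ [c]).getD i 0) (ljoin t ζ)) L.length) ζ) = _
  rw [dE_rec_congr (L' := L) L.length fun i hi => by rw [List.getD_append _ _ _ _ hi]]
  have h1 : (L ++ [c]).getD L.length 0 = c := by
    rw [List.getD_append_right _ _ _ _ le_rfl, Nat.sub_self]
    rfl
  rw [h1]

theorem dE_it_comp (κ : ℕ → Tr) :
    Computable (fun p : List ℕ × List ℕ × List ℕ => dE_it κ p.1 p.2.1 p.2.2) := by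
  have hh : Computable (fun q : (List ℕ × List ℕ × List ℕ) × (ℕ × List ℕ) =>
      dE_step κ (q.1.2.1.getD q.2.1 0) (ljoin q.2.2 q.1.1)) := by
    refine (dE_step_comp κ).comp ?_ ?_
    · exact (Primrec.list_getD 0).to_comp.comp
        (Computable.fst.comp (Computable.snd.comp Computable.fst))
        (Computable.fst.comp Computable.snd)
    · exact computable_ljoin.comp (Computable.snd.comp Computable.snd)
        (Computable.fst.comp Computable.fst)
  have hl : Computable (fun p : List ℕ × List ℕ × List ℕ => p.2.1.length) :=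
    Primrec.list_length.to_comp.comp (Computable.fst.comp Computable.snd)
  have hσ : Computable (fun p : List ℕ × List ℕ × List ℕ => p.2.2) :=
    Computable.snd.comp Computable.snd
  exact Computable.nat_rec hl hσ hh.to₂

/-! ### families of initial segments -/

/-- the lists `σ s` are initial segments of `g`, and they become long -/
def dE_Good (g : R) (σ : ℕ → List ℕ) : Prop :=
  (∀ s, σ s = pref g (σ s).length) ∧ ∀ t, ∃ s₀, ∀ s ≥ s₀, t ≤ (σ s).length

theorem dE_good_pref (g : R) : dE_Good g (pref g) :=
  ⟨fun s => by rw [pref_length], fun t => ⟨t, fun s hs => by rw [pref_length]; exact hs⟩⟩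

theorem dE_good_step {g z h : R} {σ : ℕ → List ℕ} (φ : Tr) (hσ : dE_Good g σ)
    (hr : Red φ (join g z) h) : dE_Good h (fun s => φ.T (ljoin (σ s) (pref z s))) := by
  have e : ∀ s, φ.T (ljoin (σ s) (pref z s)) =
      φ.T (pref (join g z) (2 * min (σ s).length s)) := by
    intro s
    conv_lhs => rw [hσ.1 s, ljoin_pref]
  constructor
  · intro s
    show φ.T (ljoin (σ s) (pref z s)) = pref h (φ.T (ljoin (σ s) (pref z s))).length
    rw [e s]
    exact hr.out_prefix _
  · intro t
    obtain ⟨m₀, hm₀⟩ := hr.eventually t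
    obtain ⟨s₀, hs₀⟩ := hσ.2 m₀
    refine ⟨max s₀ m₀, fun s hs => ?_⟩
    have h1 := hs₀ s (le_trans (le_max_left _ _) hs)
    have h2 : m₀ ≤ s := le_trans (le_max_right _ _) hs
    have h3 := (hm₀ (2 * min (σ s).length s) (by omega)).length_le
    rw [pref_length] at h3
    show t ≤ (φ.T (ljoin (σ s) (pref z s))).length
    rw [e s]
    exact h3

section

variable {n : ℕ} {H : G → R} {z : R} {κR κL : ℕ → Tr} {𝒢 : Set G}

theorem dE_good_R
    (hR : ∀ Y ∈ 𝒢, ∀ c < 3, Y * letter n c ∈ 𝒢)
    (hκR : ∀ Y ∈ 𝒢, ∀ c < 3, Red (κR c) (join (H Y) z) (H (Y * letter n c)))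
    {Y : G} (hY : Y ∈ 𝒢) {σ : ℕ → List ℕ} (hσ : dE_Good (H Y) σ) (L : List ℕ) :
    Y * (L.map (letter n)).prod ∈ 𝒢 ∧
      dE_Good (H (Y * (L.map (letter n)).prod)) (fun s => dE_it κR (pref z s) L (σ s)) := by
  induction L using List.reverseRecOn with
  | nil => exact ⟨by simpa using hY, by simpa [dE_it_nil] using hσ⟩
  | append_singleton L c ih =>
    have e : Y * ((L ++ [c]).map (letter n)).prod =
        Y * (L.map (letter n)).prod * letter n (dE_norm c) := by
      rw [List.map_append, List.prod_append, dE_letter_norm, mul_assoc]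
      simp
    rw [e]
    refine ⟨hR _ ih.1 _ (dE_norm_lt c), ?_⟩
    have h1 := dE_good_step _ ih.2 (hκR _ ih.1 _ (dE_norm_lt c))
    have e2 : (fun s => dE_it κR (pref z s) (L ++ [c]) (σ s)) =
        fun s => (κR (dE_norm c)).T (ljoin (dE_it κR (pref z s) L (σ s)) (pref z s)) := by
      funext s
      rw [dE_it_append]
      rfl
    rw [e2]
    exact h1

theorem dE_good_L
    (hL : ∀ Y ∈ 𝒢, ∀ c < 3, letter n c * Y ∈ 𝒢)
    (hκL : ∀ Y ∈ 𝒢, ∀ c < 3, Red (κL c) (join (H Y) z) (H (letter n c * Y)))
    {Y : G} (hY : Y ∈ 𝒢) {σ : ℕ → List ℕ} (hσ : dE_Good (H Y) σ) (L : List ℕ) :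
    (L.reverse.map (letter n)).prod * Y ∈ 𝒢 ∧
      dE_Good (H ((L.reverse.map (letter n)).prod * Y))
        (fun s => dE_it κL (pref z s) L (σ s)) := by
  induction L using List.reverseRecOn with
  | nil => exact ⟨by simpa using hY, by simpa [dE_it_nil] using hσ⟩
  | append_singleton L c ih =>
    have e : ((L ++ [c]).reverse.map (letter n)).prod * Y =
        letter n (dE_norm c) * ((L.reverse.map (letter n)).prod * Y) := by
      rw [List.reverse_append, List.reverse_singleton, List.singleton_append, List.map_cons,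
        List.prod_cons, dE_letter_norm, mul_assoc]
    rw [e]
    refine ⟨hL _ ih.1 _ (dE_norm_lt c), ?_⟩
    have h1 := dE_good_step _ ih.2 (hκL _ ih.1 _ (dE_norm_lt c))
    have e2 : (fun s => dE_it κL (pref z s) (L ++ [c]) (σ s)) =
        fun s => (κL (dE_norm c)).T (ljoin (dE_it κL (pref z s) L (σ s)) (pref z s)) := by
      funext s
      rw [dE_it_append]
      rfl
    rw [e2]
    exact h1

end

/-! ### the search -/

/-- test whether `r0` is an initial segment of `τ` -/
def dE_chk (r0 τ : List ℕ) : Bool :=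
  decide ((List.range r0.length).map (fun i => τ[i]?) = r0.map some)

theorem dE_chk_comp (r0 : List ℕ) : Computable (dE_chk r0) := by
  unfold dE_chk
  have h : Primrec (fun τ : List ℕ => (List.range r0.length).map (fun i => τ[i]?)) :=
    Primrec.list_map (Primrec.const _) Primrec.list_getElem?
  exact (Primrec.eq.decide.comp h (Primrec.const (r0.map some))).to_comp

theorem dE_chk_iff (r0 : List ℕ) (g : R) (l : ℕ) :
    dE_chk r0 (pref g l) = true ↔ r0.length ≤ l ∧ pref g r0.length = r0 := by
  unfold dE_chk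
  rw [decide_eq_true_iff]
  constructor
  · intro h
    have h1 : ∀ i < r0.length, (pref g l)[i]? = r0[i]? := by
      intro i hi
      have h2 := congrArg (fun L => L[i]?) h
      simp only [List.getElem?_map, List.getElem?_range hi, Option.map_some] at h2
      rw [List.getElem?_eq_getElem hi] at h2 ⊢
      simpa using h2
    have h3 : r0.length ≤ l := by
      by_contra hc
      have h4 := h1 l (by omega)
      rw [List.getElem?_eq_getElem (by omega : l < r0.length),
        List.getElem?_eq_none (by rw [pref_length])] at h4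
      simp at h4
    refine ⟨h3, ?_⟩
    apply List.ext_getElem?
    intro i
    by_cases hi : i < r0.length
    · rw [← h1 i hi, pref_getElem g _ i hi, pref_getElem g _ i (by omega)]
    · rw [List.getElem?_eq_none (by rw [pref_length]; omega), List.getElem?_eq_none (by omega)]
  · rintro ⟨h1, h2⟩
    apply List.ext_getElem?
    intro i
    by_cases hi : i < r0.length
    · rw [List.getElem?_map, List.getElem?_range hi, List.getElem?_map]
      have h3 : r0[i]? = some (g i) := by
        rw [← h2, pref_getElem g _ i hi]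
      rw [h3, Option.map_some, Option.map_some, pref_getElem g _ i (by omega)]
    · rw [List.getElem?_eq_none (by simp; omega), List.getElem?_eq_none (by simp; omega)]

theorem dE_cond_comp {α : Type} [Primcodable α] {f1 f2 : α → Bool} {g : α → ℕ}
    (h1 : Computable f1) (h2 : Computable f2) (hg : Computable g) :
    Computable (fun a => bif f1 a && f2 a then some (g a) else none) :=
  Computable.cond ((Primrec.and.to_comp).comp h1 h2) (Computable.option_some.comp hg)
    (Computable.const none)

theorem dE_beq_comp {α : Type} [Primcodable α] {f1 f2 : α → ℕ}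
    (h1 : Computable f1) (h2 : Computable f2) : Computable (fun a => f1 a == f2 a) :=
  (Primrec.beq.to_comp).comp h1 h2

theorem dE_it_comp' (κ : ℕ → Tr) {α : Type} [Primcodable α] {f g h : α → List ℕ}
    (hf : Computable f) (hg : Computable g) (hh : Computable h) :
    Computable (fun a => dE_it κ (f a) (g a) (h a)) :=
  (dE_it_comp κ).comp (hf.pair (hg.pair hh))

/-- the value certified by the words `p` -/
def dE_cand (n : ℕ) (κR κL : ℕ → Tr) (r0 : List ℕ) (α : List ℕ) (k : ℕ)
    (p : List ℕ × List ℕ) : Option ℕ :=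
  bif (dE_ev n p.2 n == k) &&
      dE_chk r0 (dE_it κL (lodds α) p.1 (dE_it κR (lodds α) p.2 (levens α)))
    then some (dE_evi n p.1 n) else none

theorem dE_cand_comp (n : ℕ) (κR κL : ℕ → Tr) (r0 : List ℕ) {α : Type} [Primcodable α]
    {f : α → List ℕ} {g : α → ℕ} {p : α → List ℕ × List ℕ} (hf : Computable f)
    (hg : Computable g) (hp : Computable p) :
    Computable (fun a => dE_cand n κR κL r0 (f a) (g a) (p a)) := by
  unfold dE_cand
  have h1 : Computable (fun a => (p a).1) := Computable.fst.comp hp
  have h2 : Computable (fun a => (p a).2) := Computable.snd.comp hp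
  have hl := computable_lodds.comp hf
  have e1 := dE_it_comp' κR hl h2 (computable_levens.comp hf)
  have e2 := dE_it_comp' κL hl h1 e1
  have e3 := (dE_chk_comp r0).comp e2
  have e4 := (dE_primrec_ev n n).to_comp.comp h2
  have e5 := dE_beq_comp e4 hg
  have e6 := (dE_primrec_evi n n).to_comp.comp h1
  exact dE_cond_comp e5 e3 e6

theorem dE_bind_comp {α β : Type} [Primcodable α] [Primcodable β] {c : α → Bool} {f : α → ℕ}
    {d : α → Option β} {g : α → β → Option ℕ} (hc : Computable c) (hf : Computable f)
    (hd : Computable d) (hg : Computable₂ g) :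
    Computable (fun a => bif c a then some (f a) else (d a).bind (g a)) :=
  Computable.cond hc (Computable.option_some.comp hf) (Computable.option_bind hd hg)

/-- the search predicate -/
def dE_psi (n : ℕ) (tab : List ℕ) (κR κL : ℕ → Tr) (r0 : List ℕ) (α : List ℕ) (k j : ℕ) :
    Option ℕ :=
  bif decide (k < n) then some (tab.getD k 0) else
    (Encodable.decode j : Option (List ℕ × List ℕ)).bind fun p => dE_cand n κR κL r0 α k p

theorem dE_psi_comp (n : ℕ) (tab : List ℕ) (κR κL : ℕ → Tr) (r0 : List ℕ) :
    Computable fun p : List ℕ × ℕ × ℕ => dE_psi n tab κR κL r0 p.1 p.2.1 p.2.2 := by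
  unfold dE_psi
  have hk : Computable (fun p : List ℕ × ℕ × ℕ => p.2.1) := Computable.fst.comp Computable.snd
  have hj : Computable (fun p : List ℕ × ℕ × ℕ => p.2.2) := Computable.snd.comp Computable.snd
  have e1 : Computable (fun p : List ℕ × ℕ × ℕ => decide (p.2.1 < n)) :=
    (Primrec.nat_lt.decide.to_comp).comp hk (Computable.const n)
  have e2 : Computable (fun p : List ℕ × ℕ × ℕ => tab.getD p.2.1 0) :=
    (Primrec.list_getD 0).to_comp.comp (Computable.const tab) hk
  have e3 : Computable (fun p : List ℕ × ℕ × ℕ =>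
      (Encodable.decode p.2.2 : Option (List ℕ × List ℕ))) := Computable.decode.comp hj
  have f1 : Computable (fun q : (List ℕ × ℕ × ℕ) × (List ℕ × List ℕ) => q.1.1) :=
    Computable.fst.comp Computable.fst
  have f2 : Computable (fun q : (List ℕ × ℕ × ℕ) × (List ℕ × List ℕ) => q.1.2.1) :=
    hk.comp Computable.fst
  have f3 : Computable (fun q : (List ℕ × ℕ × ℕ) × (List ℕ × List ℕ) => q.2) :=
    Computable.snd
  have e4 := dE_cand_comp n κR κL r0 f1 f2 f3
  exact dE_bind_comp e1 e2 e3 e4.to₂

theorem decodeE (n l' : ℕ) (w Zs : G) (hw : Supp n w) (hZs : Zs ∈ Cyl w n) (hZn : Zs n = n)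
    (H : G → R) (z : R) (κR κL : ℕ → Tr) (𝒢 : Set G) (r0 : List ℕ)
    (hsub : 𝒢 ⊆ Cyl w n)
    (hR : ∀ Y ∈ 𝒢, ∀ c < 3, Y * letter n c ∈ 𝒢)
    (hL : ∀ Y ∈ 𝒢, ∀ c < 3, letter n c * Y ∈ 𝒢)
    (hκR : ∀ Y ∈ 𝒢, ∀ c < 3, Red (κR c) (join (H Y) z) (H (Y * letter n c)))
    (hκL : ∀ Y ∈ 𝒢, ∀ c < 3, Red (κL c) (join (H Y) z) (H (letter n c * Y)))
    (hsound : ∀ Y ∈ 𝒢, pref (H Y) r0.length = r0 → Y n = n)
    (hcomp : ∀ Y ∈ 𝒢, (∀ i < l', Y i = Zs i) → pref (H Y) r0.length = r0)
    (Y : G) (hY : Y ∈ 𝒢) : TLE (r Y) (join (H Y) z) := by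
  -- the two stage iteration
  have two : ∀ La Lb : List ℕ,
      (La.reverse.map (letter n)).prod * (Y * (Lb.map (letter n)).prod) ∈ 𝒢 ∧
      dE_Good (H ((La.reverse.map (letter n)).prod * (Y * (Lb.map (letter n)).prod)))
        (fun s => dE_it κL (pref z s) La (dE_it κR (pref z s) Lb (pref (H Y) s))) := by
    intro La Lb
    obtain ⟨h1, h2⟩ := dE_good_R hR hκR hY (dE_good_pref (H Y)) Lb
    exact dE_good_L hL hκL h1 h2 La
  have hYw : ∀ i < n, Y i = w i := hsub hY
  refine tle_of_search (dE_psi n (pref (r w) n) κR κL r0) (dE_psi_comp n _ κR κL r0) ?_ ?_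
  · -- soundness
    intro l k j v hv
    unfold dE_psi at hv
    by_cases hk : k < n
    · rw [decide_eq_true hk, cond_true, Option.some.injEq, lists_getD_pref _ _ _ hk] at hv
      rw [← hv]
      exact (hYw k hk).symm
    · rw [decide_eq_false hk, cond_false, Option.bind_eq_some_iff] at hv
      obtain ⟨p, _, hp⟩ := hv
      unfold dE_cand at hp
      rw [levens_pref_join, lodds_pref_join] at hp
      obtain ⟨h1, h2⟩ := two p.1 p.2
      have h3 := h2.1 (l / 2)
      simp only at h3
      rw [h3] at hp
      cases hc : ((dE_ev n p.2 n == k) && dE_chk r0 (pref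
        (H ((p.1.reverse.map (letter n)).prod * (Y * (p.2.map (letter n)).prod)))
        (dE_it κL (pref z (l / 2)) p.1 (dE_it κR (pref z (l / 2)) p.2
          (pref (H Y) (l / 2)))).length)) with
      | false =>
        rw [hc, cond_false] at hp
        exact absurd hp (by simp)
      | true =>
        rw [hc, cond_true, Option.some.injEq] at hp
        rw [Bool.and_eq_true, beq_iff_eq, dE_chk_iff] at hc
        obtain ⟨hb, _, hc2⟩ := hc
        have h4 := hsound _ h1 hc2
        rw [dE_ev_eq] at hb
        rw [Equiv.Perm.mul_apply, Equiv.Perm.mul_apply, hb] at h4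
        rw [← hp, dE_evi_eq]
        show _ = Y k
        rw [Equiv.Perm.inv_eq_iff_eq]
        exact h4.symm
  · -- completeness
    intro k
    by_cases hk : k < n
    · refine ⟨0, 0, ?_⟩
      unfold dE_psi
      rw [decide_eq_true hk, cond_true, lists_getD_pref _ _ _ hk]
      show some (w k) = some (Y k)
      rw [hYw k hk]
    · have hk' : n ≤ k := not_lt.1 hk
      -- the right word
      obtain ⟨Lb, hLb⟩ := gen n [(0, k - n)]
      set b : G := fpn n [(0, k - n)] with hbdef
      have hb : b = Equiv.swap n k := by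
        rw [hbdef]
        simp only [fpn, List.map_cons, List.map_nil, List.prod_cons, List.prod_nil, mul_one]
        rw [Nat.add_zero, Nat.add_sub_cancel' hk']
      have hbn : b n = k := by rw [hb, Equiv.swap_apply_left]
      have hbfix : ∀ i < n, b i = i := fun i hi => fpn_fix n _ i hi
      -- the left permutation
      set a0 : G := Zs * b⁻¹ * Y⁻¹ with ha0
      have ha0fix : ∀ i < n, a0 i = i := by
        intro i hi
        have hwi : w⁻¹ i < n := by
          by_contra hc
          have h1 := hw (w⁻¹ i) (not_lt.1 hc)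
          rw [dE_apply_inv] at h1
          omega
        have hYi : Y⁻¹ i = w⁻¹ i := by
          rw [Equiv.Perm.inv_eq_iff_eq, hYw _ hwi, dE_apply_inv]
        have hbi : b⁻¹ (w⁻¹ i) = w⁻¹ i := by
          rw [Equiv.Perm.inv_eq_iff_eq, hbfix _ hwi]
        rw [ha0, Equiv.Perm.mul_apply, Equiv.Perm.mul_apply, hYi, hbi, hZs _ hwi,
          dE_apply_inv]
      obtain ⟨m, hm⟩ : ∃ m, ∀ i < l', Y (b i) < m := by
        refine ⟨(Finset.range l').sup (fun i => Y (b i)) + 1, fun i hi => ?_⟩
        have := Finset.le_sup (f := fun i => Y (b i)) (Finset.mem_range.2 hi)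
        omega
      obtain ⟨la, hla⟩ := fpn_dense n m a0 ha0fix
      obtain ⟨La, hLa⟩ := gen n la
      obtain ⟨h1, h2⟩ := two La.reverse Lb
      rw [List.reverse_reverse, ← hLa, ← hLb] at h1 h2
      have h3 : pref (H (fpn n la * (Y * b))) r0.length = r0 := by
        refine hcomp _ h1 fun i hi => ?_
        rw [Equiv.Perm.mul_apply, Equiv.Perm.mul_apply, hla _ (hm i hi), ha0,
          Equiv.Perm.mul_apply, Equiv.Perm.mul_apply, dE_inv_apply,
          dE_inv_apply]
      have h4 := hsound _ h1 h3
      rw [Equiv.Perm.mul_apply, Equiv.Perm.mul_apply, hbn] at h4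
      obtain ⟨s₀, hs₀⟩ := h2.2 r0.length
      refine ⟨2 * s₀, Encodable.encode (La.reverse, Lb), ?_⟩
      unfold dE_psi dE_cand
      rw [decide_eq_false hk, cond_false, Encodable.encodek, Option.bind_some,
        levens_pref_join, lodds_pref_join, Nat.mul_div_cancel_left _ (by norm_num : 0 < 2)]
      have h5 := h2.1 s₀
      simp only at h5
      rw [h5]
      have h6 := hs₀ s₀ le_rfl
      simp only at h6
      have h7 : dE_ev n Lb n = k := by rw [dE_ev_eq, ← hLb, hbn]
      rw [h7, beq_self_eq_true, Bool.true_and, (dE_chk_iff r0 _ _).2 ⟨h6, h3⟩, cond_true,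
        dE_evi_eq, List.reverse_reverse, ← hLa]
      show some _ = some (Y k)
      congr 1
      rw [Equiv.Perm.inv_eq_iff_eq]
      exact h4.symm

end Vale.Agent.P327
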