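import Mathlib

/-!
# P327: rigidity of the Turing degrees, common definitions
-/

namespace Vale.Agent.P327

open Filter Topology Set

/-! ### reals and Turing reducibility -/

/-- reals are total functions -/
abbrev R := ℕ → ℕ

/-- `f` is Turing reducible to `g` -/
def TLE (f g : R) : Prop :=
  Nat.RecursiveIn {(fun n => Part.some (g n))} (fun n => Part.some (f n))

/-- Turing equivalence -/
def TEq (f g : R) : Prop := TLE f g ∧ TLE g f

/-- join of two reals -/
def join (f g : R) : R := fun n => if n % 2 = 0 then f (n / 2) else g (n / 2)

/-- the real attached to a set -/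
def bit (Z : ℕ → Bool) : R := fun n => if Z n then 1 else 0

/-- initial segment of length `l` -/
def pref (f : R) (l : ℕ) : List ℕ := (List.range l).map f

/-- interleaving of two lists (initial segments of `join f g` of even length) -/
def ljoin (σ τ : List ℕ) : List ℕ :=
  (List.range (2 * min σ.length τ.length)).map
    fun n => if n % 2 = 0 then σ.getD (n / 2) 0 else τ.getD (n / 2) 0

/-- even positions of a list -/
def levens (σ : List ℕ) : List ℕ := (List.range (σ.length / 2)).map fun n => σ.getD (2 * n) 0

/-- odd positions of a list -/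
def lodds (σ : List ℕ) : List ℕ := (List.range (σ.length / 2)).map fun n => σ.getD (2 * n + 1) 0

/-! ### Turing functionals -/

/-- a Turing functional, given by a computable monotone map on initial segments -/
structure Tr where
  /-- the map on initial segments -/
  T : List ℕ → List ℕ
  /-- it is computable -/
  comp : Computable T
  /-- it is monotone -/
  mono : ∀ σ τ : List ℕ, σ <+: τ → T σ <+: T τ

/-- the functional `φ` with oracle `f` computes the total function `g` -/
def Red (φ : Tr) (f g : R) : Prop := ∀ l, ∃ m, pref g l <+: φ.T (pref f m)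

/-- the functional `φ` is total at the oracle `f` -/
def Tot (φ : Tr) (f : R) : Prop := ∀ l, ∃ m, l ≤ (φ.T (pref f m)).length

open Classical in
/-- value of the functional `φ` at `f` (zero where it is not defined) -/
noncomputable def val (φ : Tr) (f : R) : R := fun n =>
  if h : ∃ v, ∃ m, (φ.T (pref f m))[n]? = some v then h.choose else 0

/-! ### the group of permutations of `ℕ` -/

/-- the group of all permutations of `ℕ` -/
abbrev G := Equiv.Perm ℕ

/-- a permutation as a real -/
def r (g : G) : R := fun n => g n

/-- topology of pointwise convergence of `g` and of its inverse -/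
instance instTopG : TopologicalSpace G :=
  TopologicalSpace.induced (fun g : G => ((fun n => g n : ℕ → ℕ), (fun n => g.symm n : ℕ → ℕ)))
    inferInstance

instance instMeasG : MeasurableSpace G := borel G

instance instBorelG : BorelSpace G := ⟨rfl⟩

/-- cylinder -/
def Cyl (w : G) (n : ℕ) : Set G := {g | ∀ i < n, g i = w i}

/-- `w` is the identity from `n` on -/
def Supp (n : ℕ) (w : G) : Prop := ∀ i, n ≤ i → w i = i

/-- computable permutation -/
def CP (u : G) : Prop := Computable (fun n => u n) ∧ Computable (fun n => u.symm n)

/-- finitely supported permutations fixing all `i < n`, coded by lists -/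
def fpn (n : ℕ) (l : List (ℕ × ℕ)) : G :=
  (l.map fun p => Equiv.swap (n + p.1) (n + p.2)).prod

/-- the function of a permutation which is one bi-infinite cycle on `1, 2, 3, ...` :
`... 7 → 5 → 3 → 1 → 2 → 4 → 6 ...` -/
def vfun (i : ℕ) : ℕ := if i = 0 then 0 else if i = 1 then 2 else if i % 2 = 0 then i + 2 else i - 2

/-- its inverse -/
def vinv (i : ℕ) : ℕ := if i = 0 then 0 else if i = 2 then 1 else if i % 2 = 0 then i - 2 else i + 2

theorem vinv_vfun (i : ℕ) : vinv (vfun i) = i := by
  rcases eq_or_ne i 0 with rfl | h0
  · rfl
  rcases eq_or_ne i 1 with rfl | h1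
  · rfl
  by_cases h : i % 2 = 0
  · have h2 : vfun i = i + 2 := by simp [vfun, h0, h1, h]
    have h3 : (i + 2) % 2 = 0 := by omega
    rw [h2]
    simp [vinv, h0, h]
  · have h2 : vfun i = i - 2 := by simp [vfun, h0, h1, h]
    have h3 : i - 2 ≠ 0 := by omega
    have h4 : i - 2 ≠ 2 := by omega
    have h5 : ¬ (i - 2) % 2 = 0 := by omega
    rw [h2]
    simp only [vinv, if_neg h3, if_neg h4, if_neg h5]
    omega

theorem vfun_vinv (i : ℕ) : vfun (vinv i) = i := by
  rcases eq_or_ne i 0 with rfl | h0
  · rfl
  rcases eq_or_ne i 2 with rfl | h1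
  · rfl
  by_cases h : i % 2 = 0
  · have h2 : vinv i = i - 2 := by simp [vinv, h0, h1, h]
    have h3 : i - 2 ≠ 0 := by omega
    have h4 : i - 2 ≠ 1 := by omega
    have h5 : (i - 2) % 2 = 0 := by omega
    rw [h2]
    simp only [vfun, if_neg h3, if_neg h4, if_pos h5]
    omega
  · have h2 : vinv i = i + 2 := by simp [vinv, h0, h1, h]
    have h3 : i + 2 ≠ 0 := by omega
    have h4 : i + 2 ≠ 1 := by omega
    have h5 : ¬ (i + 2) % 2 = 0 := by omega
    rw [h2]
    simp only [vfun, if_neg h3, if_neg h4, if_neg h5]
    omega

/-- the permutation with function `vfun` -/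
def vperm : G where
  toFun := vfun
  invFun := vinv
  left_inv := vinv_vfun
  right_inv := vfun_vinv

/-- shift of a permutation by `n`: it fixes all `i < n` -/
def shiftPerm (n : ℕ) (u : G) : G where
  toFun := fun i => if i < n then i else n + u (i - n)
  invFun := fun i => if i < n then i else n + u.symm (i - n)
  left_inv := by
    intro i
    by_cases h : i < n
    · simp [h]
    · simp only [if_neg h]
      rw [if_neg (by omega), Nat.add_sub_cancel_left, Equiv.symm_apply_apply]
      omega
  right_inv := by
    intro i
    by_cases h : i < n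
    · simp [h]
    · simp only [if_neg h]
      rw [if_neg (by omega), Nat.add_sub_cancel_left, Equiv.apply_symm_apply]
      omega

/-- the three letters: a transposition, a bi-infinite cycle and its inverse; all fix every `i < n` -/
def letter (n : ℕ) (c : ℕ) : G :=
  if c = 0 then shiftPerm n (Equiv.swap 0 1) else if c = 1 then shiftPerm n vperm
  else (shiftPerm n vperm)⁻¹

/-! ### automorphisms -/

/-- an automorphism of the Turing degrees, given on representatives -/
structure Auto where
  /-- the automorphism -/
  f : R → R
  /-- its inverse -/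
  g : R → R
  hf : ∀ a b, TLE a b ↔ TLE (f a) (f b)
  hg : ∀ a b, TLE a b ↔ TLE (g a) (g b)
  fg : ∀ a, TEq (f (g a)) a
  gf : ∀ a, TEq (g (f a)) a

/-- the inverse automorphism -/
def Auto.symm (π : Auto) : Auto := ⟨π.g, π.f, π.hg, π.hf, π.gf, π.fg⟩

end Vale.Agent.P327
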