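import Vale.Agent.Lib.P327.Top

/-!
# P327 / Gen: the letters generate all finitely supported permutations fixing `[n]`

`letter n 0 = (n n+1)`, `letter n 1 = v` is one bi-infinite cycle on `n+1, n+2, …` fixing all `i ≤ n`, `letter n 2 = v⁻¹`.
`v^j (n n+1) v^{-j} = (n v^j(n+1))`, and every `x > n` is some `v^j (n+1)`, `j : ℤ`. Then
`(a b) = (n a) (n b) (n a)`. All `fpn n l` are products of transpositions `(a b)`, `a, b ≥ n`.
-/

namespace Vale.Agent.P327

open Filter Topology Set

/-- products of letters -/
def genP (n : ℕ) (g : G) : Prop := ∃ L : List ℕ, g = (L.map (letter n)).prod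

theorem genP_one (n : ℕ) : genP n 1 := ⟨[], by simp⟩

theorem genP_mul {n : ℕ} {g h : G} (hg : genP n g) (hh : genP n h) : genP n (g * h) := by
  obtain ⟨L, rfl⟩ := hg
  obtain ⟨M, rfl⟩ := hh
  exact ⟨L ++ M, by simp⟩

theorem genP_letter (n c : ℕ) : genP n (letter n c) := ⟨[c], by simp⟩

theorem genP_letter_zero (n : ℕ) : letter n 0 = Equiv.swap n (n + 1) := by
  ext i
  change (if i < n then i else n + Equiv.swap 0 1 (i - n)) = Equiv.swap n (n + 1) i
  by_cases h : i < n
  · rw [if_pos h, Equiv.swap_apply_of_ne_of_ne (by omega) (by omega)]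
  · rw [if_neg h]
    obtain ⟨j, rfl⟩ : ∃ j, i = n + j := ⟨i - n, by omega⟩
    rw [Nat.add_sub_cancel_left]
    rcases eq_or_ne j 0 with rfl | h0
    · simp
    rcases eq_or_ne j 1 with rfl | h1
    · simp
    rw [Equiv.swap_apply_of_ne_of_ne h0 h1, Equiv.swap_apply_of_ne_of_ne (by omega) (by omega)]

theorem gen_letter_one_apply (n i : ℕ) : letter n 1 (n + i) = n + vfun i := by
  change (if n + i < n then n + i else n + vfun (n + i - n)) = _
  rw [if_neg (by omega), Nat.add_sub_cancel_left]

theorem gen_letter_two_apply (n i : ℕ) : letter n 2 (n + i) = n + vinv i := by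
  change (if n + i < n then n + i else n + vinv (n + i - n)) = _
  rw [if_neg (by omega), Nat.add_sub_cancel_left]

theorem gen_letter_one_inv (n : ℕ) : (letter n 1)⁻¹ = letter n 2 := rfl

theorem gen_letter_two_inv (n : ℕ) : (letter n 2)⁻¹ = letter n 1 := inv_inv _

theorem genP_vfun {n x : ℕ} (h : genP n (Equiv.swap n (n + x))) :
    genP n (Equiv.swap n (n + vfun x)) := by
  have h1 : Equiv.swap n (n + vfun x) = letter n 1 * Equiv.swap n (n + x) * letter n 2 := by
    rw [← gen_letter_one_inv, ← Equiv.swap_apply_apply, gen_letter_one_apply]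
    have := gen_letter_one_apply n 0
    rw [Nat.add_zero] at this
    rw [this]
    rfl
  rw [h1]
  exact genP_mul (genP_mul (genP_letter n 1) h) (genP_letter n 2)

theorem genP_vinv {n x : ℕ} (h : genP n (Equiv.swap n (n + x))) :
    genP n (Equiv.swap n (n + vinv x)) := by
  have h1 : Equiv.swap n (n + vinv x) = letter n 2 * Equiv.swap n (n + x) * letter n 1 := by
    rw [← gen_letter_two_inv, ← Equiv.swap_apply_apply, gen_letter_two_apply]
    have := gen_letter_two_apply n 0
    rw [Nat.add_zero] at this
    rw [this]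
    rfl
  rw [h1]
  exact genP_mul (genP_mul (genP_letter n 2) h) (genP_letter n 1)

theorem genP_star (n : ℕ) : ∀ x : ℕ, genP n (Equiv.swap n (n + x)) := by
  intro x
  induction x using Nat.strong_induction_on with
  | _ x ih =>
    rcases eq_or_ne x 0 with rfl | h0
    · rw [Nat.add_zero, Equiv.swap_self]
      exact genP_one n
    rcases eq_or_ne x 1 with rfl | h1
    · rw [← genP_letter_zero]
      exact genP_letter n 0
    rcases eq_or_ne x 2 with rfl | h2
    · have := genP_vfun (ih 1 (by omega))
      simpa [vfun] using this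
    by_cases h : x % 2 = 0
    · have h3 := genP_vfun (ih (x - 2) (by omega))
      have h4 : vfun (x - 2) = x := by
        have h5 : (x - 2) % 2 = 0 := by omega
        have h6 : x - 2 ≠ 0 := by omega
        have h7 : x - 2 ≠ 1 := by omega
        simp only [vfun, if_neg h6, if_neg h7, if_pos h5]
        omega
      rwa [h4] at h3
    · have h3 := genP_vinv (ih (x - 2) (by omega))
      have h4 : vinv (x - 2) = x := by
        have h5 : ¬ (x - 2) % 2 = 0 := by omega
        have h6 : x - 2 ≠ 0 := by omega
        have h7 : x - 2 ≠ 2 := by omega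
        simp only [vinv, if_neg h6, if_neg h7, if_neg h5]
        omega
      rwa [h4] at h3

theorem genP_swap (n a b : ℕ) : genP n (Equiv.swap (n + a) (n + b)) := by
  rcases eq_or_ne a b with rfl | hab
  · rw [Equiv.swap_self]
    exact genP_one n
  rcases eq_or_ne a 0 with rfl | ha
  · exact genP_star n b
  rcases eq_or_ne b 0 with rfl | hb
  · rw [Equiv.swap_comm]
    exact genP_star n a
  have h1 : Equiv.swap (n + a) (n + b) =
      Equiv.swap n (n + a) * Equiv.swap n (n + b) * Equiv.swap n (n + a) := by
    have h2 := Equiv.swap_apply_apply (Equiv.swap n (n + a)) n (n + b)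
    rw [Equiv.swap_apply_left, Equiv.swap_apply_of_ne_of_ne (by omega) (by omega),
      Equiv.swap_inv] at h2
    exact h2
  rw [h1]
  exact genP_mul (genP_mul (genP_star n a) (genP_star n b)) (genP_star n a)

theorem gen (n : ℕ) (l : List (ℕ × ℕ)) :
    ∃ L : List ℕ, fpn n l = (L.map (letter n)).prod := by
  change genP n (fpn n l)
  induction l with
  | nil =>
    simpa [fpn] using genP_one n
  | cons p l ih =>
    have h1 : fpn n (p :: l) = Equiv.swap (n + p.1) (n + p.2) * fpn n l := by
      simp [fpn]
    rw [h1]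
    exact genP_mul (genP_swap n _ _) ih

end Vale.Agent.P327
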