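import Vale.Agent.Lib.P327.Defs

/-!
# P327 / KUA: Baire category lemmas in one space

`∀ᶠ x in residual X, P x` : for comeager many `x`;  `∃ᶠ x in residual X, P x` : for nonmeager many `x`.
-/

namespace Vale.Agent.P327

open Filter Topology Set

/-- pigeonhole -/
theorem pigeon {X ι : Type*} [TopologicalSpace X] [Countable ι] {P : ι → X → Prop}
    (h : ∃ᶠ x in residual X, ∃ i, P i x) : ∃ i, ∃ᶠ x in residual X, P i x := by
  by_contra hc
  push Not at hc
  have h1 : ∀ i, ∀ᶠ x in residual X, ¬ P i x := fun i => by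
    simpa [Filter.Frequently] using hc i
  have h2 : ∀ᶠ x in residual X, ∀ i, ¬ P i x := eventually_countable_forall.2 h1
  apply h
  filter_upwards [h2] with x hx
  rintro ⟨i, hi⟩
  exact hx i hi

/-- a nonmeager set is everywhere nonmeager in a nonempty open set.
Proof: otherwise every nonempty open `U` contains a nonempty open `V` with `V ∩ P` meager; the union of the basic open
sets `V` with `V ∩ P` meager is open and dense, and meets `P` in a meager set. -/
theorem localize {X : Type*} [TopologicalSpace X] [SecondCountableTopology X] {P : X → Prop}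
    (h : ∃ᶠ x in residual X, P x) :
    ∃ U : Set X, IsOpen U ∧ U.Nonempty ∧
      ∀ V : Set X, IsOpen V → V.Nonempty → V ⊆ U → ∃ᶠ x in residual X, x ∈ V ∧ P x := by
  by_contra hc
  have hc' : ∀ U : Set X, IsOpen U → U.Nonempty →
      ∃ V : Set X, IsOpen V ∧ V.Nonempty ∧ V ⊆ U ∧ ∀ᶠ x in residual X, ¬ (x ∈ V ∧ P x) := by
    intro U hU hne
    by_contra hV
    apply hc
    refine ⟨U, hU, hne, fun V hVo hVne hVU hev => ?_⟩
    exact hV ⟨V, hVo, hVne, hVU, hev⟩
  set 𝓥 : Set (Set X) := {B | B ∈ TopologicalSpace.countableBasis X ∧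
    ∀ᶠ x in residual X, ¬ (x ∈ B ∧ P x)} with h𝓥
  have hcount : 𝓥.Countable :=
    (TopologicalSpace.countable_countableBasis X).mono fun B hB => hB.1
  have hev : ∀ᶠ x in residual X, ∀ B ∈ 𝓥, ¬ (x ∈ B ∧ P x) :=
    (eventually_countable_ball hcount).2 fun B hB => hB.2
  have hopen : IsOpen (⋃₀ 𝓥) := isOpen_sUnion fun B hB =>
    TopologicalSpace.isOpen_of_mem_countableBasis hB.1
  have hdense : Dense (⋃₀ 𝓥) := by
    rw [dense_iff_inter_open]
    intro U hU hne
    obtain ⟨V, hVo, ⟨x, hx⟩, hVU, hV⟩ := hc' U hU hne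
    obtain ⟨B, hB, hxB, hBV⟩ :=
      (TopologicalSpace.isBasis_countableBasis X).exists_subset_of_mem_open hx hVo
    refine ⟨x, hVU hx, B, ⟨hB, ?_⟩, hxB⟩
    filter_upwards [hV] with y hy hy2
    exact hy ⟨hBV hy2.1, hy2.2⟩
  have hres : ⋃₀ 𝓥 ∈ residual X := residual_of_dense_open hopen hdense
  apply h
  filter_upwards [hres, hev] with x hx1 hx2 hPx
  obtain ⟨B, hB, hxB⟩ := hx1
  exact hx2 B hB ⟨hxB, hPx⟩

/-- version inside an open set -/
theorem localize_in {X : Type*} [TopologicalSpace X] [SecondCountableTopology X] {P : X → Prop}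
    {W : Set X} (hW : IsOpen W) (h : ∃ᶠ x in residual X, x ∈ W ∧ P x) :
    ∃ U : Set X, IsOpen U ∧ U.Nonempty ∧ U ⊆ W ∧
      ∀ V : Set X, IsOpen V → V.Nonempty → V ⊆ U → ∃ᶠ x in residual X, x ∈ V ∧ P x := by
  obtain ⟨U0, hU0, hne0, hall⟩ := localize h
  obtain ⟨x, hx⟩ := (hall U0 hU0 hne0 subset_rfl).exists
  refine ⟨U0 ∩ W, hU0.inter hW, ⟨x, hx.1, hx.2.1⟩, inter_subset_right, ?_⟩
  intro V hV hVne hVU
  refine (hall V hV hVne (hVU.trans inter_subset_left)).mono ?_
  rintro y ⟨hy1, _, hy3⟩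
  exact ⟨hy1, hy3⟩

/-- a nonmeager set with the Baire property is comeager in a nonempty open set
(`BaireMeasurableSet.residualEq_isOpen`) -/
theorem bp_in {X : Type*} [TopologicalSpace X] [BaireSpace X] [MeasurableSpace X] [BorelSpace X]
    {E W : Set X} (hE : MeasurableSet E) (hW : IsOpen W)
    (h : ∃ᶠ x in residual X, x ∈ W ∧ x ∈ E) :
    ∃ U : Set X, IsOpen U ∧ U.Nonempty ∧ U ⊆ W ∧ ∀ᶠ x in residual X, x ∈ U → x ∈ E := by
  obtain ⟨O, hO, hEO⟩ := hE.residualEq_isOpen
  have hiff : ∀ᶠ x in residual X, (x ∈ E ↔ x ∈ O) := by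
    filter_upwards [hEO] with x hx
    exact Eq.to_iff hx
  obtain ⟨x, hx1, hx2⟩ := (h.and_eventually hiff).exists
  refine ⟨W ∩ O, hW.inter hO, ⟨x, hx1.1, hx2.1 hx1.2⟩, inter_subset_left, ?_⟩
  filter_upwards [hiff] with y hy hy2
  exact hy.2 hy2.2

/-- a set with the Baire property which contains an everywhere nonmeager subset of `U` is comeager in `U` -/
theorem en_meas {X : Type*} [TopologicalSpace X] [BaireSpace X] [MeasurableSpace X] [BorelSpace X]
    {E U : Set X} {N : X → Prop} (hE : MeasurableSet E) (hU : IsOpen U)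
    (hN : ∀ V : Set X, IsOpen V → V.Nonempty → V ⊆ U → ∃ᶠ x in residual X, x ∈ V ∧ N x)
    (h : ∀ᶠ x in residual X, N x → x ∈ E) :
    ∀ᶠ x in residual X, x ∈ U → x ∈ E := by
  by_contra hc
  have hf : ∃ᶠ x in residual X, x ∈ U ∧ x ∈ Eᶜ := by
    intro hev
    apply hc
    filter_upwards [hev] with x hx hxU
    by_contra hxE
    exact hx ⟨hxU, hxE⟩
  obtain ⟨V, hV, hVne, hVU, hev⟩ := bp_in hE.compl hU hf
  obtain ⟨x, ⟨hx1, hx2⟩, hx3, hx4⟩ := ((hN V hV hVne hVU).and_eventually (hev.and h)).exists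
  exact hx3 hx1 (hx4 hx2)

/-- a nonempty open set is not meager -/
theorem open_freq {X : Type*} [TopologicalSpace X] [BaireSpace X] {U : Set X} (hU : IsOpen U)
    (hne : U.Nonempty) : ∃ᶠ x in residual X, x ∈ U := by
  intro hev
  have hd : Dense {x | ¬ x ∈ U} := dense_of_mem_residual hev
  obtain ⟨x, hx1, hx2⟩ := hd.inter_open_nonempty U hU hne
  exact hx2 hx1

end Vale.Agent.P327
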