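import Vale.Agent.Lib.P327.Pref

/-!
# P327 / Lists: join and interleaving

`pref (join f g) (2 * l) = ljoin (pref f l) (pref g l)`; the computability statements are compositions of
`Primrec.list_map`, `Primrec.list_range`, `Primrec.list_getD`, `Primrec.ite`, arithmetic.
-/

namespace Vale.Agent.P327

open Filter Topology Set

theorem lists_map_range_prefix {f g : ℕ → ℕ} {n m : ℕ} (h : n ≤ m) (e : ∀ i < n, f i = g i) :
    (List.range n).map f <+: (List.range m).map g := by
  obtain ⟨k, rfl⟩ := Nat.exists_eq_add_of_le h
  rw [List.range_add, List.map_append]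
  have e2 : (List.range n).map f = (List.range n).map g := by
    apply List.map_congr_left
    intro i hi
    exact e i (List.mem_range.1 hi)
  rw [e2]
  exact List.prefix_append _ _

theorem lists_map_range_congr {f g : ℕ → ℕ} {n m : ℕ} (h : n = m) (e : ∀ i < n, f i = g i) :
    (List.range n).map f = (List.range m).map g := by
  subst h
  apply List.map_congr_left
  intro i hi
  exact e i (List.mem_range.1 hi)

theorem lists_getD_prefix {σ σ' : List ℕ} (h : σ <+: σ') {i : ℕ} (hi : i < σ.length) :
    σ.getD i 0 = σ'.getD i 0 := by
  obtain ⟨t, rfl⟩ := h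
  rw [List.getD_append _ _ _ _ hi]

theorem lists_getD_pref (f : R) (l i : ℕ) (hi : i < l) : (pref f l).getD i 0 = f i := by
  rw [List.getD_eq_getElem?_getD, pref_getElem f l i hi]
  rfl

theorem join_even (f g : R) (n : ℕ) : join f g (2 * n) = f n := by
  have h1 : 2 * n % 2 = 0 := by omega
  have h2 : 2 * n / 2 = n := by omega
  simp only [join, h1, h2, if_true]

theorem join_odd (f g : R) (n : ℕ) : join f g (2 * n + 1) = g n := by
  have h1 : ¬ (2 * n + 1) % 2 = 0 := by omega
  have h2 : (2 * n + 1) / 2 = n := by omega
  simp only [join, h1, h2, if_false]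

/-- minimum form: `ljoin` of two initial segments is an initial segment of the join -/
theorem ljoin_pref (f g : R) (l m : ℕ) :
    ljoin (pref f l) (pref g m) = pref (join f g) (2 * min l m) := by
  unfold ljoin
  rw [pref_length, pref_length]
  conv_rhs => unfold pref
  refine lists_map_range_congr rfl fun i hi => ?_
  unfold join
  have h1 : i / 2 < l := by omega
  have h2 : i / 2 < m := by omega
  rw [lists_getD_pref f l _ h1, lists_getD_pref g m _ h2]

theorem pref_join (f g : R) (l : ℕ) : pref (join f g) (2 * l) = ljoin (pref f l) (pref g l) := by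
  rw [ljoin_pref, min_self]

theorem ljoin_mono {σ σ' τ τ' : List ℕ} (h : σ <+: σ') (h' : τ <+: τ') :
    ljoin σ τ <+: ljoin σ' τ' := by
  have h1 := h.length_le
  have h2 := h'.length_le
  unfold ljoin
  refine lists_map_range_prefix (by omega) fun i hi => ?_
  rw [lists_getD_prefix h (by omega : i / 2 < σ.length),
    lists_getD_prefix h' (by omega : i / 2 < τ.length)]

theorem levens_mono {σ σ' : List ℕ} (h : σ <+: σ') : levens σ <+: levens σ' := by
  have h1 := h.length_le
  unfold levens
  refine lists_map_range_prefix (by omega) fun i hi => ?_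
  rw [lists_getD_prefix h (by omega : 2 * i < σ.length)]

theorem lodds_mono {σ σ' : List ℕ} (h : σ <+: σ') : lodds σ <+: lodds σ' := by
  have h1 := h.length_le
  unfold lodds
  refine lists_map_range_prefix (by omega) fun i hi => ?_
  rw [lists_getD_prefix h (by omega : 2 * i + 1 < σ.length)]

theorem levens_pref_join (f g : R) (l : ℕ) : levens (pref (join f g) l) = pref f (l / 2) := by
  unfold levens
  rw [pref_length]
  conv_rhs => unfold pref
  refine lists_map_range_congr rfl fun i hi => ?_
  rw [lists_getD_pref _ _ _ (by omega), join_even]

theorem lodds_pref_join (f g : R) (l : ℕ) : lodds (pref (join f g) l) = pref g (l / 2) := by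
  unfold lodds
  rw [pref_length]
  conv_rhs => unfold pref
  refine lists_map_range_congr rfl fun i hi => ?_
  rw [lists_getD_pref _ _ _ (by omega), join_odd]

theorem primrec_ljoin : Primrec₂ ljoin := by
  unfold ljoin
  refine Primrec.list_map ?_ ?_
  · exact Primrec.list_range.comp (Primrec.nat_mul.comp (Primrec.const 2)
      (Primrec.nat_min.comp (Primrec.list_length.comp Primrec.fst)
        (Primrec.list_length.comp Primrec.snd)))
  · refine Primrec.ite ?_ ?_ ?_
    · exact Primrec.eq.comp (Primrec.nat_mod.comp Primrec.snd (Primrec.const 2)) (Primrec.const 0)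
    · exact (Primrec.list_getD 0).comp (Primrec.fst.comp Primrec.fst)
        (Primrec.nat_div.comp Primrec.snd (Primrec.const 2))
    · exact (Primrec.list_getD 0).comp (Primrec.snd.comp Primrec.fst)
        (Primrec.nat_div.comp Primrec.snd (Primrec.const 2))

theorem computable_ljoin : Computable₂ ljoin := primrec_ljoin.to_comp

theorem primrec_levens : Primrec levens := by
  unfold levens
  refine Primrec.list_map ?_ ?_
  · exact Primrec.list_range.comp (Primrec.nat_div.comp Primrec.list_length (Primrec.const 2))
  · exact (Primrec.list_getD 0).comp Primrec.fst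
      (Primrec.nat_mul.comp (Primrec.const 2) Primrec.snd)

theorem computable_levens : Computable levens := primrec_levens.to_comp

theorem primrec_lodds : Primrec lodds := by
  unfold lodds
  refine Primrec.list_map ?_ ?_
  · exact Primrec.list_range.comp (Primrec.nat_div.comp Primrec.list_length (Primrec.const 2))
  · exact (Primrec.list_getD 0).comp Primrec.fst
      (Primrec.nat_add.comp (Primrec.nat_mul.comp (Primrec.const 2) Primrec.snd)
        (Primrec.const 1))

theorem computable_lodds : Computable lodds := primrec_lodds.to_comp

end Vale.Agent.P327
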