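import Vale.Agent.Lib.P327.Step5

/-!
# P327 / Main: Step 6 and rigidity

`step6`: `bound π` gives `C`, `Bd π C`; `step5 π.symm C (Bd.symm ..)`: `∀ᶠ Y, TLE (π.f (r Y)) (r Y)`. Let `a` be a real, `α` a permutation with
`TEq (r α) a` (`exists_perm`). For comeager many `g`: `π.f (r g) ≤ r g` and `π.f (r (g * α)) ≤ r (g * α)` (`eventually_homeo`,
`Homeomorph.mulRight`). `a ≤ r α ≤ r g + r (g * α)` (`tle_quot`), so `π.f a ≤ π.f (r g) + π.f (r (g * α)) ≤ r g + r (g * α) ≤ r α + r g`
(`tle_mul`), so `π.f a ≤ join a (r g)`; `Eventually.frequently` (needs `NeBot (residual G)`, `open_freq isOpen_univ`), `tle_of_freq`: `π.f a ≤ a`.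
-/

namespace Vale.Agent.P327

open Filter Topology Set

/-- Step 6 -/
theorem step6 (π : Auto) (a : R) : TLE (π.f a) a := by
  obtain ⟨C, hC⟩ := bound π
  have h5 : ∀ᶠ Y in residual G, TLE (π.f (r Y)) (r Y) :=
    step5 π.symm C (Bd.symm (π := π) hC)
  obtain ⟨α, hα⟩ := exists_perm a
  have h5' : ∀ᶠ g in residual G, TLE (π.f (r (g * α))) (r (g * α)) :=
    eventually_homeo (Homeomorph.mulRight α) h5
  have hbox : ∃ᶠ g in residual G, g ∈ (univ : Set G) := open_freq isOpen_univ univ_nonempty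
  have hfin : ∃ᶠ g in residual G, TLE (π.f a) (join a (r g)) := by
    refine (hbox.and_eventually (h5.and h5')).mono ?_
    rintro g ⟨-, h1, h2⟩
    have e1 : TLE a (join (r g) (r (g * α))) := hα.2.trans (tle_quot g α)
    have e2 : TLE (π.f a) (join (π.f (r g)) (π.f (r (g * α)))) := π.join2 e1
    have e3 : TLE (r g) (join a (r g)) := tle_join_right _ _
    have e4 : TLE (r (g * α)) (join a (r g)) :=
      (tle_mul g α).trans (join_tle e3 (hα.1.trans (tle_join_left _ _)))
    exact e2.trans (join_tle (h1.trans e3) (h2.trans e4))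
  exact tle_of_freq hfin

theorem rigid (π : Auto) (a : R) : TEq (π.f a) a := by
  refine ⟨step6 π a, ?_⟩
  have h := step6 π.symm a
  exact ((π.fg a).2).trans ((π.hf _ _).mp h)

end Vale.Agent.P327
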