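import Vale.Agent.Lib.P327.Oracle

/-!
# P327 / Search: the general search lemma

`ψ (pref f l) n j = some v` means: the candidate `j` with the initial segment `pref f l` of the oracle
certifies the value `v` at `n`. Search over pairs `(l, j)`: the functional `searchRun` gives the
first value found among the pairs with number at most `σ.length`.
-/

namespace Vale.Agent.P327

open Filter Topology Set

/-- initial segment of a list -/
def searchTake (σ : List ℕ) (l : ℕ) : List ℕ := (List.range l).map fun i => σ.getD i 0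

/-- test of the pair number `k` -/
def searchTest (ψ : List ℕ → ℕ → ℕ → Option ℕ) (σ : List ℕ) (n k : ℕ) : Option ℕ :=
  ψ (searchTake σ k.unpair.1) n k.unpair.2

/-- first value among the pairs with number below `k` -/
def searchUpTo (ψ : List ℕ → ℕ → ℕ → Option ℕ) (σ : List ℕ) (n k : ℕ) : Option ℕ :=
  Nat.rec (motive := fun _ => Option ℕ) none
    (fun y IH => Option.casesOn (motive := fun _ => Option ℕ) IH (searchTest ψ σ n y) some) k

/-- the search -/
def searchRun (ψ : List ℕ → ℕ → ℕ → Option ℕ) (σ : List ℕ) (n : ℕ) : Option ℕ :=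
  searchUpTo ψ σ n (σ.length + 1)

theorem computable_searchTake : Computable₂ searchTake := by
  unfold searchTake
  apply Primrec.to_comp
  refine Primrec.list_map (Primrec.list_range.comp Primrec.snd) ?_
  exact (Primrec.list_getD 0).comp (Primrec.fst.comp Primrec.fst) Primrec.snd

theorem computable_searchRun (ψ : List ℕ → ℕ → ℕ → Option ℕ)
    (hψ : Computable fun p : List ℕ × ℕ × ℕ => ψ p.1 p.2.1 p.2.2) :
    Computable₂ (searchRun ψ) := by
  show Computable fun p : List ℕ × ℕ => searchRun ψ p.1 p.2
  unfold searchRun searchUpTo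
  refine Computable.nat_rec (f := fun p : List ℕ × ℕ => p.1.length + 1)
    (g := fun _ => (none : Option ℕ))
    (h := fun p q => Option.casesOn (motive := fun _ => Option ℕ) q.2
      (searchTest ψ p.1 p.2 q.1) some) ?_ ?_ ?_
  · exact Computable.succ.comp (Computable.list_length.comp Computable.fst)
  · exact Computable.const none
  · show Computable fun x : (List ℕ × ℕ) × (ℕ × Option ℕ) =>
      Option.casesOn (motive := fun _ => Option ℕ) x.2.2
        (searchTest ψ x.1.1 x.1.2 x.2.1) some
    refine Computable.option_casesOn (o := fun x : (List ℕ × ℕ) × (ℕ × Option ℕ) => x.2.2)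
      (f := fun x => searchTest ψ x.1.1 x.1.2 x.2.1) (g := fun _ v => some v) ?_ ?_ ?_
    · exact Computable.snd.comp Computable.snd
    · unfold searchTest
      have h1 : Computable fun x : (List ℕ × ℕ) × (ℕ × Option ℕ) => x.2.1.unpair :=
        Computable.unpair.comp (Computable.fst.comp Computable.snd)
      have h2 : Computable fun x : (List ℕ × ℕ) × (ℕ × Option ℕ) =>
          searchTake x.1.1 x.2.1.unpair.1 :=
        computable_searchTake.comp (Computable.fst.comp Computable.fst) (Computable.fst.comp h1)
      have h3 : Computable fun x : (List ℕ × ℕ) × (ℕ × Option ℕ) => x.2.1.unpair.2 :=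
        Computable.snd.comp h1
      have h4 : Computable fun x : (List ℕ × ℕ) × (ℕ × Option ℕ) =>
          (searchTake x.1.1 x.2.1.unpair.1, x.1.2, x.2.1.unpair.2) :=
        Computable.pair h2 (Computable.pair (Computable.snd.comp Computable.fst) h3)
      exact Computable.comp (f := fun p : List ℕ × ℕ × ℕ => ψ p.1 p.2.1 p.2.2)
        (g := fun x : (List ℕ × ℕ) × (ℕ × Option ℕ) =>
          (searchTake x.1.1 x.2.1.unpair.1, x.1.2, x.2.1.unpair.2)) hψ h4
    · exact (Computable.option_some.comp Computable.snd)

theorem searchTake_of_prefix {σ τ : List ℕ} (h : σ <+: τ) {l : ℕ} (hl : l ≤ σ.length) :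
    searchTake τ l = searchTake σ l := by
  unfold searchTake
  apply List.map_congr_left
  intro i hi
  have hi' : i < σ.length := lt_of_lt_of_le (List.mem_range.mp hi) hl
  obtain ⟨ρ, rfl⟩ := h
  simp only [List.getD_eq_getElem?_getD]
  rw [List.getElem?_append_left hi']

theorem searchUpTo_of_prefix (ψ : List ℕ → ℕ → ℕ → Option ℕ) {σ τ : List ℕ} (h : σ <+: τ)
    (n k : ℕ) (hk : k ≤ σ.length + 1) : searchUpTo ψ τ n k = searchUpTo ψ σ n k := by
  induction k with
  | zero => rfl
  | succ k ih =>
    have h1 : searchTest ψ τ n k = searchTest ψ σ n k := by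
      unfold searchTest
      rw [searchTake_of_prefix h]
      exact (Nat.unpair_left_le k).trans (by omega)
    have h2 : ∀ ρ, searchUpTo ψ ρ n (k + 1) =
        Option.casesOn (motive := fun _ => Option ℕ) (searchUpTo ψ ρ n k)
          (searchTest ψ ρ n k) some := fun _ => rfl
    rw [h2, h2, ih (by omega), h1]

theorem searchUpTo_succ_of_some (ψ : List ℕ → ℕ → ℕ → Option ℕ) {σ : List ℕ} {n k v : ℕ}
    (h : searchUpTo ψ σ n k = some v) : searchUpTo ψ σ n (k + 1) = some v := by
  have h2 : searchUpTo ψ σ n (k + 1) =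
        Option.casesOn (motive := fun _ => Option ℕ) (searchUpTo ψ σ n k)
          (searchTest ψ σ n k) some := rfl
  rw [h2, h]

theorem searchUpTo_mono (ψ : List ℕ → ℕ → ℕ → Option ℕ) {σ : List ℕ} {n k k' v : ℕ}
    (hk : k ≤ k') (h : searchUpTo ψ σ n k = some v) : searchUpTo ψ σ n k' = some v := by
  induction k', hk using Nat.le_induction with
  | base => exact h
  | succ k' _ ih => exact searchUpTo_succ_of_some ψ ih

theorem searchTest_pref (ψ : List ℕ → ℕ → ℕ → Option ℕ) (f : R) {m n k : ℕ} (hk : k ≤ m) :
    searchTest ψ (pref f m) n k = ψ (pref f k.unpair.1) n k.unpair.2 := by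
  unfold searchTest
  congr 1
  unfold searchTake pref
  apply List.map_congr_left
  intro i hi
  have hi' : i < m :=
    lt_of_lt_of_le (List.mem_range.mp hi) ((Nat.unpair_left_le k).trans hk)
  rw [List.getD_eq_getElem?_getD, List.getElem?_map, List.getElem?_range hi']
  rfl

theorem searchUpTo_sound {f g : R} (ψ : List ℕ → ℕ → ℕ → Option ℕ)
    (sound : ∀ l n j v, ψ (pref f l) n j = some v → v = g n) {m n k v : ℕ} (hk : k ≤ m + 1)
    (h : searchUpTo ψ (pref f m) n k = some v) : v = g n := by
  induction k with
  | zero => exact absurd h (by simp [searchUpTo])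
  | succ k ih =>
    have h2 : searchUpTo ψ (pref f m) n (k + 1) =
        Option.casesOn (motive := fun _ => Option ℕ) (searchUpTo ψ (pref f m) n k)
          (searchTest ψ (pref f m) n k) some := rfl
    rw [h2] at h
    rcases h3 : searchUpTo ψ (pref f m) n k with _ | w
    · rw [h3] at h
      have h4 : searchTest ψ (pref f m) n k = some v := h
      rw [searchTest_pref ψ f (by omega)] at h4
      exact sound _ _ _ _ h4
    · rw [h3] at h
      have h4 : some w = some v := h
      rw [h4] at h3
      exact ih (by omega) h3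

theorem searchUpTo_isSome (ψ : List ℕ → ℕ → ℕ → Option ℕ) {σ : List ℕ} {n k v : ℕ}
    (h : searchTest ψ σ n k = some v) : ∃ w, searchUpTo ψ σ n (k + 1) = some w := by
  have h2 : searchUpTo ψ σ n (k + 1) =
        Option.casesOn (motive := fun _ => Option ℕ) (searchUpTo ψ σ n k)
          (searchTest ψ σ n k) some := rfl
  rw [h2]
  rcases searchUpTo ψ σ n k with _ | w
  · exact ⟨v, h⟩
  · exact ⟨w, rfl⟩

theorem tle_of_search {f g : R} (ψ : List ℕ → ℕ → ℕ → Option ℕ)
    (hψ : Computable fun p : List ℕ × ℕ × ℕ => ψ p.1 p.2.1 p.2.2)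
    (sound : ∀ l n j v, ψ (pref f l) n j = some v → v = g n)
    (complete : ∀ n, ∃ l j, ψ (pref f l) n j = some (g n)) : TLE g f := by
  obtain ⟨φ, hφ⟩ := tr_of_run (searchRun ψ) (computable_searchRun ψ hψ) (by
    intro σ τ n v h h1
    unfold searchRun at h1 ⊢
    rw [← searchUpTo_of_prefix ψ h n _ le_rfl] at h1
    exact searchUpTo_mono ψ (Nat.add_le_add_right h.length_le 1) h1)
  apply tle_of_red (hφ f g ?_)
  intro n
  obtain ⟨l, j, h1⟩ := complete n
  have hlen : (pref f (Nat.pair l j)).length = Nat.pair l j := by simp [pref]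
  have h2 : searchTest ψ (pref f (Nat.pair l j)) n (Nat.pair l j) = some (g n) := by
    rw [searchTest_pref ψ f le_rfl, Nat.unpair_pair]
    exact h1
  obtain ⟨w, hw⟩ := searchUpTo_isSome ψ h2
  refine ⟨Nat.pair l j, ?_⟩
  unfold searchRun
  rw [hlen, hw, searchUpTo_sound ψ sound le_rfl hw]

end Vale.Agent.P327
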