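import Vale.Agent.Lib.P327.MeasA
import Vale.Agent.Lib.P327.Search
import Vale.Agent.Lib.P327.Lists
import Vale.Agent.Lib.P327.Top
import Vale.Agent.Lib.P327.KU

/-!
# P327 / Meas: Borel functions on `G` are given by functionals with a real parameter on a comeager set
-/

namespace Vale.Agent.P327

open Filter Topology Set

/-- the code of the triple attached to an initial segment of the oracle, an argument and a candidate -/
private def measCode (τ : List ℕ) (n j : ℕ) : ℕ :=
  Encodable.encode (n, j.unpair.1, (levens τ).take j.unpair.2)

/-- the search function -/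
private def measPsi (τ : List ℕ) (n j : ℕ) : Option ℕ :=
  bif decide ((lodds τ).getD (measCode τ n j) 0 = 1) then some j.unpair.1 else none

private theorem computable_measPsi :
    Computable fun p : List ℕ × ℕ × ℕ => measPsi p.1 p.2.1 p.2.2 := by
  have h1 : Computable fun p : List ℕ × ℕ × ℕ => p.2.2.unpair :=
    Primrec.unpair.to_comp.comp (Computable.snd.comp Computable.snd)
  have hv : Computable fun p : List ℕ × ℕ × ℕ => p.2.2.unpair.1 := Computable.fst.comp h1
  have hl : Computable fun p : List ℕ × ℕ × ℕ => p.2.2.unpair.2 := Computable.snd.comp h1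
  have ht : Computable fun p : List ℕ × ℕ × ℕ => (levens p.1).take p.2.2.unpair.2 :=
    (Primrec.list_take.to_comp).comp hl (computable_levens.comp Computable.fst)
  have hcode : Computable fun p : List ℕ × ℕ × ℕ => measCode p.1 p.2.1 p.2.2 :=
    Computable.encode.comp ((Computable.fst.comp Computable.snd).pair (hv.pair ht))
  have hg : Computable fun p : List ℕ × ℕ × ℕ =>
      (lodds p.1).getD (measCode p.1 p.2.1 p.2.2) 0 :=
    ((Primrec.list_getD 0).to_comp).comp (computable_lodds.comp Computable.fst) hcode
  have hd : Computable fun p : List ℕ × ℕ × ℕ =>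
      decide ((lodds p.1).getD (measCode p.1 p.2.1 p.2.2) 0 = 1) := by
    have hp : Primrec fun x : ℕ => decide (x = 1) :=
      (PrimrecRel.comp Primrec.eq Primrec.id (Primrec.const 1)).decide
    exact hp.to_comp.comp hg
  exact Computable.cond hd (Computable.option_some.comp hv) (Computable.const none)

private theorem measPsi_eq (f c : R) (L n j : ℕ) :
    measCode (pref (join f c) L) n j =
      Encodable.encode (n, j.unpair.1, (pref f (L / 2)).take j.unpair.2) := by
  unfold measCode
  rw [levens_pref_join]

/-- a Borel function on `G` is given by a functional with a real parameter on a comeager set.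
Proof: for every `n, v` there is an open set `U n v` with `U n v =ᵇ {g | h g n = v}`
(`MeasurableSet.residualEq_isOpen`). Let `c` code all triples `(n, v, σ)` such that every `g` with
`pref (r g) σ.length = σ` lies in `U n v` (`σ : List ℕ`). For comeager many `g`: `g ∈ U n v ↔ h g n = v` for all `n, v`.
Search (`tle_of_search`) for `v, l` such that the triple `(n, v, pref (r g) l)` is coded; use `exists_cyl`. -/
theorem tle_of_measurable (h : G → R) (hm : Measurable h) :
    ∃ c : R, ∀ᶠ g in residual G, TLE (h g) (join (r g) c) := by
  classical
  have hS : ∀ n v : ℕ, MeasurableSet {g : G | h g n = v} := fun n v =>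
    ((measurable_pi_apply n).comp hm) (measurableSet_singleton v)
  choose U hUo hUe using fun n v => (hS n v).residualEq_isOpen
  have hev : ∀ᶠ g in residual G, ∀ n v, (h g n = v ↔ g ∈ U n v) := by
    rw [eventually_countable_forall]
    intro n
    rw [eventually_countable_forall]
    intro v
    filter_upwards [(hUe n v).mem_iff] with g hg
    exact hg
  let c : R := fun k => if ∃ n v : ℕ, ∃ σ : List ℕ, Encodable.encode (n, v, σ) = k ∧
    ∀ g : G, pref (r g) σ.length = σ → g ∈ U n v then 1 else 0
  refine ⟨c, ?_⟩
  filter_upwards [hev] with g hg
  refine tle_of_search measPsi computable_measPsi ?_ ?_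
  · intro L n j v' hv'
    unfold measPsi at hv'
    rw [measPsi_eq, lodds_pref_join] at hv'
    set k := Encodable.encode (n, j.unpair.1, (pref (r g) (L / 2)).take j.unpair.2) with hk
    by_cases hd : (pref c (L / 2)).getD k 0 = 1
    · rw [decide_eq_true hd, cond_true, Option.some.injEq] at hv'
      have hkL : k < L / 2 := by
        by_contra hcon
        rw [List.getD_eq_default _ _ (by rw [pref_length]; omega)] at hd
        exact absurd hd (by norm_num)
      have hck : c k = 1 := by
        rw [List.getD_eq_getElem?_getD, pref_getElem c _ _ hkL] at hd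
        exact hd
      have hex : ∃ n v : ℕ, ∃ σ : List ℕ, Encodable.encode (n, v, σ) = k ∧
          ∀ g : G, pref (r g) σ.length = σ → g ∈ U n v := by
        by_contra hcon
        have h0 : c k = 0 := if_neg hcon
        rw [h0] at hck
        exact absurd hck (by norm_num)
      obtain ⟨n', v'', σ, he, hσ⟩ := hex
      rw [hk] at he
      have hinj := Encodable.encode_injective he
      rw [Prod.mk.injEq, Prod.mk.injEq] at hinj
      obtain ⟨rfl, rfl, rfl⟩ := hinj
      have hmem : g ∈ U n' j.unpair.1 := by
        refine hσ g ?_
        have hpre : (pref (r g) (L / 2)).take j.unpair.2 <+: pref (r g) (L / 2) :=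
          List.take_prefix _ _
        exact (eq_pref_of_prefix _ _ _ hpre).symm
      rw [← hv', (hg n' j.unpair.1).mpr hmem]
    · rw [decide_eq_false hd, cond_false] at hv'
      exact absurd hv' (by simp)
  · intro n
    have hmem : g ∈ U n (h g n) := (hg n (h g n)).mp rfl
    obtain ⟨m, hm'⟩ := exists_cyl (hUo n (h g n)) hmem
    have hcode : c (Encodable.encode (n, h g n, pref (r g) m)) = 1 := by
      refine if_pos ⟨n, h g n, pref (r g) m, rfl, ?_⟩
      intro g' hg'
      rw [pref_length] at hg'
      refine hm' ?_
      intro i hi
      exact (pref_eq_iff _ _ _).mp hg' i hi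
    set k := Encodable.encode (n, h g n, pref (r g) m) with hk
    refine ⟨2 * (m + k + 1), Nat.pair (h g n) m, ?_⟩
    unfold measPsi
    rw [measPsi_eq, lodds_pref_join, Nat.unpair_pair]
    have h2 : 2 * (m + k + 1) / 2 = m + k + 1 := by omega
    rw [h2]
    have htake : (pref (r g) (m + k + 1)).take m = pref (r g) m := by
      have hpre : (pref (r g) (m + k + 1)).take m <+: pref (r g) (m + k + 1) :=
        List.take_prefix _ _
      have := eq_pref_of_prefix _ _ _ hpre
      rw [List.length_take, pref_length, min_eq_left (by omega)] at this
      exact this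
    show (bif decide ((pref c (m + k + 1)).getD (Encodable.encode
      (n, h g n, (pref (r g) (m + k + 1)).take m)) 0 = 1) then some (h g n) else none) = _
    rw [htake, ← hk, List.getD_eq_getElem?_getD, pref_getElem c _ _ (by omega),
      Option.getD_some, hcode]
    rfl

end Vale.Agent.P327
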