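import Vale.Agent.Lib.P327.Defs

/-!
# P327 / TopA: topology of `G = Sym(ℕ)`

The topology is induced by `g ↦ (g, g⁻¹) ∈ (ℕ → ℕ) × (ℕ → ℕ)`, an injection with closed range
`{(a, b) | ∀ n, a (b n) = n ∧ b (a n) = n}`, so `G` is Polish (`Topology.IsClosedEmbedding`), hence Baire and second
countable; products too.  `G` is a topological group (pointwise continuity: `ℕ` is discrete, so
`(g, h) ↦ g (h n)` is continuous: it is locally constant).
`exists_cyl`: a basic open neighbourhood of `g` only depends on finitely many values of `g` and `g⁻¹`, so it contains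
`{h | ∀ i < m, h i = g i}` for `m` large (take `m` larger than the relevant `g⁻¹ i`).
-/

namespace Vale.Agent.P327

open Filter Topology Set

private theorem topA_inducing : IsInducing
    (fun g : G => ((fun n => g n : ℕ → ℕ), (fun n => g.symm n : ℕ → ℕ))) := ⟨rfl⟩

private theorem topA_continuous_emb : Continuous
    (fun g : G => ((fun n => g n : ℕ → ℕ), (fun n => g.symm n : ℕ → ℕ))) :=
  topA_inducing.continuous

private theorem topA_continuous_apply (n : ℕ) : Continuous (fun g : G => g n) :=
  (continuous_apply n).comp (continuous_fst.comp topA_continuous_emb)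

private theorem topA_continuous_symm_apply (n : ℕ) : Continuous (fun g : G => g.symm n) :=
  (continuous_apply n).comp (continuous_snd.comp topA_continuous_emb)

private theorem topA_isOpen_apply (n j : ℕ) : IsOpen {g : G | g n = j} :=
  continuous_discrete_rng.1 (topA_continuous_apply n) j

private theorem topA_isOpen_symm_apply (n j : ℕ) : IsOpen {g : G | g.symm n = j} :=
  continuous_discrete_rng.1 (topA_continuous_symm_apply n) j

private theorem topA_injective : Function.Injective
    (fun g : G => ((fun n => g n : ℕ → ℕ), (fun n => g.symm n : ℕ → ℕ))) := by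
  intro g h hgh
  have h1 := congrArg Prod.fst hgh
  ext n
  exact congrFun h1 n

private theorem topA_closedEmbedding : IsClosedEmbedding
    (fun g : G => ((fun n => g n : ℕ → ℕ), (fun n => g.symm n : ℕ → ℕ))) := by
  refine ⟨⟨topA_inducing, topA_injective⟩, ?_⟩
  have h : Set.range (fun g : G => ((fun n => g n : ℕ → ℕ), (fun n => g.symm n : ℕ → ℕ))) =
      {p : (ℕ → ℕ) × (ℕ → ℕ) | ∀ n, ∀ m, (p.1 n = m → p.2 m = n) ∧ (p.2 m = n → p.1 n = m)} := by
    ext p
    constructor
    · rintro ⟨g, rfl⟩
      intro n m
      constructor
      · intro h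
        show g.symm m = n
        rw [← h]
        exact g.symm_apply_apply n
      · intro h
        show g n = m
        rw [← h]
        exact g.apply_symm_apply m
    · intro hp
      refine ⟨⟨p.1, p.2, fun n => (hp n (p.1 n)).1 rfl, fun m => (hp (p.2 m) m).2 rfl⟩, rfl⟩
  rw [h]
  have h2 : {p : (ℕ → ℕ) × (ℕ → ℕ) | ∀ n, ∀ m, (p.1 n = m → p.2 m = n) ∧
      (p.2 m = n → p.1 n = m)} = ⋂ n, ⋂ m, {p : (ℕ → ℕ) × (ℕ → ℕ) |
        (p.1 n = m → p.2 m = n) ∧ (p.2 m = n → p.1 n = m)} := by
    ext p
    simp only [Set.mem_ofPred_eq, Set.mem_iInter]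
  rw [h2]
  refine isClosed_iInter fun n => isClosed_iInter fun m => ?_
  have hc : Continuous (fun p : (ℕ → ℕ) × (ℕ → ℕ) => (p.1 n, p.2 m)) := by fun_prop
  exact (isClosed_discrete {q : ℕ × ℕ | (q.1 = m → q.2 = n) ∧ (q.2 = n → q.1 = m)}).preimage hc

instance instPolishG : PolishSpace G := topA_closedEmbedding.polishSpace

instance instSecondCountableG : SecondCountableTopology G := inferInstance

instance instBaireG : BaireSpace G := inferInstance

instance instBaireG2 : BaireSpace (G × G) := inferInstance

instance instBaireG3 : BaireSpace (G × (G × G)) := inferInstance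

instance instTopGroupG : IsTopologicalGroup G := by
  have hmul : Continuous (fun p : G × G => p.1 * p.2) := by
    refine topA_inducing.continuous_iff.2 ?_
    refine Continuous.prodMk (continuous_pi fun n => ?_) (continuous_pi fun n => ?_)
    · refine continuous_discrete_rng.2 fun j => ?_
      have h : (fun p : G × G => (p.1 * p.2) n) ⁻¹' {j} =
          ⋃ m, (Prod.snd ⁻¹' {g : G | g n = m}) ∩ (Prod.fst ⁻¹' {g : G | g m = j}) := by
        ext p
        simp only [Set.mem_preimage, Set.mem_singleton_iff, Set.mem_iUnion, Set.mem_inter_iff,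
          Set.mem_ofPred_eq]
        constructor
        · intro h
          exact ⟨p.2 n, rfl, h⟩
        · rintro ⟨m, rfl, h⟩
          exact h
      show IsOpen ((fun p : G × G => (p.1 * p.2) n) ⁻¹' {j})
      rw [h]
      exact isOpen_iUnion fun m => ((topA_isOpen_apply n m).preimage continuous_snd).inter
        ((topA_isOpen_apply m j).preimage continuous_fst)
    · refine continuous_discrete_rng.2 fun j => ?_
      have h : (fun p : G × G => (p.1 * p.2).symm n) ⁻¹' {j} =
          ⋃ m, (Prod.fst ⁻¹' {g : G | g.symm n = m}) ∩ (Prod.snd ⁻¹' {g : G | g.symm m = j}) := by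
        ext p
        simp only [Set.mem_preimage, Set.mem_singleton_iff, Set.mem_iUnion, Set.mem_inter_iff,
          Set.mem_ofPred_eq]
        constructor
        · intro h
          exact ⟨p.1.symm n, rfl, h⟩
        · rintro ⟨m, rfl, h⟩
          exact h
      show IsOpen ((fun p : G × G => (p.1 * p.2).symm n) ⁻¹' {j})
      rw [h]
      exact isOpen_iUnion fun m => ((topA_isOpen_symm_apply n m).preimage continuous_fst).inter
        ((topA_isOpen_symm_apply m j).preimage continuous_snd)
  have hinv : Continuous (fun g : G => g⁻¹) := by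
    refine topA_inducing.continuous_iff.2 ?_
    exact Continuous.prodMk (continuous_pi fun n => topA_continuous_symm_apply n)
      (continuous_pi fun n => topA_continuous_apply n)
  exact { continuous_mul := hmul, continuous_inv := hinv }

theorem continuous_r : Continuous (r : G → R) :=
  continuous_pi fun n => topA_continuous_apply n

theorem isOpen_eval (i j : ℕ) : IsOpen {g : G | g i = j} := topA_isOpen_apply i j

theorem isOpen_cyl (w : G) (n : ℕ) : IsOpen (Cyl w n) := by
  have h : Cyl w n = ⋂ i ∈ Set.Iio n, {g : G | g i = w i} := by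
    ext g
    simp only [Cyl, Set.mem_ofPred_eq, Set.mem_iInter, Set.mem_Iio]
  rw [h]
  exact (Set.finite_Iio n).isOpen_biInter fun i _ => isOpen_eval i (w i)

/-- an open set containing `g` contains a cylinder of `g` -/
theorem exists_cyl {O : Set G} (hO : IsOpen O) {g : G} (hg : g ∈ O) : ∃ m, Cyl g m ⊆ O := by
  by_contra hcon
  push Not at hcon
  have hex : ∀ m, ∃ h : G, h ∈ Cyl g m ∧ h ∉ O := fun m => Set.not_subset.1 (hcon m)
  choose h hh hhO using hex
  have htend : Tendsto h atTop (𝓝 g) := by
    rw [topA_inducing.tendsto_nhds_iff, nhds_prod_eq, Filter.tendsto_prod_iff']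
    constructor
    · rw [tendsto_pi_nhds]
      intro n
      refine tendsto_const_nhds.congr' ?_
      filter_upwards [eventually_gt_atTop n] with m hm
      exact (hh m n hm).symm
    · rw [tendsto_pi_nhds]
      intro n
      refine tendsto_const_nhds.congr' ?_
      filter_upwards [eventually_gt_atTop (g.symm n)] with m hm
      have h1 : h m (g.symm n) = n := by
        rw [hh m _ hm]
        exact g.apply_symm_apply n
      show g.symm n = (h m).symm n
      rw [Equiv.eq_symm_apply]
      exact h1
  obtain ⟨m, hm⟩ := (htend.eventually (hO.mem_nhds hg)).exists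
  exact hhO m hm

end Vale.Agent.P327
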