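import Vale.Agent.Lib.P327.Oracle
import Vale.Agent.Lib.P327.TopA

/-!
# P327 / MeasA: Borel measurability

`R = ℕ → ℕ` carries the product sigma algebra (= Borel sets of the product topology). All sets below are countable
unions and intersections of sets `{f | pref f m = σ}` (finitely many coordinates), of which there are countably many.
`Red φ f g ↔ ∀ l, ∃ m, pref g l <+: φ.T (pref f m)`.
`TLE f g ↔ ∃ φ, Red φ g f` and `Tr` is countable.
-/

namespace Vale.Agent.P327

open Filter Topology Set

/-- extension by zero of a finite sequence -/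
def MeasA_ext (m : ℕ) (v : Fin m → ℕ) : R := fun n => if h : n < m then v ⟨n, h⟩ else 0

theorem MeasA_pref_ext (f : R) (m : ℕ) : pref f m = pref (MeasA_ext m fun i => f i) m := by
  unfold pref
  apply List.map_congr_left
  intro i hi
  have h : i < m := List.mem_range.mp hi
  simp [MeasA_ext, h]

theorem MeasA_measurable_restr (m : ℕ) : Measurable (fun (f : R) (i : Fin m) => f i) :=
  measurable_pi_lambda _ fun i => measurable_pi_apply (i : ℕ)

/-- a condition on an initial segment is measurable -/
theorem MeasA_set_pref (m : ℕ) (S : List ℕ → Prop) : MeasurableSet {f : R | S (pref f m)} := by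
  have h : {f : R | S (pref f m)} =
      (fun (f : R) (i : Fin m) => f i) ⁻¹' {v | S (pref (MeasA_ext m v) m)} := by
    ext f
    show S (pref f m) ↔ S (pref (MeasA_ext m fun i => f i) m)
    rw [← MeasA_pref_ext]
  rw [h]
  exact MeasA_measurable_restr m (MeasurableSet.of_discrete)

/-- a condition on two initial segments is measurable -/
theorem MeasA_set_pref₂ (m l : ℕ) (S : List ℕ → List ℕ → Prop) :
    MeasurableSet {p : R × R | S (pref p.1 m) (pref p.2 l)} := by
  have h : {p : R × R | S (pref p.1 m) (pref p.2 l)} =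
      ⋃ σ : List ℕ, ((Prod.fst ⁻¹' {f : R | pref f m = σ}) ∩
        (Prod.snd ⁻¹' {f : R | S σ (pref f l)})) := by
    ext p
    simp only [mem_iUnion, mem_inter_iff, mem_preimage]
    constructor
    · intro hp
      exact ⟨pref p.1 m, rfl, hp⟩
    · rintro ⟨σ, h1, h2⟩
      have h1' : pref p.1 m = σ := h1
      have h2' : S σ (pref p.2 l) := h2
      show S (pref p.1 m) (pref p.2 l)
      rw [h1']
      exact h2'
  rw [h]
  refine MeasurableSet.iUnion fun σ => ?_
  exact (measurable_fst (MeasA_set_pref m fun τ => τ = σ)).inter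
    (measurable_snd (MeasA_set_pref l fun τ => S σ τ))

theorem measurableSet_red (φ : Tr) : MeasurableSet {p : R × R | Red φ p.1 p.2} := by
  have h : {p : R × R | Red φ p.1 p.2} =
      ⋂ l : ℕ, ⋃ m : ℕ, {p : R × R | pref p.2 l <+: φ.T (pref p.1 m)} := by
    ext p
    simp only [mem_iInter, mem_iUnion]
    exact Iff.rfl
  rw [h]
  refine MeasurableSet.iInter fun l => MeasurableSet.iUnion fun m => ?_
  exact MeasA_set_pref₂ m l fun σ τ => τ <+: φ.T σ

theorem measurableSet_tot (φ : Tr) : MeasurableSet {f : R | Tot φ f} := by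
  have h : {f : R | Tot φ f} =
      ⋂ l : ℕ, ⋃ m : ℕ, {f : R | l ≤ (φ.T (pref f m)).length} := by
    ext p
    simp only [mem_iInter, mem_iUnion]
    exact Iff.rfl
  rw [h]
  refine MeasurableSet.iInter fun l => MeasurableSet.iUnion fun m => ?_
  exact MeasA_set_pref m fun σ => l ≤ (φ.T σ).length

theorem measurableSet_tle : MeasurableSet {p : R × R | TLE p.1 p.2} := by
  have h : {p : R × R | TLE p.1 p.2} = ⋃ φ : Tr, (Prod.swap ⁻¹' {p : R × R | Red φ p.1 p.2}) := by
    ext p
    simp only [mem_iUnion, mem_preimage]
    exact tle_iff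
  rw [h]
  exact MeasurableSet.iUnion fun φ => measurable_swap (measurableSet_red φ)

/-- values of the functional do not depend on the initial segment -/
theorem MeasA_val_unique (φ : Tr) (f : R) {n m m' v v' : ℕ}
    (h : (φ.T (pref f m))[n]? = some v) (h' : (φ.T (pref f m'))[n]? = some v') : v = v' := by
  have key : ∀ {a b x y : ℕ}, a ≤ b → (φ.T (pref f a))[n]? = some x →
      (φ.T (pref f b))[n]? = some y → x = y := by
    intro a b x y hab hx hy
    obtain ⟨t, ht⟩ := φ.mono _ _ (pref_mono f hab)
    rw [← ht, List.getElem?_append_left (List.getElem?_eq_some_iff.mp hx).1, hx] at hy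
    exact Option.some.inj hy
  rcases le_total m m' with hm | hm
  · exact key hm h h'
  · exact (key hm h' h).symm

theorem MeasA_val_eq_iff (φ : Tr) (f : R) (n v : ℕ) : val φ f n = v ↔
    (∃ m, (φ.T (pref f m))[n]? = some v) ∨
      (v = 0 ∧ ∀ m, (φ.T (pref f m))[n]? = none) := by
  classical
  by_cases h : ∃ v, ∃ m, (φ.T (pref f m))[n]? = some v
  · have h1 : val φ f n = h.choose := by
      unfold val
      exact dif_pos h
    obtain ⟨m, hm⟩ := h.choose_spec
    rw [h1]
    constructor
    · intro hv
      rw [hv] at hm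
      exact Or.inl ⟨m, hm⟩
    · rintro (⟨m', hm'⟩ | ⟨-, hn⟩)
      · exact MeasA_val_unique φ f hm hm'
      · rw [hn m] at hm
        exact absurd hm (by simp)
  · have h1 : val φ f n = 0 := by
      unfold val
      exact dif_neg h
    rw [h1]
    constructor
    · intro hv
      refine Or.inr ⟨hv.symm, fun m => ?_⟩
      rcases hc : (φ.T (pref f m))[n]? with _ | w
      · rfl
      · exact absurd ⟨w, m, hc⟩ h
    · rintro (⟨m', hm'⟩ | ⟨hv, -⟩)
      · exact absurd ⟨v, m', hm'⟩ h
      · exact hv.symm

theorem measurable_val (φ : Tr) : Measurable (val φ) := by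
  refine measurable_pi_iff.mpr fun n => ?_
  refine measurable_to_countable' fun v => ?_
  have h : (fun f : R => val φ f n) ⁻¹' {v} =
      (⋃ m : ℕ, {f : R | (φ.T (pref f m))[n]? = some v}) ∪
        ({_f : R | v = 0} ∩ ⋂ m : ℕ, {f : R | (φ.T (pref f m))[n]? = none}) := by
    ext f
    simp only [mem_union, mem_inter_iff, mem_iUnion, mem_iInter]
    exact MeasA_val_eq_iff φ f n v
  rw [h]
  refine MeasurableSet.union (MeasurableSet.iUnion fun m => ?_)
    (MeasurableSet.inter (MeasurableSet.const _) (MeasurableSet.iInter fun m => ?_))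
  · exact MeasA_set_pref m fun σ => (φ.T σ)[n]? = some v
  · exact MeasA_set_pref m fun σ => (φ.T σ)[n]? = none

theorem measurable_join : Measurable (fun p : R × R => join p.1 p.2) := by
  refine measurable_pi_iff.mpr fun n => ?_
  by_cases h : n % 2 = 0
  · have h1 : (fun p : R × R => join p.1 p.2 n) = fun p => p.1 (n / 2) := by
      funext p
      simp [join, h]
    rw [h1]
    exact (measurable_pi_apply (n / 2)).comp measurable_fst
  · have h1 : (fun p : R × R => join p.1 p.2 n) = fun p => p.2 (n / 2) := by
      funext p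
      simp [join, h]
    rw [h1]
    exact (measurable_pi_apply (n / 2)).comp measurable_snd

theorem measurable_r : Measurable (r : G → R) := continuous_r.measurable

end Vale.Agent.P327
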