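import Vale.Agent.Lib.P327.Comb

/-!
# P327 / OracleB2: from approximations to a functional

`T σ = [v₀, …, v_{j-1}]` with `run σ i = some v_i`, `i < j ≤ σ.length`, `j` maximal.
-/

namespace Vale.Agent.P327

open Filter Topology Set

/-- one step: append the value at `k` when the list has length `k` and the value is defined -/
def ob2_step (run : List ℕ → ℕ → Option ℕ) (σ : List ℕ) (p : ℕ × List ℕ) : List ℕ :=
  cond (p.2.length == p.1) (Option.casesOn (run σ p.1) p.2 (fun v => p.2 ++ [v])) p.2

/-- the list of the first values, at most `k` of them -/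
def ob2_L (run : List ℕ → ℕ → Option ℕ) (σ : List ℕ) (k : ℕ) : List ℕ :=
  Nat.rec (motive := fun _ => List ℕ) [] (fun y ih => ob2_step run σ (y, ih)) k

theorem ob2_L_succ (run : List ℕ → ℕ → Option ℕ) (σ : List ℕ) (k : ℕ) :
    ob2_L run σ (k + 1) = ob2_step run σ (k, ob2_L run σ k) := rfl

theorem ob2_step_comp (run : List ℕ → ℕ → Option ℕ) (hc : Computable₂ run) :
    Computable₂ (ob2_step run) := by
  have hfst : Computable (fun x : List ℕ × (ℕ × List ℕ) => x.2.1) :=
    Computable.fst.comp Computable.snd
  have hsnd : Computable (fun x : List ℕ × (ℕ × List ℕ) => x.2.2) :=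
    Computable.snd.comp Computable.snd
  have hlen : Computable (fun x : List ℕ × (ℕ × List ℕ) => x.2.2.length) :=
    Primrec.list_length.to_comp.comp hsnd
  have hbeq : Computable (fun x : List ℕ × (ℕ × List ℕ) => (x.2.2.length == x.2.1)) :=
    (Primrec.beq (α := ℕ)).to_comp.comp hlen hfst
  have hrun : Computable (fun x : List ℕ × (ℕ × List ℕ) => run x.1 x.2.1) :=
    hc.comp Computable.fst hfst
  have happ : Computable₂ (fun (x : List ℕ × (ℕ × List ℕ)) (v : ℕ) => x.2.2 ++ [v]) :=
    Computable.list_concat.comp (hsnd.comp Computable.fst) Computable.snd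
  exact Computable.cond hbeq (Computable.option_casesOn hrun hsnd happ) hsnd

theorem ob2_T_comp (run : List ℕ → ℕ → Option ℕ) (hc : Computable₂ run) :
    Computable (fun σ : List ℕ => ob2_L run σ σ.length) :=
  Computable.nat_rec Primrec.list_length.to_comp (Computable.const []) (ob2_step_comp run hc)

theorem ob2_inv (run : List ℕ → ℕ → Option ℕ) (σ : List ℕ) (k : ℕ) :
    (ob2_L run σ k).length ≤ k ∧
      (∀ i (h : i < (ob2_L run σ k).length), run σ i = some ((ob2_L run σ k)[i])) ∧
      ((ob2_L run σ k).length < k → run σ (ob2_L run σ k).length = none) := by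
  induction k with
  | zero => exact ⟨le_rfl, fun i h => absurd h (Nat.not_lt_zero _), fun h => absurd h (Nat.not_lt_zero _)⟩
  | succ k ih =>
    obtain ⟨h1, h2, h3⟩ := ih
    have key : ∀ L : List ℕ, L = ob2_L run σ k →
        (ob2_step run σ (k, L)).length ≤ k + 1 ∧
        (∀ i (h : i < (ob2_step run σ (k, L)).length),
          run σ i = some ((ob2_step run σ (k, L))[i])) ∧
        ((ob2_step run σ (k, L)).length < k + 1 →
          run σ (ob2_step run σ (k, L)).length = none) := by
      intro L hL
      rw [← hL] at h1 h2 h3
      by_cases hk : L.length = k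
      · cases hr : run σ k with
        | none =>
          have hs : ob2_step run σ (k, L) = L := by
            simp [ob2_step, hr]
          rw [hs]
          refine ⟨by omega, h2, fun _ => ?_⟩
          rw [hk, hr]
        | some v =>
          have hs : ob2_step run σ (k, L) = L ++ [v] := by
            simp [ob2_step, hr, hk]
          rw [hs]
          refine ⟨by simp [hk], fun i hi => ?_, fun hlt => ?_⟩
          · by_cases hik : i < L.length
            · rw [List.getElem_append_left hik]
              exact h2 i hik
            · have hi' : i = L.length := by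
                simp at hi
                omega
              subst hi'
              rw [List.getElem_concat_length rfl]
              rw [hk, hr]
          · simp [hk] at hlt
      · have hs : ob2_step run σ (k, L) = L := by
          have : (L.length == k) = false := by simpa using hk
          simp [ob2_step, this]
        rw [hs]
        exact ⟨by omega, h2, fun _ => h3 (by omega)⟩
    exact key _ rfl

/-- from approximations to a functional; the lists are cut at the first undefined value -/
theorem tr_of_run (run : List ℕ → ℕ → Option ℕ) (hc : Computable₂ run)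
    (hm : ∀ (σ τ : List ℕ) (n v : ℕ), σ <+: τ → run σ n = some v → run τ n = some v) :
    ∃ φ : Tr, ∀ f g : R, (∀ n, ∃ m, run (pref f m) n = some (g n)) → Red φ f g := by
  have hmono : ∀ σ τ : List ℕ, σ <+: τ → ob2_L run σ σ.length <+: ob2_L run τ τ.length := by
    intro σ τ hst
    obtain ⟨h1, h2, h3⟩ := ob2_inv run σ σ.length
    obtain ⟨k1, k2, k3⟩ := ob2_inv run τ τ.length
    have hle : (ob2_L run σ σ.length).length ≤ (ob2_L run τ τ.length).length := by
      by_contra hlt
      push Not at hlt
      have hl := hst.length_le
      have hn := k3 (by omega)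
      have hs := hm σ τ _ _ hst (h2 _ hlt)
      rw [hn] at hs
      exact absurd hs (by simp)
    rw [List.prefix_iff_getElem?]
    intro i hi
    have hi' : i < (ob2_L run τ τ.length).length := lt_of_lt_of_le hi hle
    rw [List.getElem?_eq_getElem hi']
    have hs := hm σ τ _ _ hst (h2 i hi)
    rw [k2 i hi'] at hs
    exact hs
  have hpm : ∀ (f : R) (a b : ℕ), a ≤ b → pref f a <+: pref f b := by
    intro f a b hab
    rw [List.prefix_iff_getElem?]
    intro i hi
    have hia : i < a := by simpa [pref] using hi
    simp [pref, lt_of_lt_of_le hia hab]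
  refine ⟨⟨fun σ => ob2_L run σ σ.length, ob2_T_comp run hc, hmono⟩, fun f g hfg l => ?_⟩
  choose M hM using hfg
  refine ⟨l + (Finset.range l).sup M, ?_⟩
  set m := l + (Finset.range l).sup M with hmdef
  have hval : ∀ n < l, run (pref f m) n = some (g n) := by
    intro n hn
    have hMn : M n ≤ m := by
      have := Finset.le_sup (f := M) (Finset.mem_range.2 hn)
      omega
    exact hm _ _ _ _ (hpm f _ _ hMn) (hM n)
  have hlen : (pref f m).length = m := by simp [pref]
  obtain ⟨k1, k2, k3⟩ := ob2_inv run (pref f m) (pref f m).length
  show pref g l <+: ob2_L run (pref f m) (pref f m).length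
  have hle : l ≤ (ob2_L run (pref f m) (pref f m).length).length := by
    by_contra hlt
    push Not at hlt
    have hn := k3 (by omega)
    rw [hval _ hlt] at hn
    exact absurd hn (by simp)
  rw [List.prefix_iff_getElem?]
  intro i hi
  have hil : i < l := by simpa [pref] using hi
  have hi' : i < (ob2_L run (pref f m) (pref f m).length).length := lt_of_lt_of_le hil hle
  rw [List.getElem?_eq_getElem hi']
  have hs := k2 i hi'
  rw [hval i hil] at hs
  have hg : (pref g l)[i] = g i := by simp [pref]
  rw [hg]
  exact hs.symm

end Vale.Agent.P327
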