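import Vale.Agent.Lib.P327.OracleB1
import Vale.Agent.Lib.P327.OracleB2

/-!
# P327 / OracleB: main direction, Turing reducibility gives a functional
-/

namespace Vale.Agent.P327

open Filter Topology Set

theorem red_of_tle {f g : R} (h : TLE g f) : ∃ φ : Tr, Red φ f g := by
  obtain ⟨run, h1, h2, h3⟩ := exists_run h
  obtain ⟨φ, hφ⟩ := tr_of_run run h1 h2
  exact ⟨φ, hφ f g fun n => (h3 n (g n)).mp (Part.mem_some _)⟩

end Vale.Agent.P327
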