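import Vale.Agent.Lib.P327.OracleA
import Vale.Agent.Lib.P327.OracleB

/-!
# P327 / Oracle: Turing reducibility is given by functionals `Tr`

`Countable Tr`: a functional is determined by `T`, computable functions are countable
(codes: `Nat.Partrec.Code`). The rest follows from `tle_iff` and `Comb.lean`
(`TLE.trans` also from `Nat.RecursiveIn.subst`). `exists_upper`: `C (pair n k) = c n k`.
-/

namespace Vale.Agent.P327

open Filter Topology Set

theorem tle_iff {f g : R} : TLE g f ↔ ∃ φ : Tr, Red φ f g :=
  ⟨red_of_tle, fun ⟨_, h⟩ => tle_of_red h⟩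

/-- every functional has a code -/
theorem oracle_exists_code (φ : Tr) : ∃ c : Nat.Partrec.Code,
    c.eval = fun n => Part.bind (Encodable.decode (α := List ℕ) n : Part (List ℕ))
      fun a => (Part.some (φ.T a)).map Encodable.encode :=
  Nat.Partrec.Code.exists_code.1 φ.comp

instance instCountableTr : Countable Tr := by
  classical
  choose c hc using oracle_exists_code
  have hinj : Function.Injective c := by
    intro φ ψ h
    have h1 : φ.T = ψ.T := by
      funext a
      have h2 := congrFun (hc φ) (Encodable.encode a)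
      have h3 := congrFun (hc ψ) (Encodable.encode a)
      rw [h, h3] at h2
      simp only [Encodable.encodek, Part.coe_some, Part.bind_some, Part.map_some,
        Part.some_inj] at h2
      exact (Encodable.encode_injective h2).symm
    cases φ
    cases ψ
    cases h1
    rfl
  exact hinj.countable

theorem TLE.refl (f : R) : TLE f f := Nat.RecursiveIn.oracle _ rfl

theorem TLE.trans {f g h : R} (h1 : TLE f g) (h2 : TLE g h) : TLE f h := by
  refine Nat.RecursiveIn.subst h1 ?_
  intro k hk
  have hk2 : k = (fun n => Part.some (g n)) := hk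
  rw [hk2]
  exact h2

theorem tle_join_left (f g : R) : TLE f (join f g) := by
  obtain ⟨κ, hκ⟩ := red_fst
  exact tle_iff.2 ⟨κ, hκ f g⟩

theorem tle_join_right (f g : R) : TLE g (join f g) := by
  obtain ⟨κ, hκ⟩ := red_snd
  exact tle_iff.2 ⟨κ, hκ f g⟩

theorem join_tle {f g h : R} (h1 : TLE f h) (h2 : TLE g h) : TLE (join f g) h := by
  obtain ⟨φ, hφ⟩ := tle_iff.1 h1
  obtain ⟨ψ, hψ⟩ := tle_iff.1 h2
  obtain ⟨κ, hκ⟩ := red_join φ ψ
  exact tle_iff.2 ⟨κ, hκ h f g hφ hψ⟩

/-- countable joins -/
theorem exists_upper (c : ℕ → R) : ∃ C : R, ∀ n, TLE (c n) C := by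
  refine ⟨fun m => c m.unpair.1 m.unpair.2, fun n => ?_⟩
  have h1 : Nat.RecursiveIn {(fun m : ℕ => Part.some (c m.unpair.1 m.unpair.2))}
      (fun k : ℕ => (Part.some (Nat.pair n k) : Part ℕ) >>=
        fun m : ℕ => Part.some (c m.unpair.1 m.unpair.2)) := by
    refine Nat.RecursiveIn.comp (Nat.RecursiveIn.oracle _ rfl) ?_
    have h2 : Primrec fun k : ℕ => Nat.pair n k :=
      Primrec₂.natPair.comp (Primrec.const n) Primrec.id
    exact Nat.Partrec.recursiveIn (Partrec.nat_iff.1 h2.to_comp.partrec)
  refine Nat.RecursiveIn.of_eq h1 fun k => ?_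
  simp

end Vale.Agent.P327
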