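import Vale.Agent.Lib.P327.Comb

/-!
# P327 / OracleA: easy direction

Search `m` with `(φ.T (pref f m))[n]? = some v` (`Nat.RecursiveIn.rfind` / `prec` with the oracle `f`; the map
`m ↦ encode (pref f m)` is primitive recursive in `f`), output `v`.
-/

namespace Vale.Agent.P327

open Filter Topology Set

/-- total functions recursive in `O` -/
def OracleA_TI (O : Set (ℕ →. ℕ)) (u : ℕ → ℕ) : Prop :=
  Nat.RecursiveIn O (fun n => Part.some (u n))

theorem OracleA_TI.of_computable {O : Set (ℕ →. ℕ)} {u : ℕ → ℕ} (hu : Computable u) :
    OracleA_TI O u :=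
  Nat.Partrec.recursiveIn (Partrec.nat_iff.1 hu)

theorem OracleA_TI.comp {O : Set (ℕ →. ℕ)} {u v : ℕ → ℕ} (hu : OracleA_TI O u)
    (hv : OracleA_TI O v) : OracleA_TI O (fun n => u (v n)) := by
  have h := Nat.RecursiveIn.comp hu hv
  refine h.of_eq fun n => ?_
  exact Part.bind_some _ _

theorem OracleA_TI.pair {O : Set (ℕ →. ℕ)} {u v : ℕ → ℕ} (hu : OracleA_TI O u)
    (hv : OracleA_TI O v) : OracleA_TI O (fun n => Nat.pair (u n) (v n)) := by
  have h := Nat.RecursiveIn.pair hu hv
  refine h.of_eq fun n => ?_
  simp [Seq.seq]

/-- code of an initial segment -/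
def OracleA_code (f : R) (m : ℕ) : ℕ := Encodable.encode (pref f m)

/-- append one entry to a coded list -/
def OracleA_app (p : ℕ) : ℕ :=
  Encodable.encode (((Encodable.decode (α := List ℕ) p.unpair.1).getD []) ++ [p.unpair.2])

theorem OracleA_app_computable : Computable OracleA_app := by
  unfold OracleA_app
  refine Computable.encode.comp ?_
  have h1 : Computable fun p : ℕ => (Encodable.decode (α := List ℕ) p.unpair.1).getD [] :=
    Computable.option_getD (Computable.decode.comp (Computable.fst.comp Computable.unpair))
      (Computable.const [])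
  have h2 : Computable fun p : ℕ => [p.unpair.2] :=
    Computable.list_cons.comp (Computable.snd.comp Computable.unpair) (Computable.const [])
  exact Computable.list_append.comp h1 h2

theorem OracleA_pref_succ (f : R) (m : ℕ) : pref f (m + 1) = pref f m ++ [f m] := by
  simp [pref, List.range_succ]

theorem OracleA_app_eq (f : R) (m : ℕ) :
    OracleA_app (Nat.pair (OracleA_code f m) (f m)) = OracleA_code f (m + 1) := by
  unfold OracleA_app OracleA_code
  rw [Nat.unpair_pair, OracleA_pref_succ]
  simp only [Encodable.encodek, Option.getD_some]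

theorem OracleA_code_TI (f : R) :
    OracleA_TI {(fun n => Part.some (f n))} (OracleA_code f) := by
  set O : Set (ℕ →. ℕ) := {(fun n => Part.some (f n))} with hO
  have hf : OracleA_TI O f := Nat.RecursiveIn.oracle _ (Set.mem_singleton _)
  have hL : OracleA_TI O (fun n => n.unpair.1) := OracleA_TI.of_computable
    (Computable.fst.comp Computable.unpair)
  have hR : OracleA_TI O (fun n => n.unpair.2) := OracleA_TI.of_computable
    (Computable.snd.comp Computable.unpair)
  -- the step: `(a, (y, i)) ↦ app (i, f y)`
  have hstep : OracleA_TI O (fun n => OracleA_app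
      (Nat.pair n.unpair.2.unpair.2 (f n.unpair.2.unpair.1))) :=
    (OracleA_TI.of_computable OracleA_app_computable).comp
      ((hR.comp hR).pair (hf.comp (hL.comp hR)))
  have hzero : OracleA_TI O (fun _ => OracleA_code f 0) := OracleA_TI.of_computable
    (Computable.const _)
  have hprec := Nat.RecursiveIn.prec hzero hstep
  have hdiag : OracleA_TI O (fun n => Nat.pair 0 n) :=
    (OracleA_TI.of_computable (Computable.const 0)).pair (OracleA_TI.of_computable Computable.id)
  have h := Nat.RecursiveIn.comp hprec hdiag
  refine h.of_eq fun n => ?_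
  rw [Part.bind_eq_bind, Part.bind_some]
  simp only [Nat.unpair_pair]
  induction n with
  | zero => rfl
  | succ n ih =>
    simp only
    rw [ih, Part.bind_eq_bind, Part.bind_some, OracleA_app_eq]

/-- look up entry `n` in `φ.T` of a coded list; the value is increased by one -/
def OracleA_look (φ : Tr) (p : ℕ) : ℕ :=
  (((φ.T ((Encodable.decode (α := List ℕ) p.unpair.2).getD []))[p.unpair.1]?).map Nat.succ).getD 0

theorem OracleA_look_computable (φ : Tr) : Computable (OracleA_look φ) := by
  unfold OracleA_look
  have h1 : Computable fun p : ℕ => (Encodable.decode (α := List ℕ) p.unpair.2).getD [] :=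
    Computable.option_getD (Computable.decode.comp (Computable.snd.comp Computable.unpair))
      (Computable.const [])
  have h2 : Computable fun p : ℕ =>
      (φ.T ((Encodable.decode (α := List ℕ) p.unpair.2).getD []))[p.unpair.1]? :=
    Computable.list_getElem?.comp (φ.comp.comp h1) (Computable.fst.comp Computable.unpair)
  exact Computable.option_getD (Computable.option_map h2
    (Computable.succ.comp Computable.snd).to₂) (Computable.const 0)

theorem OracleA_look_eq {φ : Tr} {f g : R} (h : Red φ f g) (n m : ℕ) :
    OracleA_look φ (Nat.pair n (OracleA_code f m)) =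
      if n < (φ.T (pref f m)).length then g n + 1 else 0 := by
  unfold OracleA_look OracleA_code
  rw [Nat.unpair_pair]
  simp only [Encodable.encodek, Option.getD_some]
  have h1 := h.out_prefix m
  split_ifs with hn
  · rw [h1, pref_getElem g _ _ hn]
    rfl
  · rw [List.getElem?_eq_none (not_lt.1 hn)]
    rfl

theorem tle_of_red {φ : Tr} {f g : R} (h : Red φ f g) : TLE g f := by
  unfold TLE
  set O : Set (ℕ →. ℕ) := {(fun n => Part.some (f n))} with hO
  have hcode : OracleA_TI O (OracleA_code f) := OracleA_code_TI f
  have hL : OracleA_TI O (fun n => n.unpair.1) := OracleA_TI.of_computable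
    (Computable.fst.comp Computable.unpair)
  have hR : OracleA_TI O (fun n => n.unpair.2) := OracleA_TI.of_computable
    (Computable.snd.comp Computable.unpair)
  have hlook : OracleA_TI O (fun p => OracleA_look φ
      (Nat.pair p.unpair.1 (OracleA_code f p.unpair.2))) :=
    (OracleA_TI.of_computable (OracleA_look_computable φ)).comp (hL.pair (hcode.comp hR))
  -- the test: zero iff the entry is there
  have htest : OracleA_TI O (fun p => 1 - OracleA_look φ
      (Nat.pair p.unpair.1 (OracleA_code f p.unpair.2))) :=
    (OracleA_TI.of_computable (u := fun n => 1 - n)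
      (Primrec.to_comp (Primrec.nat_sub.comp (Primrec.const 1) Primrec.id))).comp hlook
  have hfind := Nat.RecursiveIn.rfind htest
  -- the value
  have hval : OracleA_TI O (fun p => (OracleA_look φ
      (Nat.pair p.unpair.1 (OracleA_code f p.unpair.2))) - 1) :=
    (OracleA_TI.of_computable (u := fun n => n - 1)
      (Primrec.to_comp (Primrec.nat_sub.comp Primrec.id (Primrec.const 1)))).comp hlook
  have hid : OracleA_TI O (fun n => n) := OracleA_TI.of_computable Computable.id
  have hpair := Nat.RecursiveIn.pair hid hfind
  have hfin := Nat.RecursiveIn.comp hval hpair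
  refine hfin.of_eq fun n => ?_
  -- existence of a witness
  have hex : ∃ m, n < (φ.T (pref f m)).length := by
    obtain ⟨m, hm⟩ := h (n + 1)
    refine ⟨m, ?_⟩
    have := hm.length_le
    rw [pref_length] at this
    omega
  have hlookv : ∀ m, OracleA_look φ (Nat.pair n (OracleA_code f m)) =
      if n < (φ.T (pref f m)).length then g n + 1 else 0 := OracleA_look_eq h n
  set p : ℕ →. Bool := fun m => (fun x => decide (x = 0)) <$>
    (Part.some (1 - OracleA_look φ (Nat.pair (Nat.pair n m).unpair.1
      (OracleA_code f (Nat.pair n m).unpair.2))) : Part ℕ) with hp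
  have hpm : ∀ m, p m = Part.some (decide (n < (φ.T (pref f m)).length)) := by
    intro m
    rw [hp]
    simp only [Part.map_eq_map, Part.map_some, Nat.unpair_pair, hlookv]
    congr 1
    by_cases hlt : n < (φ.T (pref f m)).length
    · simp [hlt]
    · simp [hlt]
  have hdom : (Nat.rfind p).Dom := by
    rw [Nat.rfind_dom]
    obtain ⟨m, hm⟩ := hex
    refine ⟨m, ?_, fun {k} _ => ?_⟩
    · rw [hpm, Part.mem_some_iff]
      exact (decide_eq_true hm).symm
    · rw [hpm]
      trivial
  obtain ⟨m, hm⟩ := Part.dom_iff_mem.1 hdom
  have hm' : n < (φ.T (pref f m)).length := by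
    have h1 := (Nat.mem_rfind.1 hm).1
    rw [hpm, Part.mem_some_iff] at h1
    exact of_decide_eq_true h1.symm
  have hrf : Nat.rfind p = Part.some m := Part.eq_some_iff.2 hm
  change (Nat.pair <$> (Part.some n : Part ℕ) <*> Nat.rfind p >>= fun q =>
    (Part.some (OracleA_look φ (Nat.pair q.unpair.1 (OracleA_code f q.unpair.2)) - 1) : Part ℕ)) =
      Part.some (g n)
  rw [hrf]
  have hs : (Nat.pair <$> (Part.some n : Part ℕ) <*> (Part.some m : Part ℕ)) =
      Part.some (Nat.pair n m) := by
    simp [Seq.seq]
  rw [hs, Part.bind_eq_bind, Part.bind_some, Nat.unpair_pair]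
  simp only [hlookv, if_pos hm', Nat.add_sub_cancel]

end Vale.Agent.P327
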