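import Vale.Agent.Lib.P327.Defs

/-!
# P327 / OracleB1: partial functions recursive in an oracle have computable monotone approximations

`exists_run` of `OracleB`, by induction on `Nat.RecursiveIn`.
-/

namespace Vale.Agent.P327

open Filter Topology Set

theorem OracleB_pref_mono (f : R) {l m : ℕ} (h : l ≤ m) : pref f l <+: pref f m := by
  unfold pref
  apply List.IsPrefix.map
  rw [List.prefix_iff_eq_take]
  rw [List.length_range, List.take_range, Nat.min_eq_left h]

theorem OracleB_pref_get (f : R) (l n : ℕ) : (pref f l)[n]? = if n < l then some (f n) else none := by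
  unfold pref
  rw [List.getElem?_map]
  split
  · next h => rw [List.getElem?_range h]; rfl
  · next h => rw [List.getElem?_eq_none (by simpa using h)]; rfl

/-- the search state: `none` stuck, `some 0` still searching, `some (n + 1)` found `n` -/
def OracleB_st (q : ℕ → Option ℕ) : ℕ → Option ℕ := fun k =>
  Nat.rec (some 0) (fun y IH => IH.bind fun s =>
    Nat.casesOn s ((q y).bind fun v => Nat.casesOn v (some (y + 1)) (fun _ => some 0))
      (fun n => some (n + 1))) k

theorem OracleB_st_zero (q : ℕ → Option ℕ) (k : ℕ) :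
    OracleB_st q k = some 0 ↔ ∀ j < k, ∃ v, q j = some (v + 1) := by
  induction k with
  | zero => simp [OracleB_st]
  | succ k ih =>
    have h1 : OracleB_st q (k + 1) = (OracleB_st q k).bind fun s =>
      Nat.casesOn s ((q k).bind fun v => Nat.casesOn v (some (k + 1)) (fun _ => some 0))
      (fun n => some (n + 1)) := rfl
    rw [h1]
    constructor
    · intro h
      obtain ⟨s, hs, h2⟩ := Option.bind_eq_some_iff.mp h
      cases s with
      | zero =>
        obtain ⟨v, hv, h3⟩ := Option.bind_eq_some_iff.mp h2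
        cases v with
        | zero => simp at h3
        | succ v =>
          intro j hj
          rcases Nat.lt_succ_iff_lt_or_eq.mp hj with h4 | rfl
          · exact ih.mp hs j h4
          · exact ⟨v, hv⟩
      | succ n => simp at h2
    · intro h
      obtain ⟨v, hv⟩ := h k (Nat.lt_succ_self k)
      rw [ih.mpr fun j hj => h j (Nat.lt_succ_of_lt hj)]
      simp [hv]

theorem OracleB_st_succ (q : ℕ → Option ℕ) (k n : ℕ) :
    OracleB_st q k = some (n + 1) ↔
      n < k ∧ q n = some 0 ∧ ∀ j < n, ∃ v, q j = some (v + 1) := by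
  induction k with
  | zero => simp [OracleB_st]
  | succ k ih =>
    have h1 : OracleB_st q (k + 1) = (OracleB_st q k).bind fun s =>
      Nat.casesOn s ((q k).bind fun v => Nat.casesOn v (some (k + 1)) (fun _ => some 0))
      (fun n => some (n + 1)) := rfl
    rw [h1]
    constructor
    · intro h
      obtain ⟨s, hs, h2⟩ := Option.bind_eq_some_iff.mp h
      cases s with
      | zero =>
        obtain ⟨v, hv, h3⟩ := Option.bind_eq_some_iff.mp h2
        cases v with
        | zero =>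
          have h4 : k = n := by simpa using h3
          subst h4
          exact ⟨Nat.lt_succ_self _, hv, (OracleB_st_zero q k).mp hs⟩
        | succ v => simp at h3
      | succ m =>
        have h4 : m = n := by simpa using h2
        subst h4
        obtain ⟨h5, h6, h7⟩ := ih.mp hs
        exact ⟨Nat.lt_succ_of_lt h5, h6, h7⟩
    · rintro ⟨h2, h3, h4⟩
      rcases Nat.lt_succ_iff_lt_or_eq.mp h2 with h5 | rfl
      · rw [ih.mpr ⟨h5, h3, h4⟩]
        rfl
      · rw [(OracleB_st_zero q n).mpr h4]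
        simp [h3]

/-- approximation to unbounded search -/
def OracleB_rf (run : List ℕ → ℕ → Option ℕ) (σ : List ℕ) (a : ℕ) : Option ℕ :=
  (OracleB_st (fun y => run σ (Nat.pair a y)) σ.length).bind fun s =>
    Nat.casesOn s none (fun n => some n)

theorem OracleB_rf_eq (run : List ℕ → ℕ → Option ℕ) (σ : List ℕ) (a n : ℕ) :
    OracleB_rf run σ a = some n ↔ n < σ.length ∧ run σ (Nat.pair a n) = some 0 ∧
      ∀ j < n, ∃ v, run σ (Nat.pair a j) = some (v + 1) := by
  rw [← OracleB_st_succ (fun y => run σ (Nat.pair a y)) σ.length n]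
  unfold OracleB_rf
  constructor
  · intro h
    obtain ⟨s, hs, h2⟩ := Option.bind_eq_some_iff.mp h
    cases s with
    | zero => simp at h2
    | succ m =>
      have h4 : m = n := by simpa using h2
      subst h4
      exact hs
  · intro h
    rw [h]
    rfl

theorem OracleB_rf_comp {run : List ℕ → ℕ → Option ℕ} (h : Computable₂ run) :
    Computable₂ (OracleB_rf run) := by
  have h0 : Computable₂ fun (x : (((List ℕ × ℕ) × (ℕ × Option ℕ)) × ℕ)) (v : ℕ) =>
      (Nat.casesOn v (some (x.1.2.1 + 1)) (fun _ => some 0) : Option ℕ) := by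
    refine Computable.nat_casesOn Computable.snd ?_ ?_
    · exact Computable.option_some.comp (Computable.succ.comp
        (Computable.fst.comp (Computable.snd.comp (Computable.fst.comp Computable.fst))))
    · exact (Computable.const (some 0))
  have h1 : Computable fun (x : (((List ℕ × ℕ) × (ℕ × Option ℕ)) × ℕ)) =>
      run x.1.1.1 (Nat.pair x.1.1.2 x.1.2.1) :=
    h.comp (Computable.fst.comp (Computable.fst.comp Computable.fst))
          (Primrec₂.natPair.to_comp.comp
            (Computable.snd.comp (Computable.fst.comp Computable.fst))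
            (Computable.fst.comp (Computable.snd.comp Computable.fst)))
  have h2 : Computable₂ fun (x : (List ℕ × ℕ) × (ℕ × Option ℕ)) (s : ℕ) =>
      (Nat.casesOn s ((run x.1.1 (Nat.pair x.1.2 x.2.1)).bind fun v =>
        Nat.casesOn v (some (x.2.1 + 1)) (fun _ => some 0))
      (fun n => some (n + 1)) : Option ℕ) := by
    refine Computable.nat_casesOn Computable.snd ?_ ?_
    · exact Computable.option_bind h1 h0
    · exact Computable.option_some.comp (Computable.succ.comp Computable.snd)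
  have h3 : Computable₂ fun (x : List ℕ × ℕ) (z : ℕ × Option ℕ) =>
      z.2.bind fun s => (Nat.casesOn s ((run x.1 (Nat.pair x.2 z.1)).bind fun v =>
        Nat.casesOn v (some (z.1 + 1)) (fun _ => some 0))
      (fun n => some (n + 1)) : Option ℕ) :=
    Computable.option_bind (Computable.snd.comp Computable.snd) h2
  have h4 : Computable fun x : List ℕ × ℕ =>
      OracleB_st (fun y => run x.1 (Nat.pair x.2 y)) x.1.length :=
    Computable.nat_rec (Computable.list_length.comp Computable.fst)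
      (Computable.const _) h3
  have h5 : Computable₂ fun (_ : List ℕ × ℕ) (s : ℕ) =>
      (Nat.casesOn s none (fun n => some n) : Option ℕ) := by
    refine Computable.nat_casesOn Computable.snd (Computable.const none) ?_
    exact Computable.option_some.comp Computable.snd
  exact Computable.option_bind h4 h5

/-- approximation to primitive recursion, curried -/
def OracleB_pr0 (r1 r2 : List ℕ → ℕ → Option ℕ) (σ : List ℕ) (a n : ℕ) : Option ℕ :=
  Nat.rec (r1 σ a)
    (fun y IH => IH.bind fun i => r2 σ (Nat.pair a (Nat.pair y i))) n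

/-- approximation to primitive recursion -/
def OracleB_pr (r1 r2 : List ℕ → ℕ → Option ℕ) (σ : List ℕ) (p : ℕ) : Option ℕ :=
  OracleB_pr0 r1 r2 σ p.unpair.1 p.unpair.2

theorem OracleB_pr0_comp {r1 r2 : List ℕ → ℕ → Option ℕ} (h1 : Computable₂ r1)
    (h2 : Computable₂ r2) :
    Computable₂ fun (x : List ℕ × ℕ) (n : ℕ) => OracleB_pr0 r1 r2 x.1 x.2 n := by
  have hp : Computable fun (x : (((List ℕ × ℕ) × ℕ) × (ℕ × Option ℕ)) × ℕ) =>
      Nat.pair x.1.2.1 x.2 :=
    Primrec₂.natPair.to_comp.comp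
      (Computable.fst.comp (Computable.snd.comp Computable.fst)) Computable.snd
  have ha : Computable fun (x : (((List ℕ × ℕ) × ℕ) × (ℕ × Option ℕ)) × ℕ) => x.1.1.1.2 :=
    Computable.snd.comp (Computable.fst.comp (Computable.fst.comp Computable.fst))
  have hs : Computable fun (x : (((List ℕ × ℕ) × ℕ) × (ℕ × Option ℕ)) × ℕ) => x.1.1.1.1 :=
    Computable.fst.comp (Computable.fst.comp (Computable.fst.comp Computable.fst))
  have hq : Computable fun (x : (((List ℕ × ℕ) × ℕ) × (ℕ × Option ℕ)) × ℕ) =>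
      Nat.pair x.1.1.1.2 (Nat.pair x.1.2.1 x.2) :=
    Primrec₂.natPair.to_comp.comp ha hp
  have h3 : Computable₂ fun (x : ((List ℕ × ℕ) × ℕ) × (ℕ × Option ℕ)) (i : ℕ) =>
      r2 x.1.1.1 (Nat.pair x.1.1.2 (Nat.pair x.2.1 i)) :=
    h2.comp hs hq
  have h4 : Computable₂ fun (x : (List ℕ × ℕ) × ℕ) (z : ℕ × Option ℕ) =>
      z.2.bind fun i => r2 x.1.1 (Nat.pair x.1.2 (Nat.pair z.1 i)) :=
    Computable.option_bind (Computable.snd.comp Computable.snd) h3
  have h5 : Computable fun (x : (List ℕ × ℕ) × ℕ) => r1 x.1.1 x.1.2 :=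
    h1.comp (Computable.fst.comp Computable.fst) (Computable.snd.comp Computable.fst)
  exact Computable.nat_rec Computable.snd h5 h4

theorem OracleB_pr_comp {r1 r2 : List ℕ → ℕ → Option ℕ} (h1 : Computable₂ r1)
    (h2 : Computable₂ r2) : Computable₂ (OracleB_pr r1 r2) := by
  have hu : Computable fun x : List ℕ × ℕ => x.2.unpair :=
    Computable.unpair.comp Computable.snd
  have hu1 : Computable fun x : List ℕ × ℕ => x.2.unpair.1 := Computable.fst.comp hu
  have hu2 : Computable fun x : List ℕ × ℕ => x.2.unpair.2 := Computable.snd.comp hu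
  have hu3 : Computable fun x : List ℕ × ℕ => (x.1, x.2.unpair.1) :=
    Computable.fst.pair hu1
  exact (OracleB_pr0_comp h1 h2).comp hu3 hu2

theorem OracleB_pr_zero (r1 r2 : List ℕ → ℕ → Option ℕ) (σ : List ℕ) (a : ℕ) :
    OracleB_pr r1 r2 σ (Nat.pair a 0) = r1 σ a := by
  unfold OracleB_pr
  rw [Nat.unpair_pair]
  rfl

theorem OracleB_pr_succ (r1 r2 : List ℕ → ℕ → Option ℕ) (σ : List ℕ) (a n : ℕ) :
    OracleB_pr r1 r2 σ (Nat.pair a (n + 1)) =
      (OracleB_pr r1 r2 σ (Nat.pair a n)).bind fun i => r2 σ (Nat.pair a (Nat.pair n i)) := by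
  unfold OracleB_pr
  rw [Nat.unpair_pair, Nat.unpair_pair]
  rfl

/-- a property of approximations -/
def OracleB_ok (f : R) (h : ℕ → Part ℕ) (run : List ℕ → ℕ → Option ℕ) : Prop :=
  Computable₂ run ∧
      (∀ (σ τ : List ℕ) (n v : ℕ), σ <+: τ → run σ n = some v → run τ n = some v) ∧
      ∀ n v, v ∈ h n ↔ ∃ m, run (pref f m) n = some v

theorem OracleB_const (f : R) {g : ℕ → ℕ} (hg : Computable g) {h : ℕ → Part ℕ}
    (hh : ∀ n, h n = Part.some (g n)) :
    OracleB_ok f h (fun _ n => some (g n)) := by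
  refine ⟨Computable.option_some.comp (hg.comp Computable.snd), fun σ τ n v _ h => h, ?_⟩
  intro n v
  rw [hh n, Part.mem_some_iff]
  constructor
  · rintro rfl
    exact ⟨0, rfl⟩
  · rintro ⟨m, hm⟩
    exact (Option.some.inj hm).symm

theorem OracleB_oracle (f : R) : OracleB_ok f (fun n => Part.some (f n)) (fun σ n => σ[n]?) := by
  refine ⟨Computable.list_getElem?, ?_, ?_⟩
  · intro σ τ n v h1 h2
    change σ[n]? = some v at h2
    change τ[n]? = some v
    obtain ⟨ρ, rfl⟩ := h1
    have h3 : n < σ.length := by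
      by_contra h
      rw [List.getElem?_eq_none (not_lt.mp h)] at h2
      cases h2
    rw [List.getElem?_append_left h3]
    exact h2
  · intro n v
    change v ∈ Part.some (f n) ↔ ∃ m, (pref f m)[n]? = some v
    rw [Part.mem_some_iff]
    constructor
    · rintro rfl
      exact ⟨n + 1, by rw [OracleB_pref_get, if_pos (Nat.lt_succ_self n)]⟩
    · rintro ⟨m, hm⟩
      rw [OracleB_pref_get] at hm
      split at hm
      · exact (Option.some.inj hm).symm
      · cases hm

theorem OracleB_pair {f : R} {h1 h2 : ℕ → Part ℕ} {r1 r2 : List ℕ → ℕ → Option ℕ}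
    (o1 : OracleB_ok f h1 r1) (o2 : OracleB_ok f h2 r2) :
    OracleB_ok f (fun n => (Nat.pair <$> h1 n <*> h2 n))
      (fun σ n => (r1 σ n).bind fun a => (r2 σ n).bind fun b => some (Nat.pair a b)) := by
  obtain ⟨c1, m1, e1⟩ := o1
  obtain ⟨c2, m2, e2⟩ := o2
  refine ⟨?_, ?_, ?_⟩
  · have q1 : Computable₂ fun (x : (List ℕ × ℕ) × ℕ) (b : ℕ) => some (Nat.pair x.2 b) :=
      Computable.option_some.comp
        (Primrec₂.natPair.to_comp.comp (Computable.snd.comp Computable.fst) Computable.snd)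
    have q2 : Computable₂ fun (x : List ℕ × ℕ) (a : ℕ) =>
        (r2 x.1 x.2).bind fun b => some (Nat.pair a b) :=
      Computable.option_bind
        (c2.comp (Computable.fst.comp Computable.fst) (Computable.snd.comp Computable.fst)) q1
    exact Computable.option_bind c1 q2
  · intro σ τ n v h3 h4
    obtain ⟨a, ha, h5⟩ := Option.bind_eq_some_iff.mp h4
    obtain ⟨b, hb, h6⟩ := Option.bind_eq_some_iff.mp h5
    change (r1 τ n).bind _ = _
    rw [m1 σ τ n a h3 ha, m2 σ τ n b h3 hb]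
    exact h6
  · intro n v
    have key : v ∈ (Nat.pair <$> h1 n <*> h2 n) ↔ ∃ a ∈ h1 n, ∃ b ∈ h2 n, Nat.pair a b = v := by
      simp only [Seq.seq, Part.map_eq_map, Part.mem_bind_iff, Part.mem_map_iff]
      constructor
      · rintro ⟨g, ⟨a, ha, rfl⟩, b, hb, h5⟩
        exact ⟨a, ha, b, hb, h5⟩
      · rintro ⟨a, ha, b, hb, h5⟩
        exact ⟨_, ⟨a, ha, rfl⟩, b, hb, h5⟩
    change v ∈ (Nat.pair <$> h1 n <*> h2 n) ↔ _
    rw [key]
    constructor
    · rintro ⟨a, ha, b, hb, rfl⟩
      obtain ⟨k1, hk1⟩ := (e1 n a).mp ha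
      obtain ⟨k2, hk2⟩ := (e2 n b).mp hb
      refine ⟨max k1 k2, ?_⟩
      change (r1 _ n).bind _ = _
      rw [m1 _ _ n a (OracleB_pref_mono f (le_max_left k1 k2)) hk1,
        m2 _ _ n b (OracleB_pref_mono f (le_max_right k1 k2)) hk2]
      rfl
    · rintro ⟨m, hm⟩
      obtain ⟨a, ha, h5⟩ := Option.bind_eq_some_iff.mp hm
      obtain ⟨b, hb, h6⟩ := Option.bind_eq_some_iff.mp h5
      exact ⟨a, (e1 n a).mpr ⟨m, ha⟩, b, (e2 n b).mpr ⟨m, hb⟩, Option.some.inj h6⟩

theorem OracleB_comp {f : R} {h1 h2 : ℕ → Part ℕ} {r1 r2 : List ℕ → ℕ → Option ℕ}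
    (o1 : OracleB_ok f h1 r1) (o2 : OracleB_ok f h2 r2) :
    OracleB_ok f (fun n => h2 n >>= h1)
      (fun σ n => (r2 σ n).bind fun a => r1 σ a) := by
  obtain ⟨c1, m1, e1⟩ := o1
  obtain ⟨c2, m2, e2⟩ := o2
  refine ⟨?_, ?_, ?_⟩
  · have q2 : Computable₂ fun (x : List ℕ × ℕ) (a : ℕ) => r1 x.1 a :=
      c1.comp (Computable.fst.comp Computable.fst) Computable.snd
    exact Computable.option_bind c2 q2
  · intro σ τ n v h3 h4
    obtain ⟨a, ha, h5⟩ := Option.bind_eq_some_iff.mp h4
    change (r2 τ n).bind _ = _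
    rw [m2 σ τ n a h3 ha]
    exact m1 σ τ a v h3 h5
  · intro n v
    change v ∈ (h2 n).bind h1 ↔ _
    rw [Part.mem_bind_iff]
    constructor
    · rintro ⟨a, ha, hv⟩
      obtain ⟨k1, hk1⟩ := (e1 a v).mp hv
      obtain ⟨k2, hk2⟩ := (e2 n a).mp ha
      refine ⟨max k1 k2, ?_⟩
      change (r2 _ n).bind _ = _
      rw [m2 _ _ n a (OracleB_pref_mono f (le_max_right k1 k2)) hk2]
      exact m1 _ _ a v (OracleB_pref_mono f (le_max_left k1 k2)) hk1
    · rintro ⟨m, hm⟩
      obtain ⟨a, ha, h5⟩ := Option.bind_eq_some_iff.mp hm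
      exact ⟨a, (e2 n a).mpr ⟨m, ha⟩, (e1 a v).mpr ⟨m, h5⟩⟩

/-- primitive recursion on partial functions -/
def OracleB_prec (h1 h2 : ℕ → Part ℕ) : ℕ → Part ℕ := fun p =>
  let (a, n) := Nat.unpair p
  n.rec (h1 a) fun y IH => do
    let i ← IH
    h2 (Nat.pair a (Nat.pair y i))

theorem OracleB_prec_zero (h1 h2 : ℕ → Part ℕ) (a : ℕ) :
    OracleB_prec h1 h2 (Nat.pair a 0) = h1 a := by
  unfold OracleB_prec
  rw [Nat.unpair_pair]
  rfl

theorem OracleB_prec_succ (h1 h2 : ℕ → Part ℕ) (a n : ℕ) :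
    OracleB_prec h1 h2 (Nat.pair a (n + 1)) =
      (OracleB_prec h1 h2 (Nat.pair a n)).bind fun i => h2 (Nat.pair a (Nat.pair n i)) := by
  unfold OracleB_prec
  rw [Nat.unpair_pair, Nat.unpair_pair]
  rfl

theorem OracleB_prec_ok {f : R} {h1 h2 : ℕ → Part ℕ} {r1 r2 : List ℕ → ℕ → Option ℕ}
    (o1 : OracleB_ok f h1 r1) (o2 : OracleB_ok f h2 r2) :
    OracleB_ok f (OracleB_prec h1 h2) (OracleB_pr r1 r2) := by
  obtain ⟨c1, m1, e1⟩ := o1
  obtain ⟨c2, m2, e2⟩ := o2
  have mono : ∀ (σ τ : List ℕ) (a n v : ℕ), σ <+: τ → OracleB_pr r1 r2 σ (Nat.pair a n) = some v →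
      OracleB_pr r1 r2 τ (Nat.pair a n) = some v := by
    intro σ τ a n
    induction n with
    | zero =>
      intro v h3 h4
      rw [OracleB_pr_zero] at h4 ⊢
      exact m1 σ τ a v h3 h4
    | succ n ih =>
      intro v h3 h4
      rw [OracleB_pr_succ] at h4 ⊢
      obtain ⟨i, hi, h5⟩ := Option.bind_eq_some_iff.mp h4
      rw [ih i h3 hi]
      exact m2 σ τ _ v h3 h5
  have corr : ∀ a n v : ℕ, v ∈ OracleB_prec h1 h2 (Nat.pair a n) ↔
      ∃ m, OracleB_pr r1 r2 (pref f m) (Nat.pair a n) = some v := by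
    intro a n
    induction n with
    | zero =>
      intro v
      rw [OracleB_prec_zero, e1 a v]
      simp only [OracleB_pr_zero]
    | succ n ih =>
      intro v
      rw [OracleB_prec_succ, Part.mem_bind_iff]
      simp only [OracleB_pr_succ]
      constructor
      · rintro ⟨i, hi, hv⟩
        obtain ⟨k1, hk1⟩ := (ih i).mp hi
        obtain ⟨k2, hk2⟩ := (e2 _ v).mp hv
        refine ⟨max k1 k2, ?_⟩
        rw [mono _ _ a n i (OracleB_pref_mono f (le_max_left k1 k2)) hk1]
        exact m2 _ _ _ v (OracleB_pref_mono f (le_max_right k1 k2)) hk2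
      · rintro ⟨m, hm⟩
        obtain ⟨i, hi, h5⟩ := Option.bind_eq_some_iff.mp hm
        exact ⟨i, (ih i).mpr ⟨m, hi⟩, (e2 _ v).mpr ⟨m, h5⟩⟩
  refine ⟨OracleB_pr_comp c1 c2, ?_, ?_⟩
  · intro σ τ n v h3 h4
    rw [← Nat.pair_unpair n] at h4 ⊢
    exact mono σ τ _ _ v h3 h4
  · intro n v
    rw [← Nat.pair_unpair n]
    exact corr _ _ v

theorem OracleB_rfind {f : R} {h1 : ℕ → Part ℕ} {r1 : List ℕ → ℕ → Option ℕ}
    (o1 : OracleB_ok f h1 r1) :
    OracleB_ok f (fun a => Nat.rfind fun n => (fun m => m = 0) <$> h1 (Nat.pair a n))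
      (OracleB_rf r1) := by
  obtain ⟨c1, m1, e1⟩ := o1
  refine ⟨OracleB_rf_comp c1, ?_, ?_⟩
  · intro σ τ a n h3 h4
    rw [OracleB_rf_eq] at h4 ⊢
    obtain ⟨h5, h6, h7⟩ := h4
    refine ⟨lt_of_lt_of_le h5 h3.length_le, m1 σ τ _ _ h3 h6, ?_⟩
    intro j hj
    obtain ⟨v, hv⟩ := h7 j hj
    exact ⟨v, m1 σ τ _ _ h3 hv⟩
  · intro a n
    have key : (n ∈ Nat.rfind fun n => (fun m => decide (m = 0)) <$> h1 (Nat.pair a n)) ↔
        0 ∈ h1 (Nat.pair a n) ∧ ∀ j < n, ∃ v, v + 1 ∈ h1 (Nat.pair a j) := by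
      refine Iff.trans Nat.mem_rfind ?_
      have e3 : ∀ (j : ℕ) (w : Bool), (w ∈ (fun m => decide (m = 0)) <$> h1 (Nat.pair a j)) ↔
          ∃ b ∈ h1 (Nat.pair a j), decide (b = 0) = w := by
        intro j w
        rw [Part.map_eq_map, Part.mem_map_iff]
      constructor
      · rintro ⟨h2', h2⟩
        obtain ⟨b, hb, hb0⟩ := (e3 n true).mp h2'
        have hb1 : b = 0 := by simpa using hb0
        subst hb1
        refine ⟨hb, fun j hj => ?_⟩
        obtain ⟨c, hc, hc0⟩ := (e3 j false).mp (h2 hj)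
        have hc1 : c ≠ 0 := by simpa using hc0
        obtain ⟨v, rfl⟩ := Nat.exists_eq_succ_of_ne_zero hc1
        exact ⟨v, hc⟩
      · rintro ⟨h2, h3⟩
        refine ⟨(e3 n true).mpr ⟨0, h2, by simp⟩, fun {j} hj => (e3 j false).mpr ?_⟩
        obtain ⟨v, hv⟩ := h3 j hj
        exact ⟨v + 1, hv, by simp⟩
    have hrun : (∃ m, OracleB_rf r1 (pref f m) a = some n) ↔
        ∃ m, n < m ∧ r1 (pref f m) (Nat.pair a n) = some 0 ∧
          ∀ j < n, ∃ v, r1 (pref f m) (Nat.pair a j) = some (v + 1) := by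
      constructor
      · rintro ⟨m, hm⟩
        rw [OracleB_rf_eq] at hm
        refine ⟨m, ?_, hm.2⟩
        have := hm.1
        simpa [pref] using this
      · rintro ⟨m, hm⟩
        refine ⟨m, ?_⟩
        rw [OracleB_rf_eq]
        exact ⟨by simpa [pref] using hm.1, hm.2⟩
    refine Iff.trans (b := 0 ∈ h1 (Nat.pair a n) ∧ ∀ j < n, ∃ v, v + 1 ∈ h1 (Nat.pair a j)) key
      (Iff.trans ?_ hrun.symm)
    constructor
    · rintro ⟨h2, h3⟩
      obtain ⟨k, hk⟩ := (e1 _ _).mp h2
      have h4 : ∀ j : ℕ, j ≤ n → ∃ M, ∀ i < j, ∃ v, r1 (pref f M) (Nat.pair a i) = some (v + 1) := by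
        intro j
        induction j with
        | zero => exact fun _ => ⟨0, fun i hi => absurd hi (Nat.not_lt_zero i)⟩
        | succ j ih =>
          intro hj
          obtain ⟨M, hM⟩ := ih (Nat.le_of_succ_le hj)
          obtain ⟨v, hv⟩ := h3 j hj
          obtain ⟨k2, hk2⟩ := (e1 _ _).mp hv
          refine ⟨max M k2, fun i hi => ?_⟩
          rcases Nat.lt_succ_iff_lt_or_eq.mp hi with h6 | rfl
          · obtain ⟨w, hw⟩ := hM i h6
            exact ⟨w, m1 _ _ _ _ (OracleB_pref_mono f (le_max_left M k2)) hw⟩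
          · exact ⟨v, m1 _ _ _ _ (OracleB_pref_mono f (le_max_right M k2)) hk2⟩
      obtain ⟨M, hM⟩ := h4 n le_rfl
      refine ⟨max (n + 1) (max k M), ?_, ?_, ?_⟩
      · exact lt_of_lt_of_le (Nat.lt_succ_self n) (le_max_left _ _)
      · exact m1 _ _ _ _ (OracleB_pref_mono f
          (le_trans (le_max_left k M) (le_max_right (n + 1) _))) hk
      · intro j hj
        obtain ⟨v, hv⟩ := hM j hj
        exact ⟨v, m1 _ _ _ _ (OracleB_pref_mono f
          (le_trans (le_max_right k M) (le_max_right (n + 1) _))) hv⟩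
    · rintro ⟨m, _, h2, h3⟩
      refine ⟨(e1 _ _).mpr ⟨m, h2⟩, fun j hj => ?_⟩
      obtain ⟨v, hv⟩ := h3 j hj
      exact ⟨v, (e1 _ _).mpr ⟨m, hv⟩⟩

/-- partial functions recursive in `f` are given by computable monotone approximations -/
theorem exists_run {f : R} {h : ℕ →. ℕ}
    (hh : Nat.RecursiveIn {(fun n => Part.some (f n))} h) :
    ∃ run : List ℕ → ℕ → Option ℕ, Computable₂ run ∧
      (∀ (σ τ : List ℕ) (n v : ℕ), σ <+: τ → run σ n = some v → run τ n = some v) ∧
      ∀ n v, v ∈ h n ↔ ∃ m, run (pref f m) n = some v := by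
  induction hh with
  | zero => exact ⟨_, OracleB_const f (g := fun _ => 0) (Computable.const 0) fun n => rfl⟩
  | succ => exact ⟨_, OracleB_const f (g := Nat.succ) Computable.succ fun n => rfl⟩
  | left => exact ⟨_, OracleB_const f (g := fun n => n.unpair.1)
      (Computable.fst.comp Computable.unpair) fun n => rfl⟩
  | right => exact ⟨_, OracleB_const f (g := fun n => n.unpair.2)
      (Computable.snd.comp Computable.unpair) fun n => rfl⟩
  | oracle g hg =>
    have hg' : g = fun n => Part.some (f n) := hg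
    subst hg'
    exact ⟨_, OracleB_oracle f⟩
  | pair _ _ ih1 ih2 =>
    obtain ⟨r1, o1⟩ := ih1
    obtain ⟨r2, o2⟩ := ih2
    exact ⟨_, OracleB_pair o1 o2⟩
  | comp _ _ ih1 ih2 =>
    obtain ⟨r1, o1⟩ := ih1
    obtain ⟨r2, o2⟩ := ih2
    exact ⟨_, OracleB_comp o1 o2⟩
  | prec _ _ ih1 ih2 =>
    obtain ⟨r1, o1⟩ := ih1
    obtain ⟨r2, o2⟩ := ih2
    exact ⟨_, OracleB_prec_ok o1 o2⟩
  | rfind _ ih1 =>
    obtain ⟨r1, o1⟩ := ih1
    exact ⟨_, OracleB_rfind o1⟩

end Vale.Agent.P327
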