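import Vale.Agent.Lib.P327.Search
import Vale.Agent.Lib.P327.Top

/-!
# P327 / PermA: computable permutations

`cp_of_supp`: a function which is the identity from `n` on is computable (finite table).
`cp_letter`: the functions `vfun`, `vinv`, `swap 0 1` and their shifts are (primitive) recursive.
`countable_cp`: computable functions are countable.
-/

namespace Vale.Agent.P327

open Filter Topology Set

theorem cp_inv {u : G} (hu : CP u) : CP u⁻¹ := ⟨hu.2, hu.1⟩

theorem cp_mul {u v : G} (hu : CP u) (hv : CP v) : CP (u * v) :=
  ⟨hu.1.comp hv.1, hv.2.comp hu.2⟩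

theorem permA_table {n : ℕ} {f : ℕ → ℕ} (h : ∀ i, n ≤ i → f i = i) : Computable f := by
  have h1 : Primrec (fun i : ℕ => (((List.range n).map f)[i]?).getD i) :=
    Primrec.option_getD.comp (Primrec.list_getElem?.comp (Primrec.const _) Primrec.id) Primrec.id
  have h2 : f = fun i : ℕ => (((List.range n).map f)[i]?).getD i := by
    funext i
    by_cases hi : i < n
    · simp [hi]
    · have hi' : n ≤ i := not_lt.mp hi
      simp [hi, h i hi']
  rw [h2]
  exact h1.to_comp

theorem permA_supp_symm {n : ℕ} {w : G} (h : Supp n w) (i : ℕ) (hi : n ≤ i) : w.symm i = i := by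
  rw [Equiv.symm_apply_eq]
  exact (h i hi).symm

theorem cp_of_supp {n : ℕ} {w : G} (h : Supp n w) : CP w :=
  ⟨permA_table h, permA_table (permA_supp_symm h)⟩

theorem permA_shift_fun (n : ℕ) {f : ℕ → ℕ} (hf : Computable f) :
    Computable (fun i => if i < n then i else n + f (i - n)) := by
  have h1 : Computable (fun i : ℕ => decide (i < n)) := by
    have : PrimrecPred (fun i : ℕ => i < n) := Primrec.nat_lt.comp Primrec.id (Primrec.const n)
    exact this.decide.to_comp
  have h2 : Computable (fun i : ℕ => n + f (i - n)) :=
    (Primrec.nat_add.comp (Primrec.const n) Primrec.id).to_comp.comp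
      (hf.comp (Primrec.nat_sub.comp Primrec.id (Primrec.const n)).to_comp)
  have h3 := Computable.cond h1 Computable.id h2
  refine h3.of_eq fun i => ?_
  by_cases hi : i < n <;> simp [hi]

theorem permA_shift (n : ℕ) {u : G} (hu : CP u) : CP (shiftPerm n u) :=
  ⟨permA_shift_fun n hu.1, permA_shift_fun n hu.2⟩

theorem permA_vfun : Computable vfun := by
  have h : Primrec vfun := by
    unfold vfun
    refine Primrec.ite ?_ (Primrec.const 0) (Primrec.ite ?_ (Primrec.const 2)
      (Primrec.ite ?_ ?_ ?_))
    · exact Primrec.eq.comp Primrec.id (Primrec.const 0)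
    · exact Primrec.eq.comp Primrec.id (Primrec.const 1)
    · exact Primrec.eq.comp (Primrec.nat_mod.comp Primrec.id (Primrec.const 2)) (Primrec.const 0)
    · exact Primrec.nat_add.comp Primrec.id (Primrec.const 2)
    · exact Primrec.nat_sub.comp Primrec.id (Primrec.const 2)
  exact h.to_comp

theorem permA_vinv : Computable vinv := by
  have h : Primrec vinv := by
    unfold vinv
    refine Primrec.ite ?_ (Primrec.const 0) (Primrec.ite ?_ (Primrec.const 1)
      (Primrec.ite ?_ ?_ ?_))
    · exact Primrec.eq.comp Primrec.id (Primrec.const 0)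
    · exact Primrec.eq.comp Primrec.id (Primrec.const 2)
    · exact Primrec.eq.comp (Primrec.nat_mod.comp Primrec.id (Primrec.const 2)) (Primrec.const 0)
    · exact Primrec.nat_sub.comp Primrec.id (Primrec.const 2)
    · exact Primrec.nat_add.comp Primrec.id (Primrec.const 2)
  exact h.to_comp

theorem permA_swap : CP (Equiv.swap 0 1 : G) := by
  refine cp_of_supp (n := 2) ?_
  intro i hi
  exact Equiv.swap_apply_of_ne_of_ne (by omega) (by omega)

theorem cp_letter (n c : ℕ) : CP (letter n c) := by
  unfold letter
  have hv : CP vperm := ⟨permA_vfun, permA_vinv⟩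
  split_ifs
  · exact permA_shift n permA_swap
  · exact permA_shift n hv
  · exact cp_inv (permA_shift n hv)

theorem letter_fix (n c i : ℕ) (hi : i < n) : letter n c i = i := by
  have h : ∀ u : G, shiftPerm n u i = i := by
    intro u
    change (if i < n then i else n + u (i - n)) = i
    rw [if_pos hi]
  unfold letter
  split_ifs
  · exact h _
  · exact h _
  · rw [Equiv.Perm.inv_eq_iff_eq]
    exact (h _).symm

/-- there are countably many computable permutations -/
theorem countable_cp : {u : G | CP u}.Countable := by
  rw [← Set.countable_coe_iff]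
  have hc : ∀ u : {u : G | CP u}, ∃ c : Nat.Partrec.Code,
      Nat.Partrec.Code.eval c = ((fun n => ((u : G) n : ℕ)) : ℕ → ℕ) := by
    intro u
    have h : Computable (fun n => ((u : G) n : ℕ)) := u.2.1
    exact Nat.Partrec.Code.exists_code.mp (Partrec.nat_iff.mp h)
  choose φ hφ using hc
  refine Function.Injective.countable (f := φ) ?_
  intro u v huv
  have h1 := hφ u
  rw [huv, hφ v] at h1
  apply Subtype.ext
  apply Equiv.ext
  intro n
  have h2 := congrFun h1 n
  simp only [PFun.coe_val] at h2
  exact (Part.some_injective h2).symm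

end Vale.Agent.P327
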