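import Vale.Agent.Lib.P327.Defs

/-!
# P327 / Pref: initial segments

`T (pref f m)` is increasing in `m` (for `<+:`), because `pref f m <+: pref f m'` for `m ≤ m'`.
If `Red φ f g` then every `T (pref f m)` is an initial segment of `g`:
compare it with `pref g l`, `l = (T (pref f m)).length`, inside a longer `T (pref f m')`.
-/

namespace Vale.Agent.P327

open Filter Topology Set

theorem pref_length (f : R) (l : ℕ) : (pref f l).length = l := by
  simp [pref]

theorem pref_getElem (f : R) (l n : ℕ) (h : n < l) : (pref f l)[n]? = some (f n) := by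
  unfold pref
  rw [List.getElem?_map, List.getElem?_range h, Option.map_some]

theorem pref_mono (f : R) {l m : ℕ} (h : l ≤ m) : pref f l <+: pref f m := by
  obtain ⟨k, rfl⟩ := Nat.exists_eq_add_of_le h
  refine ⟨((List.range k).map (fun i => l + i)).map f, ?_⟩
  unfold pref
  rw [← List.map_append, List.range_add]

theorem pref_eq_iff (f g : R) (l : ℕ) : pref f l = pref g l ↔ ∀ i < l, f i = g i := by
  unfold pref
  rw [List.map_inj_left]
  simp only [List.mem_range]

/-- an initial segment of `pref f l` is some `pref f m` -/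
theorem eq_pref_of_prefix (f : R) (l : ℕ) (σ : List ℕ) (h : σ <+: pref f l) :
    σ = pref f σ.length := by
  have h1 : σ = (pref f l).take σ.length := List.prefix_iff_eq_take.mp h
  have h2 : σ.length ≤ l := by
    have := h.length_le
    rwa [pref_length] at this
  have h3 : (pref f l).take σ.length = pref f σ.length := by
    unfold pref
    rw [← List.map_take, List.take_range, min_eq_left h2]
  exact h1.trans h3

theorem pref_comparable (φ : Tr) (f : R) (m m' : ℕ) :
    φ.T (pref f m) <+: φ.T (pref f (max m m')) ∧ φ.T (pref f m') <+: φ.T (pref f (max m m')) :=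
  ⟨φ.mono _ _ (pref_mono f (le_max_left _ _)), φ.mono _ _ (pref_mono f (le_max_right _ _))⟩

theorem pref_getElem_eq {σ τ : List ℕ} (h : σ <+: τ) {n v : ℕ} (hv : σ[n]? = some v) :
    τ[n]? = some v := by
  obtain ⟨ρ, rfl⟩ := h
  have hn : n < σ.length := by
    by_contra hno
    rw [List.getElem?_eq_none (not_lt.mp hno)] at hv
    exact absurd hv (by simp)
  rw [List.getElem?_append_left hn, hv]

theorem Red.out_prefix {φ : Tr} {f g : R} (h : Red φ f g) (m : ℕ) :
    φ.T (pref f m) = pref g (φ.T (pref f m)).length := by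
  obtain ⟨m', hm'⟩ := h (φ.T (pref f m)).length
  obtain ⟨h1, h2⟩ := pref_comparable φ f m m'
  have h3 := hm'.trans h2
  have h4 : φ.T (pref f m) <+: pref g (φ.T (pref f m)).length :=
    List.prefix_of_prefix_length_le h1 h3 (by rw [pref_length])
  exact h4.eq_of_length (by rw [pref_length])

theorem Red.unique {φ : Tr} {f g g' : R} (h : Red φ f g) (h' : Red φ f g') : g = g' := by
  funext n
  obtain ⟨m, hm⟩ := h (n + 1)
  rw [h'.out_prefix m] at hm
  have h1 := eq_pref_of_prefix g' _ _ hm
  rw [pref_length] at h1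
  exact (pref_eq_iff g g' (n + 1)).mp h1 n (Nat.lt_succ_self n)

theorem Red.tot {φ : Tr} {f g : R} (h : Red φ f g) : Tot φ f := by
  intro l
  obtain ⟨m, hm⟩ := h l
  refine ⟨m, ?_⟩
  have := hm.length_le
  rwa [pref_length] at this

theorem pref_val_spec {φ : Tr} {f : R} {n m v : ℕ} (h : (φ.T (pref f m))[n]? = some v) :
    val φ f n = v := by
  classical
  have hex : ∃ v, ∃ m, (φ.T (pref f m))[n]? = some v := ⟨v, m, h⟩
  have h1 : val φ f n = hex.choose := by
    unfold val
    exact dif_pos hex
  obtain ⟨m', hm'⟩ := hex.choose_spec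
  obtain ⟨c1, c2⟩ := pref_comparable φ f m m'
  have e1 := pref_getElem_eq c1 h
  have e2 := pref_getElem_eq c2 hm'
  rw [e1] at e2
  rw [h1]
  exact (Option.some.inj e2).symm

theorem Red.val_eq {φ : Tr} {f g : R} (h : Red φ f g) : val φ f = g := by
  funext n
  obtain ⟨m, hm⟩ := h (n + 1)
  exact pref_val_spec (pref_getElem_eq hm (pref_getElem g (n + 1) n (Nat.lt_succ_self n)))

theorem Tot.red {φ : Tr} {f : R} (h : Tot φ f) : Red φ f (val φ f) := by
  intro l
  obtain ⟨m, hm⟩ := h l
  refine ⟨m, ?_⟩
  rw [List.prefix_iff_eq_take, pref_length]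
  apply List.ext_getElem?
  intro n
  by_cases hn : n < l
  · have hn' : n < (φ.T (pref f m)).length := lt_of_lt_of_le hn hm
    have e1 : (φ.T (pref f m))[n]? = some ((φ.T (pref f m))[n]) := List.getElem?_eq_getElem hn'
    rw [pref_getElem _ _ _ hn, List.getElem?_take_of_lt hn, e1, pref_val_spec e1]
  · rw [List.getElem?_eq_none (by rw [pref_length]; exact not_lt.mp hn),
      List.getElem?_eq_none (by rw [List.length_take]; omega)]

/-- large initial segments of the oracle give large initial segments of the value -/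
theorem Red.eventually {φ : Tr} {f g : R} (h : Red φ f g) (l : ℕ) :
    ∃ m₀, ∀ m ≥ m₀, pref g l <+: φ.T (pref f m) := by
  obtain ⟨m₀, hm₀⟩ := h l
  exact ⟨m₀, fun m hm => hm₀.trans (φ.mono _ _ (pref_mono f hm))⟩

end Vale.Agent.P327
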