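import Vale.Agent.Lib.P327.Step4C

/-!
# P327 / Step4: end of Step 4

`O := Cyl ws n ×ˢ Cyl wt n` from `step4_box`. For all `u, v` in the countable set `K = {u | CP u ∧ ∀ i < n, u i = i}`
(`countable_cp`): by `ku'` (with `P p := p ∈ box → E4 ..`, second coordinate `q = (s, t)`) and `eventually_homeo` for
`(s, t) ↦ (u * s, t * v)` (which maps `O` to `O`): `∀ᶠ q, q ∈ O → ∀ᶠ X, X ∈ Cyl wX n → E4 C φ φs e e' X (u * q.1) (q.2 * v)`;
similarly the goodness of `u * q.1`, `q.2 * v` (`eventually_fst`, `eventually_snd`). `eventually_countable_ball`. For such `q = (s1, t1)` put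
`z = join (π.f (r s1)) (π.f (r t1))`; `hz`: `uF C φ (u * s1) ≡ π.f (r (u * s1)) ≡ π.f (r s1) ≤ z` (`teq_mul_left`, `Auto.teq`).
`step4_decode` gives `O'`, and `glob` with `S Y := TLE (r Y) (join (π.f (r Y)) z)` (invariant by `teq_mul_right`).
-/

namespace Vale.Agent.P327

open Filter Topology Set

/-- Step 4 -/
theorem step4 (π : Auto) (C : R) (hC : Bd π C) :
    ∃ O : Set (G × G), IsOpen O ∧ O.Nonempty ∧ ∀ᶠ p in residual (G × G), p ∈ O →
      ∀ᶠ Y in residual G,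
        TLE (r Y) (join (π.f (r Y)) (join (π.f (r p.1)) (π.f (r p.2)))) := by
  obtain ⟨φ, φs, e, e', wX, ws, wt, n, hX, hs, ht, hgs, hgt, hgZ, hE⟩ := step4_box π C hC
  refine ⟨Cyl ws n ×ˢ Cyl wt n, (isOpen_cyl _ _).prod (isOpen_cyl _ _),
    ⟨(ws, wt), self_mem_cyl _ _, self_mem_cyl _ _⟩, ?_⟩
  set K : Set G := {u : G | CP u ∧ ∀ i < n, u i = i} with hK
  have hKc : K.Countable := countable_cp.mono fun u hu => hu.1
  -- the identities
  have hE1 : ∀ᶠ q in residual (G × G), ∀ᶠ X in residual G,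
      (X, q) ∈ Cyl wX n ×ˢ (Cyl ws n ×ˢ Cyl wt n) → E4 C φ φs e e' X q.1 q.2 := ku' hE
  have hE2 : ∀ᶠ q in residual (G × G), ∀ u ∈ K, ∀ v ∈ K, ∀ᶠ X in residual G,
      (X, (u * q.1, q.2 * v)) ∈ Cyl wX n ×ˢ (Cyl ws n ×ˢ Cyl wt n) →
        E4 C φ φs e e' X (u * q.1) (q.2 * v) := by
    refine (eventually_countable_ball hKc).2 fun u _ => (eventually_countable_ball hKc).2
      fun v _ => ?_
    exact eventually_homeo ((Homeomorph.mulLeft u).prodCongr (Homeomorph.mulRight v)) hE1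
  -- goodness
  have hs2 : ∀ᶠ q in residual (G × G), ∀ u ∈ K, u * q.1 ∈ Cyl ws n →
      uT C φ (u * q.1) ∧ TEq (uF C φ (u * q.1)) (π.f (r (u * q.1))) := by
    refine (eventually_countable_ball hKc).2 fun u _ => ?_
    have h1 := eventually_homeo (Homeomorph.mulLeft u) hgs
    exact eventually_fst (Y := G) h1
  have ht2 : ∀ᶠ q in residual (G × G), ∀ v ∈ K, q.2 * v ∈ Cyl wt n →
      uT C φ (q.2 * v) ∧ TEq (uF C φ (q.2 * v)) (π.f (r (q.2 * v))) := by
    refine (eventually_countable_ball hKc).2 fun v _ => ?_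
    have h1 := eventually_homeo (Homeomorph.mulRight v) hgt
    exact eventually_snd (X := G) h1
  filter_upwards [hE2, hs2, ht2] with q hqE hqs hqt hq
  have hL : ∀ u ∈ K, u * q.1 ∈ Cyl ws n := by
    intro u hu i hi
    have h1 : q.1 i = ws i := hq.1 i hi
    rw [Equiv.Perm.mul_apply, h1]
    exact hu.2 _ (hs.lt hi)
  have hR : ∀ v ∈ K, q.2 * v ∈ Cyl wt n := by
    intro v hv i hi
    have h1 : q.2 i = wt i := hq.2 i hi
    rw [Equiv.Perm.mul_apply, hv.2 i hi, h1]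
  set z : R := join (π.f (r q.1)) (π.f (r q.2)) with hz
  obtain ⟨O', hO', hne', h'⟩ := step4_decode π C hC φ φs e e' wX ws wt q.1 q.2 n hX hs ht
    hq.1 hq.2 z (by
      intro u v hu hv hun hvn
      have h1 := hqs u ⟨hu, hun⟩ (hL u ⟨hu, hun⟩)
      have h2 := hqt v ⟨hv, hvn⟩ (hR v ⟨hv, hvn⟩)
      refine ⟨?_, ?_⟩
      · exact h1.2.1.trans ((π.mono (teq_mul_left q.1 hu).1).trans (tle_join_left _ _))
      · exact h2.2.1.trans ((π.mono (teq_mul_right q.2 hv).1).trans (tle_join_right _ _)))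
    (by
      intro u v hu hv hun hvn
      filter_upwards [hqE u ⟨hu, hun⟩ v ⟨hv, hvn⟩] with X hXE hXc
      exact hXE ⟨hXc, hL u ⟨hu, hun⟩, hR v ⟨hv, hvn⟩⟩) hgZ
  refine glob (S := fun Y => TLE (r Y) (join (π.f (r Y)) z)) ?_ hO' hne' h'
  intro Y u hu hS
  have h1 := teq_mul_right Y hu
  exact h1.2.trans (hS.trans (join_mono (π.mono h1.1) (TLE.refl _)))

end Vale.Agent.P327
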