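import Vale.Agent.Lib.P327.Uniq3

/-!
# P327 / Step4A: the box of Step 4

Proof of `step4_box`. `step3` with `V = univ`: `(U, φ)`. Choose `s0, t0 ∈ U` (e.g. `s0 = t0`); `Vs := {Z | s0⁻¹ * Z * t0⁻¹ ∈ U}` is open and
nonempty. `step3` with `V = Vs`: `(Us, φs)`. `W0 := {p : G × (G × G) | p.1 ∈ U ∧ p.2.1 ∈ U ∧ p.2.2 ∈ U ∧ p.2.1 * p.1 * p.2.2 ∈ Us}` is open
(`cont_mul3`) and nonempty (`Z ∈ Us`, `p = (s0⁻¹ * Z * t0⁻¹, s0, t0)`). For comeager many `p ∈ W0` (`eventually_fst`, `eventually_snd`, `eventually_mul3`)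
`uF C φ` is good at `p.1, p.2.1, p.2.2` and `uF C φs` is good at `Z = p.2.1 * p.1 * p.2.2`, so by `Auto.join3`, `tle_mul3`, `tle_mul3_inv`
`uF C φs Z ≤ uF C φ s + (uF C φ t + uF C φ X)` and `uF C φ X ≤ uF C φ s + (uF C φ t + uF C φs Z)`; by `tle_iff` there are `e, e'` with `E4`.
`open_freq`, `pigeon` (over `Tr × Tr`), `bp_in` (`measSet_red`, `meas_join`, `meas_uF`, `meas_mul3`): one pair `(e, e')` works comeagerly in an open nonempty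
`W1 ⊆ W0`. `exists_box`. Every `Z ∈ Cyl (ws * wX * wt) n` is in `Us`: `Z = ws * X * wt` with `X = ws⁻¹ * Z * wt⁻¹ ∈ Cyl wX n` (use `Supp.lt` for the
permutations and their inverses), and the box is inside `W0`.
-/

namespace Vale.Agent.P327

open Filter Topology Set

/-- the two formal identities of Step 4 -/
def E4 (C : R) (φ φs e e' : Tr) (X s t : G) : Prop :=
  Red e (join (uF C φ s) (join (uF C φ t) (uF C φ X))) (uF C φs (s * X * t)) ∧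
  Red e' (join (uF C φ s) (join (uF C φ t) (uF C φs (s * X * t)))) (uF C φ X)

theorem step4a_supp_inv {n : ℕ} {w : G} (h : Supp n w) : Supp n w⁻¹ := by
  intro i hi
  rw [Equiv.Perm.inv_eq_iff_eq]
  exact (h i hi).symm

theorem step4a_cyl {n : ℕ} {ws wX wt Z : G} (hwt : Supp n wt)
    (hZ : Z ∈ Cyl (ws * wX * wt) n) : ws⁻¹ * Z * wt⁻¹ ∈ Cyl wX n := by
  intro i hi
  have h1 : wt⁻¹ i < n := (step4a_supp_inv hwt).lt hi
  have h2 := hZ _ h1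
  simp only [Equiv.Perm.mul_apply] at h2 ⊢
  rw [h2]
  have h3 : wt (wt⁻¹ i) = i := wt.apply_symm_apply i
  rw [h3]
  exact ws.symm_apply_apply (wX i)

theorem step4a_meas (C : R) (φ φs e e' : Tr) :
    MeasurableSet {p : G × (G × G) | E4 C φ φs e e' p.1 p.2.1 p.2.2} := by
  have hs : Measurable (fun p : G × (G × G) => uF C φ p.2.1) :=
    (meas_uF C φ).comp (measurable_fst.comp measurable_snd)
  have ht : Measurable (fun p : G × (G × G) => uF C φ p.2.2) :=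
    (meas_uF C φ).comp (measurable_snd.comp measurable_snd)
  have hX : Measurable (fun p : G × (G × G) => uF C φ p.1) :=
    (meas_uF C φ).comp measurable_fst
  have hZ : Measurable (fun p : G × (G × G) => uF C φs (p.2.1 * p.1 * p.2.2)) :=
    (meas_uF C φs).comp meas_mul3
  exact (measSet_red e (meas_join hs (meas_join ht hX)) hZ).inter
    (measSet_red e' (meas_join hs (meas_join ht hZ)) hX)

theorem step4_box (π : Auto) (C : R) (hC : Bd π C) :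
    ∃ (φ φs e e' : Tr) (wX ws wt : G) (n : ℕ), Supp n wX ∧ Supp n ws ∧ Supp n wt ∧
      (∀ᶠ X in residual G, X ∈ Cyl ws n → uT C φ X ∧ TEq (uF C φ X) (π.f (r X))) ∧
      (∀ᶠ X in residual G, X ∈ Cyl wt n → uT C φ X ∧ TEq (uF C φ X) (π.f (r X))) ∧
      (∀ᶠ Z in residual G, Z ∈ Cyl (ws * wX * wt) n →
        uT C φs Z ∧ TEq (uF C φs Z) (π.f (r Z))) ∧
      (∀ᶠ p in residual (G × (G × G)), p ∈ Cyl wX n ×ˢ (Cyl ws n ×ˢ Cyl wt n) →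
        E4 C φ φs e e' p.1 p.2.1 p.2.2) := by
  obtain ⟨U, φ, hU, ⟨s0, hs0⟩, -, hUφ⟩ := step3 π C hC univ isOpen_univ univ_nonempty
  have hVs : IsOpen {Z : G | s0⁻¹ * Z * s0⁻¹ ∈ U} := by
    have hc : Continuous (fun Z : G => s0⁻¹ * Z * s0⁻¹) := by fun_prop
    exact hU.preimage hc
  have hVne : {Z : G | s0⁻¹ * Z * s0⁻¹ ∈ U}.Nonempty := by
    refine ⟨s0 * s0 * s0, ?_⟩
    have h1 : s0⁻¹ * (s0 * s0 * s0) * s0⁻¹ = s0 := by group
    show s0⁻¹ * (s0 * s0 * s0) * s0⁻¹ ∈ U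
    rw [h1]
    exact hs0
  obtain ⟨Us, φs, hUs, ⟨Z0, hZ0⟩, hUsV, hUsφ⟩ := step3 π C hC _ hVs hVne
  have hW0 : IsOpen {p : G × (G × G) | p.1 ∈ U ∧ p.2.1 ∈ U ∧ p.2.2 ∈ U ∧
      p.2.1 * p.1 * p.2.2 ∈ Us} := by
    refine (hU.preimage continuous_fst).inter ((hU.preimage (continuous_fst.comp
      continuous_snd)).inter ((hU.preimage (continuous_snd.comp continuous_snd)).inter
        (hUs.preimage cont_mul3)))
  have hWne : {p : G × (G × G) | p.1 ∈ U ∧ p.2.1 ∈ U ∧ p.2.2 ∈ U ∧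
      p.2.1 * p.1 * p.2.2 ∈ Us}.Nonempty := by
    refine ⟨(s0⁻¹ * Z0 * s0⁻¹, s0, s0), hUsV hZ0, hs0, hs0, ?_⟩
    have h1 : s0 * (s0⁻¹ * Z0 * s0⁻¹) * s0 = Z0 := by group
    show s0 * (s0⁻¹ * Z0 * s0⁻¹) * s0 ∈ Us
    rw [h1]
    exact hZ0
  have hall : ∀ᶠ p in residual (G × (G × G)),
      p ∈ {p : G × (G × G) | p.1 ∈ U ∧ p.2.1 ∈ U ∧ p.2.2 ∈ U ∧ p.2.1 * p.1 * p.2.2 ∈ Us} →
        ∃ i : Tr × Tr, E4 C φ φs i.1 i.2 p.1 p.2.1 p.2.2 := by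
    filter_upwards [eventually_fst (Y := G × G) hUφ,
      eventually_snd (X := G) (eventually_fst (Y := G) hUφ),
      eventually_snd (X := G) (eventually_snd (X := G) hUφ), eventually_mul3 hUsφ]
      with p h1 h2 h3 h4
    rintro ⟨p1, p2, p3, p4⟩
    obtain ⟨-, hX⟩ := h1 p1
    obtain ⟨-, hs⟩ := h2 p2
    obtain ⟨-, ht⟩ := h3 p3
    obtain ⟨-, hZ⟩ := h4 p4
    have e1 : TLE (uF C φs (p.2.1 * p.1 * p.2.2))
        (join (uF C φ p.2.1) (join (uF C φ p.2.2) (uF C φ p.1))) :=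
      (hZ.1.trans (Auto.join3 π (tle_mul3 p.2.1 p.1 p.2.2))).trans (join3_mono hs.2 ht.2 hX.2)
    have e2 : TLE (uF C φ p.1)
        (join (uF C φ p.2.1) (join (uF C φ p.2.2) (uF C φs (p.2.1 * p.1 * p.2.2)))) :=
      (hX.1.trans (Auto.join3 π (tle_mul3_inv p.2.1 p.1 p.2.2))).trans
        (join3_mono hs.2 ht.2 hZ.2)
    obtain ⟨e, he⟩ := tle_iff.1 e1
    obtain ⟨e', he'⟩ := tle_iff.1 e2
    exact ⟨(e, e'), he, he'⟩
  obtain ⟨⟨e, e'⟩, hee⟩ := pigeon (P := fun (i : Tr × Tr) (p : G × (G × G)) =>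
      p ∈ {p : G × (G × G) | p.1 ∈ U ∧ p.2.1 ∈ U ∧ p.2.2 ∈ U ∧ p.2.1 * p.1 * p.2.2 ∈ Us} ∧
        E4 C φ φs i.1 i.2 p.1 p.2.1 p.2.2)
    (((open_freq hW0 hWne).and_eventually hall).mono fun p hp => by
      obtain ⟨i, hi⟩ := hp.2 hp.1
      exact ⟨i, hp.1, hi⟩)
  obtain ⟨W1, hW1, hW1ne, hW1s, hW1E⟩ := bp_in (step4a_meas C φ φs e e') hW0 hee
  obtain ⟨lX, ls, lt, n, hX, hs, ht, hbox⟩ := exists_box hW1 hW1ne
  have hsub := hbox n le_rfl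
  refine ⟨φ, φs, e, e', fpn 0 lX, fpn 0 ls, fpn 0 lt, n, hX, hs, ht, ?_, ?_, ?_, ?_⟩
  · filter_upwards [hUφ] with X h1 h2
    apply h1
    have h3 : ((fpn 0 lX, X, fpn 0 lt) : G × (G × G)) ∈ W1 :=
      hsub ⟨self_mem_cyl _ _, h2, self_mem_cyl _ _⟩
    exact (hW1s h3).2.1
  · filter_upwards [hUφ] with X h1 h2
    apply h1
    have h3 : ((fpn 0 lX, fpn 0 ls, X) : G × (G × G)) ∈ W1 :=
      hsub ⟨self_mem_cyl _ _, self_mem_cyl _ _, h2⟩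
    exact (hW1s h3).2.2.1
  · filter_upwards [hUsφ] with Z h1 h2
    apply h1
    have h3 : (((fpn 0 ls)⁻¹ * Z * (fpn 0 lt)⁻¹, fpn 0 ls, fpn 0 lt) : G × (G × G)) ∈ W1 :=
      hsub ⟨step4a_cyl ht h2, self_mem_cyl _ _, self_mem_cyl _ _⟩
    have h4 := (hW1s h3).2.2.2
    have h5 : fpn 0 ls * ((fpn 0 ls)⁻¹ * Z * (fpn 0 lt)⁻¹) * fpn 0 lt = Z := by group
    change fpn 0 ls * ((fpn 0 ls)⁻¹ * Z * (fpn 0 lt)⁻¹) * fpn 0 lt ∈ Us at h4
    rw [h5] at h4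
    exact h4
  · filter_upwards [hW1E] with p h1 h2
    exact h1 (hsub h2)

end Vale.Agent.P327
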