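import Vale.Agent.Lib.P327.Uniq

/-!
# P327 / Step4B: from local to global; functionals with parameters

`glob`: `Cyl w n ⊆ O` for some `w = fpn 0 l0`, `Supp n w` (`cyl_basis`). For every list `l` (countably many: `eventually_countable_forall`)
`∀ᶠ Y, Y * fpn 0 l ∈ O → S (Y * fpn 0 l)` (`eventually_homeo` for `Y ↦ Y * fpn 0 l`, `Homeomorph.mulRight`). `fpn 0 l` is computable
(`supp_fpn`, `cp_of_supp`). For `Y` in all these sets pick `l` by `fpn_dense 0 n (Y⁻¹ * w)`: then `Y * fpn 0 l ∈ Cyl w n`.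
`tr_param`: `TLE p0 z` gives a functional (`tle_iff`); combine with `red_fst`, `red_snd`, `red_join`, `red_comp`.
-/

namespace Vale.Agent.P327

open Filter Topology Set

/-- from local to global -/
theorem glob {S : G → Prop} (hS : ∀ Y u : G, CP u → S (Y * u) → S Y) {O : Set G} (hO : IsOpen O)
    (hne : O.Nonempty) (h : ∀ᶠ Y in residual G, Y ∈ O → S Y) : ∀ᶠ Y in residual G, S Y := by
  obtain ⟨l0, n, -, hcyl⟩ := cyl_basis hO hne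
  have h1 : ∀ l : List (ℕ × ℕ), ∀ᶠ Y in residual G, Y * fpn 0 l ∈ O → S (Y * fpn 0 l) := fun l =>
    eventually_homeo (Homeomorph.mulRight (fpn 0 l)) h
  filter_upwards [eventually_countable_forall.2 h1] with Y hY
  obtain ⟨l, hl⟩ := fpn_dense 0 n (Y⁻¹ * fpn 0 l0) (fun i hi => absurd hi (Nat.not_lt_zero i))
  obtain ⟨m, hm⟩ := supp_fpn l
  refine hS Y (fpn 0 l) (cp_of_supp hm) (hY l (hcyl n le_rfl ?_))
  intro i hi
  rw [Equiv.Perm.mul_apply, hl i hi, Equiv.Perm.mul_apply]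
  exact Y.apply_symm_apply _

theorem tr_param (e : Tr) {p0 p1 z : R} (h0 : TLE p0 z) (h1 : TLE p1 z) :
    ∃ κ : Tr, ∀ x h, Red e (join p0 (join p1 x)) h → Red κ (join x z) h := by
  obtain ⟨φ0, hφ0⟩ := tle_iff.1 h0
  obtain ⟨φ1, hφ1⟩ := tle_iff.1 h1
  obtain ⟨s1, hs1⟩ := red_fst
  obtain ⟨s2, hs2⟩ := red_snd
  obtain ⟨κ0, hκ0⟩ := red_comp s2 φ0
  obtain ⟨κ1, hκ1⟩ := red_comp s2 φ1
  obtain ⟨κ2, hκ2⟩ := red_join κ1 s1
  obtain ⟨κ3, hκ3⟩ := red_join κ0 κ2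
  obtain ⟨κ, hκ⟩ := red_comp κ3 e
  refine ⟨κ, fun x h hx => hκ _ _ _ (hκ3 _ _ _ (hκ0 _ _ _ (hs2 x z) hφ0)
    (hκ2 _ _ _ (hκ1 _ _ _ (hs2 x z) hφ1) (hs1 x z))) hx⟩

theorem tr_param2 (e' e : Tr) {p0 p1 p2 p3 z : R} (h0 : TLE p0 z) (h1 : TLE p1 z)
    (h2 : TLE p2 z) (h3 : TLE p3 z) :
    ∃ κ : Tr, ∀ x y h, Red e' (join p0 (join p1 x)) y → Red e (join p2 (join p3 y)) h →
      Red κ (join x z) h := by
  obtain ⟨κa, hκa⟩ := tr_param e' h0 h1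
  obtain ⟨κb, hκb⟩ := tr_param e h2 h3
  obtain ⟨s2, hs2⟩ := red_snd
  obtain ⟨κc, hκc⟩ := red_join κa s2
  obtain ⟨κ, hκ⟩ := red_comp κc κb
  exact ⟨κ, fun x y h hy hh => hκ _ _ _ (hκc _ _ _ (hκa _ _ hy) (hs2 x z)) (hκb _ _ hh)⟩

end Vale.Agent.P327
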