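import Vale.Agent.Lib.P327.Step4A
import Vale.Agent.Lib.P327.Step4B
import Vale.Agent.Lib.P327.DecodeE

/-!
# P327 / Step4C: decoding with fixed `s1, t1`

Notation: `w = ws * wX * wt`, `F = uF C φs`. Every `Y ∈ Cyl w n` satisfies `r Y ≤ join (F Y) C` for comeager many `Y`
(`hF`, `hC.2 (π.f (r Y))` and `π.gf`). `open_freq`, `pigeon`, `bp_in`: there are `g : Tr` and an open nonempty `U2 ⊆ Cyl w n` with
`∀ᶠ Y, Y ∈ U2 → Red g (join (F Y) C) (r Y)`. `cyl_basis` and `supp_mono`: `Cyl w2 n2 ⊆ U2`, `Supp n2 w2`, `n ≤ n2`.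
Let `K2 = {u : G | CP u ∧ ∀ i < n2, u i = i}`: countable (`countable_cp`), closed under products, contains `1` and `letter n2 c`.
`good Y` := `uT C φs Y ∧ TEq (F Y) (π.f (r Y)) ∧ Red g (join (F Y) C) (r Y) ∧ ∀ u ∈ K2, ∀ v ∈ K2, E4 C φ φs e e' (s1⁻¹ * Y * t1⁻¹) (u * s1) (t1 * v)`.
`𝒢 := {Y | Y ∈ Cyl w2 n2 ∧ ∀ a ∈ K2, ∀ b ∈ K2, good (a * Y * b)}`. It is comeager in `Cyl w2 n2` (`eventually_countable_ball`, `eventually_homeo`;
`a * Y * b ∈ Cyl w2 n2` if `Y` is; `s1⁻¹ * Y * t1⁻¹ ∈ Cyl wX n` if `Y ∈ Cyl w n`), and `Y * letter n2 c ∈ 𝒢`, `letter n2 c * Y ∈ 𝒢` for `Y ∈ 𝒢`.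
Functionals for `c < 3` (`tr_param2`, with `E4` at `(s1, t1)` for `e'` and at `(s1, t1 * letter n2 c)`, resp. `(letter n2 c * s1, t1)`, for `e`;
`s1 * (s1⁻¹ * Y * t1⁻¹) * (t1 * c) = Y * c`, `(c * s1) * (s1⁻¹ * Y * t1⁻¹) * t1 = c * Y`): `κR c`, `κL c`.
`Zs ∈ 𝒢` with `Zs n2 = n2`: the set `Cyl w2 n2 ∩ {Z | Z n2 = n2}` is open (`isOpen_eval`) and contains `w2`.
`fin_sound` for `Red g (join (F Zs) C) (r Zs)` at `n2` gives `l`, `r0 = pref (F Zs) l`; `fin_cont` gives `l'`. `decodeE` (with `H = F`).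
Finally `F Y ≤ π.f (r Y)`.
-/

namespace Vale.Agent.P327

open Filter Topology Set

/-- computable permutations fixing all `i < n` -/
def Step4C_K (n : ℕ) : Set G := {u : G | CP u ∧ ∀ i < n, u i = i}

theorem Step4C_K_countable (n : ℕ) : (Step4C_K n).Countable :=
  countable_cp.mono fun _ hu => hu.1

theorem Step4C_K_one (n : ℕ) : (1 : G) ∈ Step4C_K n :=
  ⟨cp_of_supp (n := 0) fun _ _ => rfl, fun _ _ => rfl⟩

theorem Step4C_K_mul {n : ℕ} {u v : G} (hu : u ∈ Step4C_K n) (hv : v ∈ Step4C_K n) :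
    u * v ∈ Step4C_K n := by
  refine ⟨cp_mul hu.1 hv.1, fun i hi => ?_⟩
  rw [Equiv.Perm.mul_apply, hv.2 i hi, hu.2 i hi]

theorem Step4C_K_letter (n c : ℕ) : letter n c ∈ Step4C_K n :=
  ⟨cp_letter n c, fun i hi => letter_fix n c i hi⟩

theorem Step4C_K_mono {n m : ℕ} (h : n ≤ m) {u : G} (hu : u ∈ Step4C_K m) : u ∈ Step4C_K n :=
  ⟨hu.1, fun i hi => hu.2 i (lt_of_lt_of_le hi h)⟩

/-- the two sided translates stay in the cylinder -/
theorem Step4C_cyl {n : ℕ} {w a Y b : G} (hw : Supp n w) (ha : a ∈ Step4C_K n)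
    (hY : Y ∈ Cyl w n) (hb : b ∈ Step4C_K n) : a * Y * b ∈ Cyl w n := by
  intro i hi
  simp only [Equiv.Perm.mul_apply]
  rw [hb.2 i hi, hY i hi, ha.2 _ (hw.lt hi)]

/-- two sided translation as a homeomorphism -/
def Step4C_trans (a b : G) : G ≃ₜ G where
  toFun := fun Y => a * Y * b
  invFun := fun Y => a⁻¹ * Y * b⁻¹
  left_inv := fun Y => by group
  right_inv := fun Y => by group
  continuous_toFun := by fun_prop
  continuous_invFun := by fun_prop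

theorem Step4C_ev {P : G → Prop} (h : ∀ᶠ Y in residual G, P Y) (a b : G) :
    ∀ᶠ Y in residual G, P (a * Y * b) :=
  eventually_homeo (Step4C_trans a b) h

/-- the middle factor is in its cylinder -/
theorem Step4C_mid {n : ℕ} {ws wX wt s1 t1 Y : G} (hX : Supp n wX) (ht : Supp n wt)
    (hs1 : s1 ∈ Cyl ws n) (ht1 : t1 ∈ Cyl wt n) (hY : Y ∈ Cyl (ws * wX * wt) n) :
    s1⁻¹ * Y * t1⁻¹ ∈ Cyl wX n := by
  intro i hi
  -- `t1⁻¹ i = wt⁻¹ i`
  have h1 : wt.symm i < n := by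
    by_contra hc
    have h2 := ht _ (not_lt.1 hc)
    rw [Equiv.apply_symm_apply] at h2
    rw [← h2] at hc
    exact hc hi
  have h2 : t1⁻¹ i = wt.symm i := by
    rw [Equiv.Perm.inv_eq_iff_eq, ht1 _ h1, Equiv.apply_symm_apply]
  have h3 : Y (wt.symm i) = ws (wX i) := by
    rw [hY _ h1]
    simp only [Equiv.Perm.mul_apply, Equiv.apply_symm_apply]
  have h4 : s1 (wX i) = ws (wX i) := hs1 _ (hX.lt hi)
  simp only [Equiv.Perm.mul_apply]
  rw [h2, h3, Equiv.Perm.inv_eq_iff_eq, h4]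

/-- local inversion of the automorphism by a single functional with parameter `C` -/
theorem Step4C_local (π : Auto) (C : R) (hC : Bd π C) (φs : Tr) (w : G) (n : ℕ)
    (hF : ∀ᶠ Z in residual G, Z ∈ Cyl w n → uT C φs Z ∧ TEq (uF C φs Z) (π.f (r Z))) :
    ∃ (g : Tr) (l2 : List (ℕ × ℕ)) (n2 : ℕ), n ≤ n2 ∧ Supp n2 (fpn 0 l2) ∧
      Cyl (fpn 0 l2) n2 ⊆ Cyl w n ∧
      ∀ᶠ Y in residual G, Y ∈ Cyl (fpn 0 l2) n2 → Red g (join (uF C φs Y) C) (r Y) := by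
  have hA : ∀ᶠ Y in residual G, Y ∈ Cyl w n → ∃ g : Tr, Red g (join (uF C φs Y) C) (r Y) := by
    filter_upwards [hF] with Y hY hYc
    obtain ⟨-, h2⟩ := hY hYc
    have h3 : TLE (r Y) (join (uF C φs Y) C) :=
      ((π.gf (r Y)).2.trans (hC.2 (π.f (r Y)))).trans (join_mono h2.2 (TLE.refl _))
    exact tle_iff.mp h3
  have hB : ∃ᶠ Y in residual G, ∃ g : Tr, Y ∈ Cyl w n ∧ Red g (join (uF C φs Y) C) (r Y) := by
    refine ((open_freq (isOpen_cyl w n) ⟨w, self_mem_cyl w n⟩).and_eventually hA).mono ?_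
    rintro Y ⟨h1, h2⟩
    obtain ⟨g, hg⟩ := h2 h1
    exact ⟨g, h1, hg⟩
  obtain ⟨g, hg⟩ := pigeon hB
  have hmeas : MeasurableSet {Y : G | Red g (join (uF C φs Y) C) (r Y)} :=
    measSet_red g (meas_join (meas_uF C φs) measurable_const) measurable_r
  obtain ⟨U, hU, hUne, hUsub, hUev⟩ := bp_in hmeas (isOpen_cyl w n) hg
  obtain ⟨l2, n₀, hsupp, hcyl⟩ := cyl_basis hU hUne
  refine ⟨g, l2, max n n₀, le_max_left _ _, supp_mono hsupp (le_max_right _ _),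
    (hcyl _ (le_max_right _ _)).trans hUsub, ?_⟩
  filter_upwards [hUev] with Y hY hYc
  exact hY (hcyl _ (le_max_right _ _) hYc)

theorem step4_decode (π : Auto) (C : R) (hC : Bd π C) (φ φs e e' : Tr) (wX ws wt s1 t1 : G) (n : ℕ)
    (hX : Supp n wX) (hs : Supp n ws) (ht : Supp n wt) (hs1 : s1 ∈ Cyl ws n) (ht1 : t1 ∈ Cyl wt n)
    (z : R)
    (hz : ∀ u v : G, CP u → CP v → (∀ i < n, u i = i) → (∀ i < n, v i = i) →
      TLE (uF C φ (u * s1)) z ∧ TLE (uF C φ (t1 * v)) z)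
    (hE : ∀ u v : G, CP u → CP v → (∀ i < n, u i = i) → (∀ i < n, v i = i) →
      ∀ᶠ X in residual G, X ∈ Cyl wX n → E4 C φ φs e e' X (u * s1) (t1 * v))
    (hF : ∀ᶠ Z in residual G, Z ∈ Cyl (ws * wX * wt) n →
        uT C φs Z ∧ TEq (uF C φs Z) (π.f (r Z))) :
    ∃ O : Set G, IsOpen O ∧ O.Nonempty ∧
      ∀ᶠ Y in residual G, Y ∈ O → TLE (r Y) (join (π.f (r Y)) z) := by
  obtain ⟨g, l2, n2, hn2, hw2, hsub, hg⟩ := Step4C_local π C hC φs (ws * wX * wt) n hF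
  set w2 : G := fpn 0 l2 with hw2def
  -- the good points
  let good : G → Prop := fun Y => uT C φs Y ∧ TEq (uF C φs Y) (π.f (r Y)) ∧
    Red g (join (uF C φs Y) C) (r Y) ∧
    ∀ u ∈ Step4C_K n2, ∀ v ∈ Step4C_K n2,
      E4 C φ φs e e' (s1⁻¹ * Y * t1⁻¹) (u * s1) (t1 * v)
  have hgood : ∀ᶠ Y in residual G, Y ∈ Cyl w2 n2 → good Y := by
    have h1 : ∀ᶠ Y in residual G, ∀ u ∈ Step4C_K n2, ∀ v ∈ Step4C_K n2,
        s1⁻¹ * Y * t1⁻¹ ∈ Cyl wX n → E4 C φ φs e e' (s1⁻¹ * Y * t1⁻¹) (u * s1) (t1 * v) := by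
      refine (eventually_countable_ball (Step4C_K_countable n2)).2 fun u hu => ?_
      refine (eventually_countable_ball (Step4C_K_countable n2)).2 fun v hv => ?_
      have hu' := Step4C_K_mono hn2 hu
      have hv' := Step4C_K_mono hn2 hv
      exact Step4C_ev (hE u v hu'.1 hv'.1 hu'.2 hv'.2) s1⁻¹ t1⁻¹
    filter_upwards [hF, hg, h1] with Y hY1 hY2 hY3 hYc
    have h2 := hY1 (hsub hYc)
    refine ⟨h2.1, h2.2, hY2 hYc, fun u hu v hv => ?_⟩
    exact hY3 u hu v hv (Step4C_mid hX ht hs1 ht1 (hsub hYc))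
  let 𝒢 : Set G := {Y | Y ∈ Cyl w2 n2 ∧ ∀ a ∈ Step4C_K n2, ∀ b ∈ Step4C_K n2, good (a * Y * b)}
  have h𝒢 : ∀ᶠ Y in residual G, Y ∈ Cyl w2 n2 → Y ∈ 𝒢 := by
    have h1 : ∀ᶠ Y in residual G, ∀ a ∈ Step4C_K n2, ∀ b ∈ Step4C_K n2,
        a * Y * b ∈ Cyl w2 n2 → good (a * Y * b) := by
      refine (eventually_countable_ball (Step4C_K_countable n2)).2 fun a ha => ?_
      refine (eventually_countable_ball (Step4C_K_countable n2)).2 fun b hb => ?_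
      exact Step4C_ev hgood a b
    filter_upwards [h1] with Y hY hYc
    exact ⟨hYc, fun a ha b hb => hY a ha b hb (Step4C_cyl hw2 ha hYc hb)⟩
  have hself : ∀ Y ∈ 𝒢, good Y := by
    intro Y hY
    have h1 := hY.2 1 (Step4C_K_one n2) 1 (Step4C_K_one n2)
    rwa [one_mul, mul_one] at h1
  have hRmem : ∀ Y ∈ 𝒢, ∀ c, Y * letter n2 c ∈ 𝒢 := by
    intro Y hY c
    refine ⟨?_, fun a ha b hb => ?_⟩
    · have h1 := Step4C_cyl hw2 (Step4C_K_one n2) hY.1 (Step4C_K_letter n2 c)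
      rwa [one_mul] at h1
    · have h1 := hY.2 a ha (letter n2 c * b) (Step4C_K_mul (Step4C_K_letter n2 c) hb)
      have h2 : a * (Y * letter n2 c) * b = a * Y * (letter n2 c * b) := by group
      rw [h2]
      exact h1
  have hLmem : ∀ Y ∈ 𝒢, ∀ c, letter n2 c * Y ∈ 𝒢 := by
    intro Y hY c
    refine ⟨?_, fun a ha b hb => ?_⟩
    · have h1 := Step4C_cyl hw2 (Step4C_K_letter n2 c) hY.1 (Step4C_K_one n2)
      rwa [mul_one] at h1
    · have h1 := hY.2 (a * letter n2 c) (Step4C_K_mul ha (Step4C_K_letter n2 c)) b hb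
      have h2 : a * (letter n2 c * Y) * b = a * letter n2 c * Y * b := by group
      rw [h2]
      exact h1
  -- parameters
  have hz1 : TLE (uF C φ s1) z ∧ TLE (uF C φ t1) z := by
    have h1 := hz 1 1 (Step4C_K_one n).1 (Step4C_K_one n).1 (fun _ _ => rfl) (fun _ _ => rfl)
    rwa [one_mul, mul_one] at h1
  have hzc : ∀ c, TLE (uF C φ (letter n2 c * s1)) z ∧ TLE (uF C φ (t1 * letter n2 c)) z := by
    intro c
    have h1 := Step4C_K_mono hn2 (Step4C_K_letter n2 c)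
    exact hz _ _ h1.1 h1.1 h1.2 h1.2
  have hκR : ∀ c : ℕ, ∃ κ : Tr, ∀ x y h, Red e' (join (uF C φ s1) (join (uF C φ t1) x)) y →
      Red e (join (uF C φ s1) (join (uF C φ (t1 * letter n2 c)) y)) h → Red κ (join x z) h :=
    fun c => tr_param2 e' e hz1.1 hz1.2 hz1.1 (hzc c).2
  have hκL : ∀ c : ℕ, ∃ κ : Tr, ∀ x y h, Red e' (join (uF C φ s1) (join (uF C φ t1) x)) y →
      Red e (join (uF C φ (letter n2 c * s1)) (join (uF C φ t1) y)) h → Red κ (join x z) h :=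
    fun c => tr_param2 e' e hz1.1 hz1.2 (hzc c).1 hz1.2
  choose κR hκR using hκR
  choose κL hκL using hκL
  have hbase : ∀ Y ∈ 𝒢, Red e' (join (uF C φ s1) (join (uF C φ t1) (uF C φs Y)))
      (uF C φ (s1⁻¹ * Y * t1⁻¹)) := by
    intro Y hY
    have h1 := ((hself Y hY).2.2.2 1 (Step4C_K_one n2) 1 (Step4C_K_one n2)).2
    rw [one_mul, mul_one] at h1
    have h2 : s1 * (s1⁻¹ * Y * t1⁻¹) * t1 = Y := by group
    rwa [h2] at h1
  -- the special point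
  obtain ⟨Zs, ⟨hZc, hZn⟩, hZG⟩ := ((open_freq ((isOpen_cyl w2 n2).inter (isOpen_eval n2 n2))
    ⟨w2, self_mem_cyl w2 n2, hw2 n2 le_rfl⟩).and_eventually h𝒢).exists
  have hZs : Zs ∈ 𝒢 := hZG hZc
  have hZn' : Zs n2 = n2 := hZn
  obtain ⟨hZT, -, hZR, -⟩ := hself Zs hZs
  obtain ⟨l, hl⟩ := fin_sound (n := n2) hZR
  obtain ⟨l', hl'⟩ := fin_cont hZT l
  refine ⟨Cyl w2 n2, isOpen_cyl _ _, ⟨w2, self_mem_cyl _ _⟩, ?_⟩
  filter_upwards [h𝒢] with Y hYG hYc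
  have hY : Y ∈ 𝒢 := hYG hYc
  have hdec : TLE (r Y) (join (uF C φs Y) z) := by
    refine decodeE n2 l' w2 Zs hw2 hZc hZn' (uF C φs) z κR κL 𝒢 (pref (uF C φs Zs) l)
      (fun Y hY => hY.1) (fun Y hY c _ => hRmem Y hY c) (fun Y hY c _ => hLmem Y hY c)
      ?_ ?_ ?_ ?_ Y hY
    · intro Y hY c _
      refine hκR c _ _ _ (hbase Y hY) ?_
      have h1 := ((hself Y hY).2.2.2 1 (Step4C_K_one n2) _ (Step4C_K_letter n2 c)).1
      rw [one_mul] at h1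
      have h2 : s1 * (s1⁻¹ * Y * t1⁻¹) * (t1 * letter n2 c) = Y * letter n2 c := by group
      rwa [h2] at h1
    · intro Y hY c _
      refine hκL c _ _ _ (hbase Y hY) ?_
      have h1 := ((hself Y hY).2.2.2 _ (Step4C_K_letter n2 c) 1 (Step4C_K_one n2)).1
      rw [mul_one] at h1
      have h2 : letter n2 c * s1 * (s1⁻¹ * Y * t1⁻¹) * t1 = letter n2 c * Y := by group
      rwa [h2] at h1
    · intro Y hY hpr
      rw [pref_length] at hpr
      have h1 := hl _ _ (hself Y hY).2.2.1 hpr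
      change r Y n2 = n2
      rw [h1]
      exact hZn'
    · intro Y hY hpi
      rw [pref_length]
      exact hl' Y (hself Y hY).1 hpi
  exact hdec.trans (join_mono (hself Y hY).2.1.1 (TLE.refl _))

end Vale.Agent.P327
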