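import Vale.Agent.Lib.P327.Step4

/-!
# P327 / Step5

`step4 π C hC`: `O`, `∀ᶠ p, p ∈ O → ∀ᶠ Y, r Y ≤ π.f (r Y) + (π.f (r p.1) + π.f (r p.2))`. Apply `π.g` (`Auto.join3g`, `π.gf`):
`∀ᶠ p, p ∈ O → ∀ᶠ Y, π.g (r Y) ≤ r Y + (r p.1 + r p.2)`.
`step3 π.symm C (hC.symm) univ`: `U`, `φ` with `∀ᶠ X, X ∈ U → uT C φ X ∧ TEq (uF C φ X) (π.g (r X))`.
So `∀ᶠ p, p ∈ O → ∀ᶠ Y, Y ∈ U → TLE (uF C φ Y) (join (r Y) (join (r p.1) (r p.2)))`: a Borel relation of `(p, Y)`
(`measSet_tle`, `meas_uF`, `meas_join`, `measurable_r`), so `ku_conv` and `ku'` give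
`∀ᶠ Y, ∀ᶠ p, p ∈ O → Y ∈ U → TLE (uF C φ Y) (join (r Y) (join (r p.1) (r p.2)))`. Fix such `Y ∈ U` (good for `φ`). `O` contains a box
`O1 ×ˢ O2` of open nonempty sets; by `ku`: `∀ᶠ s, ∀ᶠ t, s ∈ O1 → t ∈ O2 → ..`, so for comeager many `s ∈ O1`: `open_freq` and `tle_of_freq` (with
`A = join (r Y) (r s)`) give `uF C φ Y ≤ r Y + r s`, and again `tle_of_freq` gives `uF C φ Y ≤ r Y`. So `∀ᶠ Y, Y ∈ U → TLE (π.g (r Y)) (r Y)`.
`glob` (Step4B) with `S Y := TLE (π.g (r Y)) (r Y)`, invariant by `teq_mul_right` and `Auto.teqg`.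
-/

namespace Vale.Agent.P327

open Filter Topology Set

theorem Bd.symm {π : Auto} {C : R} (h : Bd π C) : Bd π.symm C := ⟨h.2, h.1⟩

private theorem step5_assoc {a b c : R} :
    TLE (join a (join b c)) (join (join a b) c) :=
  join_tle ((tle_join_left _ _).trans (tle_join_left _ _))
    (join_mono (tle_join_right _ _) (TLE.refl _))

/-- Step 5 -/
theorem step5 (π : Auto) (C : R) (hC : Bd π C) :
    ∀ᶠ Y in residual G, TLE (π.g (r Y)) (r Y) := by
  obtain ⟨O, hO, hOne, h4⟩ := step4 π C hC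
  obtain ⟨U, φ, hU, hUne, -, h3⟩ := step3 π.symm C hC.symm univ isOpen_univ univ_nonempty
  have h5 : ∀ᶠ p in residual (G × G), p ∈ O → ∀ᶠ Y in residual G, Y ∈ U →
      TLE (uF C φ Y) (join (r Y) (join (r p.1) (r p.2))) := by
    filter_upwards [h4] with p hp hpO
    filter_upwards [hp hpO, h3] with Y hY hY3 hYU
    refine (hY3 hYU).2.1.trans ?_
    exact (Auto.join3g π hY).trans (join3_mono (π.gf _).1 (π.gf _).1 (π.gf _).1)
  have hm : MeasurableSet {x : (G × G) × G |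
      TLE (uF C φ x.2) (join (r x.2) (join (r x.1.1) (r x.1.2)))} := by
    refine measSet_tle ((meas_uF C φ).comp measurable_snd) ?_
    refine meas_join (measurable_r.comp measurable_snd) ?_
    exact meas_join (measurable_r.comp (measurable_fst.comp measurable_fst))
      (measurable_r.comp (measurable_snd.comp measurable_fst))
  have hB : BaireSpace ((G × G) × G) := inferInstance
  have h6 := ku' (ku_conv (X := G × G) (Y := G) hm hO hU h5)
  have h7 : ∀ᶠ Y in residual G, Y ∈ U → TLE (π.g (r Y)) (r Y) := by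
    filter_upwards [h6, h3] with Y hY hY3 hYU
    have hW : TLE (uF C φ Y) (r Y) := by
      obtain ⟨p, hp⟩ := hOne
      obtain ⟨O1, O2, hO1, hp1, hO2, hp2, hsub⟩ := mem_nhds_prod_iff'.mp (hO.mem_nhds hp)
      have hk := ku hY
      apply tle_of_freq
      refine ((open_freq hO1 ⟨_, hp1⟩).and_eventually hk).mono ?_
      rintro s ⟨hs, hs2⟩
      apply tle_of_freq
      refine ((open_freq hO2 ⟨_, hp2⟩).and_eventually hs2).mono ?_
      rintro t ⟨ht, ht2⟩
      exact TLE.trans (ht2 (hsub ⟨hs, ht⟩) hYU) step5_assoc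
    exact (hY3 hYU).2.2.trans hW
  refine glob (S := fun Y => TLE (π.g (r Y)) (r Y)) ?_ hU hUne h7
  intro Y u hu hS
  have h8 := teq_mul_right Y hu
  exact ((Auto.teqg π h8).2.trans hS).trans h8.1

end Vale.Agent.P327
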