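import Vale.Agent.Lib.P327.Bound
import Vale.Agent.Lib.P327.DecodeD

/-!
# P327 / Uniq: Steps 2 and 3, an automorphism is locally given by one functional
-/

namespace Vale.Agent.P327

open Filter Topology Set

/-- the formal function attached to a functional `φ` with parameter `C` -/
noncomputable def uF (C : R) (φ : Tr) (g : G) : R := val φ (join (r g) C)

/-- totality -/
def uT (C : R) (φ : Tr) (g : G) : Prop := Tot φ (join (r g) C)

/-- the colour class -/
def uA (π : Auto) (C : R) (φ : Tr) (g : G) : Prop := Red φ (join (r g) C) (π.f (r g))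

/-- everywhere nonmeager in `U` -/
def EN (N : G → Prop) (U : Set G) : Prop :=
  ∀ V : Set G, IsOpen V → V.Nonempty → V ⊆ U → ∃ᶠ g in residual G, g ∈ V ∧ N g

/-- `C` bounds the automorphism and its inverse -/
def Bd (π : Auto) (C : R) : Prop := (∀ a, TLE (π.f a) (join a C)) ∧ ∀ a, TLE (π.g a) (join a C)

theorem uT.red {C : R} {φ : Tr} {g : G} (h : uT C φ g) : Red φ (join (r g) C) (uF C φ g) :=
  Tot.red h

theorem uA.tot {π : Auto} {C : R} {φ : Tr} {g : G} (h : uA π C φ g) : uT C φ g := Red.tot h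

theorem uA.eq {π : Auto} {C : R} {φ : Tr} {g : G} (h : uA π C φ g) : uF C φ g = π.f (r g) :=
  Red.val_eq h

/-! ### degree lemmas -/

theorem TEq.symm {a b : R} (h : TEq a b) : TEq b a := ⟨h.2, h.1⟩

theorem TEq.trans {a b c : R} (h : TEq a b) (h' : TEq b c) : TEq a c :=
  ⟨h.1.trans h'.1, h'.2.trans h.2⟩

theorem join_mono {a a' b b' : R} (h : TLE a a') (h' : TLE b b') :
    TLE (join a b) (join a' b') :=
  join_tle (h.trans (tle_join_left _ _)) (h'.trans (tle_join_right _ _))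

theorem join3_mono {a a' b b' c c' : R} (h : TLE a a') (h' : TLE b b') (h'' : TLE c c') :
    TLE (join a (join b c)) (join a' (join b' c')) :=
  join_mono h (join_mono h' h'')

theorem Auto.mono (π : Auto) {a b : R} (h : TLE a b) : TLE (π.f a) (π.f b) := (π.hf a b).mp h

theorem Auto.monog (π : Auto) {a b : R} (h : TLE a b) : TLE (π.g a) (π.g b) := (π.hg a b).mp h

theorem Auto.teq (π : Auto) {a b : R} (h : TEq a b) : TEq (π.f a) (π.f b) :=
  ⟨π.mono h.1, π.mono h.2⟩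

theorem Auto.teqg (π : Auto) {a b : R} (h : TEq a b) : TEq (π.g a) (π.g b) :=
  ⟨π.monog h.1, π.monog h.2⟩

theorem Auto.join2 (π : Auto) {a b c : R} (h : TLE a (join b c)) :
    TLE (π.f a) (join (π.f b) (π.f c)) :=
  (π.mono h).trans (auto_join π _ _).1

theorem Auto.join3 (π : Auto) {a b c d : R} (h : TLE a (join b (join c d))) :
    TLE (π.f a) (join (π.f b) (join (π.f c) (π.f d))) :=
  (π.join2 h).trans (join_mono (TLE.refl _) (auto_join π _ _).1)

theorem Auto.join3g (π : Auto) {a b c d : R} (h : TLE a (join b (join c d))) :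
    TLE (π.g a) (join (π.g b) (join (π.g c) (π.g d))) :=
  Auto.join3 π.symm h

theorem tle_mul3 (s X t : G) : TLE (r (s * X * t)) (join (r s) (join (r t) (r X))) := by
  refine (tle_mul (s * X) t).trans (join_tle ((tle_mul s X).trans (join_tle ?_ ?_)) ?_)
  · exact tle_join_left _ _
  · exact (tle_join_right _ _).trans (tle_join_right _ _)
  · exact (tle_join_left _ _).trans (tle_join_right _ _)

/-- `X = s⁻¹ (s X t) t⁻¹` -/
theorem tle_mul3_inv (s X t : G) : TLE (r X) (join (r s) (join (r t) (r (s * X * t)))) := by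
  have h := tle_mul3 s⁻¹ (s * X * t) t⁻¹
  have h1 : s⁻¹ * (s * X * t) * t⁻¹ = X := by group
  rw [h1] at h
  exact h.trans (join3_mono (tle_inv s) (tle_inv t) (TLE.refl _))

/-! ### measurability -/

theorem measSet_red {Ω : Type*} [MeasurableSpace Ω] (φ : Tr) {f g : Ω → R} (hf : Measurable f)
    (hg : Measurable g) : MeasurableSet {x | Red φ (f x) (g x)} :=
  (hf.prodMk hg) (measurableSet_red φ)

theorem measSet_tle {Ω : Type*} [MeasurableSpace Ω] {f g : Ω → R} (hf : Measurable f)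
    (hg : Measurable g) : MeasurableSet {x | TLE (f x) (g x)} :=
  (hf.prodMk hg) measurableSet_tle

theorem meas_join {Ω : Type*} [MeasurableSpace Ω] {f g : Ω → R} (hf : Measurable f)
    (hg : Measurable g) : Measurable (fun x => join (f x) (g x)) :=
  measurable_join.comp (hf.prodMk hg)

theorem meas_uF (C : R) (φ : Tr) : Measurable (uF C φ) :=
  (measurable_val φ).comp (meas_join measurable_r measurable_const)

theorem measSet_uT (C : R) (φ : Tr) : MeasurableSet {g | uT C φ g} :=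
  (meas_join measurable_r measurable_const) (measurableSet_tot φ)

theorem cont_mul3 : Continuous (fun p : G × (G × G) => p.2.1 * p.1 * p.2.2) := by fun_prop

theorem meas_mul3 : Measurable (fun p : G × (G × G) => p.2.1 * p.1 * p.2.2) :=
  cont_mul3.measurable

/-- a comeager property of `s * X * t` -/
theorem eventually_mul3 {P : G → Prop} (h : ∀ᶠ Z in residual G, P Z) :
    ∀ᶠ p in residual (G × (G × G)), P (p.2.1 * p.1 * p.2.2) := by
  let e : (G × (G × G)) ≃ₜ (G × (G × G)) :=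
    { toFun := fun p => (p.2.1 * p.1 * p.2.2, p.2)
      invFun := fun p => (p.2.1⁻¹ * p.1 * p.2.2⁻¹, p.2)
      left_inv := fun p => by
        refine Prod.ext ?_ rfl
        change p.2.1⁻¹ * (p.2.1 * p.1 * p.2.2) * p.2.2⁻¹ = p.1
        group
      right_inv := fun p => by
        refine Prod.ext ?_ rfl
        change p.2.1 * (p.2.1⁻¹ * p.1 * p.2.2⁻¹) * p.2.2 = p.1
        group
      continuous_toFun := by fun_prop
      continuous_invFun := by fun_prop }
  exact eventually_homeo e (eventually_fst (Y := G × G) h)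

/-! ### boxes of cylinders -/

theorem mul3_cyl {n : ℕ} {ws wX wt s X t : G} (hwX : Supp n wX) (hwt : Supp n wt)
    (hs : s ∈ Cyl ws n) (hX : X ∈ Cyl wX n) (ht : t ∈ Cyl wt n) :
    s * X * t ∈ Cyl (ws * wX * wt) n := by
  intro i hi
  have h1 := ht i hi
  have h2 := hwt.lt hi
  have h3 := hX _ h2
  have h4 := hwX.lt h2
  have h5 := hs _ h4
  simp only [Equiv.Perm.mul_apply]
  rw [h1, h3, h5]

/-- every nonempty open subset of `G × (G × G)` contains a box of cylinders of the same length -/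
theorem exists_box {W : Set (G × (G × G))} (hW : IsOpen W) (hne : W.Nonempty) :
    ∃ (lX ls lt : List (ℕ × ℕ)) (n : ℕ), Supp n (fpn 0 lX) ∧ Supp n (fpn 0 ls) ∧
      Supp n (fpn 0 lt) ∧
      ∀ m ≥ n, Cyl (fpn 0 lX) m ×ˢ (Cyl (fpn 0 ls) m ×ˢ Cyl (fpn 0 lt) m) ⊆ W := by
  obtain ⟨p, hp⟩ := hne
  obtain ⟨u, v, hu, hpu, hv, hpv, huv⟩ := mem_nhds_prod_iff'.mp (hW.mem_nhds hp)
  obtain ⟨u2, v2, hu2, hpu2, hv2, hpv2, huv2⟩ := mem_nhds_prod_iff'.mp (hv.mem_nhds hpv)
  obtain ⟨lX, nX, h1, h2⟩ := cyl_basis hu ⟨_, hpu⟩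
  obtain ⟨ls, ns, h3, h4⟩ := cyl_basis hu2 ⟨_, hpu2⟩
  obtain ⟨lt, nt, h5, h6⟩ := cyl_basis hv2 ⟨_, hpv2⟩
  refine ⟨lX, ls, lt, max nX (max ns nt), supp_mono h1 (by omega), supp_mono h3 (by omega),
    supp_mono h5 (by omega), fun m hm => ?_⟩
  rintro ⟨X, s, t⟩ ⟨hX, hs, ht⟩
  exact huv ⟨h2 m (by omega) hX, huv2 ⟨h4 m (by omega) hs, h6 m (by omega) ht⟩⟩

theorem self_mem_cyl (w : G) (n : ℕ) : w ∈ Cyl w n := fun _ _ => rfl

theorem prefix_pref_getElem {f g : R} {l m : ℕ} (h : pref f l <+: pref g m) {i : ℕ} (hi : i < l) :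
    f i = g i := by
  have h1 := eq_pref_of_prefix g m _ h
  rw [pref_length] at h1
  exact (pref_eq_iff f g l).mp h1 i hi

/-- finite information, soundness -/
theorem fin_sound {e : Tr} {C f g : R} {n : ℕ} (h : Red e (join f C) g) :
    ∃ l, ∀ f' g', Red e (join f' C) g' → pref f' l = pref f l → g' n = g n := by
  obtain ⟨m, hm⟩ := h (n + 1)
  refine ⟨m, fun f' g' h' hf => ?_⟩
  have h1 : pref (join f' C) (2 * m) = pref (join f C) (2 * m) := by
    rw [pref_join, pref_join, hf]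
  have h2 : pref g (n + 1) <+: e.T (pref (join f C) (2 * m)) :=
    hm.trans (e.mono _ _ (pref_mono _ (by omega)))
  rw [← h1, h'.out_prefix] at h2
  exact (prefix_pref_getElem h2 (Nat.lt_succ_self n)).symm

/-- finite information, continuity -/
theorem fin_cont {φ : Tr} {C : R} {Zs : G} (h : uT C φ Zs) (l : ℕ) :
    ∃ l', ∀ Z : G, uT C φ Z → (∀ i < l', Z i = Zs i) → pref (uF C φ Z) l = pref (uF C φ Zs) l := by
  obtain ⟨m, hm⟩ := h.red l
  refine ⟨m, fun Z hZ hi => ?_⟩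
  have h1 : pref (join (r Z) C) m = pref (join (r Zs) C) m := by
    rw [pref_eq_iff]
    intro i hi'
    unfold join r
    split_ifs
    · exact hi _ (by omega)
    · rfl
  rw [← h1, hZ.red.out_prefix] at hm
  rw [pref_eq_iff]
  intro i hi'
  exact (prefix_pref_getElem hm hi').symm

/-- Lemma D in topological form -/
theorem lemmaD (C : R) (m' m3 e2 e4 : Tr) (W : Set (G × (G × G))) (hW : IsOpen W)
    (hne : W.Nonempty)
    (h : ∀ᶠ p in residual (G × (G × G)), p ∈ W →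
      (uT C m3 (p.2.1 * p.1 * p.2.2) ∧
      Red e2 (join (r p.2.1) (join (r p.2.2) (uF C m' p.1))) (uF C m3 (p.2.1 * p.1 * p.2.2)) ∧
      Red e4 (join (uF C m3 (p.2.1 * p.1 * p.2.2)) C) (r (p.2.1 * p.1 * p.2.2)))) :
    ∃ OX : Set G, IsOpen OX ∧ OX.Nonempty ∧
      (∃ O2 : Set (G × G), IsOpen O2 ∧ O2.Nonempty ∧ OX ×ˢ O2 ⊆ W) ∧
      ∀ᶠ X in residual G, X ∈ OX → TLE (r X) (uF C m' X) := by
  obtain ⟨lX, ls, lt, n, hX, hs, ht, hbox⟩ := exists_box hW hne
  set wX := fpn 0 lX with hwX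
  set ws := fpn 0 ls with hws
  set wt := fpn 0 lt with hwt
  have hsub := hbox n le_rfl
  have hopen : IsOpen (Cyl wX n ×ˢ (Cyl ws n ×ˢ Cyl wt n)) :=
    (isOpen_cyl _ _).prod ((isOpen_cyl _ _).prod (isOpen_cyl _ _))
  -- the special point
  have hmul : Continuous (fun p : G × (G × G) => p.2.1 * p.1 * p.2.2) := by fun_prop
  have hP : IsOpen ((Cyl wX n ×ˢ (Cyl ws n ×ˢ Cyl wt n)) ∩
      (fun p : G × (G × G) => p.2.1 * p.1 * p.2.2) ⁻¹' {g : G | g n = n}) :=
    hopen.inter ((isOpen_eval n n).preimage hmul)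
  have hPne : ((Cyl wX n ×ˢ (Cyl ws n ×ˢ Cyl wt n)) ∩
      (fun p : G × (G × G) => p.2.1 * p.1 * p.2.2) ⁻¹' {g : G | g n = n}).Nonempty := by
    refine ⟨(wX, ws, wt), ⟨self_mem_cyl _ _, self_mem_cyl _ _, self_mem_cyl _ _⟩, ?_⟩
    change (ws * wX * wt) n = n
    simp only [Equiv.Perm.mul_apply]
    rw [ht n le_rfl, hX n le_rfl, hs n le_rfl]
  obtain ⟨⟨Xs, ss, ts⟩, ⟨⟨hXs, hss, hts⟩, hZn⟩, hE⟩ :=
    ((open_freq hP hPne).and_eventually h).exists
  obtain ⟨hT3, -, hR4⟩ := hE (hsub ⟨hXs, hss, hts⟩)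
  set Zs : G := ss * Xs * ts with hZs
  have hZn' : Zs n = n := hZn
  obtain ⟨l, hl⟩ := fin_sound (n := n) hR4
  obtain ⟨l', hl'⟩ := fin_cont hT3 l
  refine ⟨Cyl wX n, isOpen_cyl _ _, ⟨wX, self_mem_cyl _ _⟩,
    ⟨Cyl ws n ×ˢ Cyl wt n, (isOpen_cyl _ _).prod (isOpen_cyl _ _),
      ⟨(ws, wt), self_mem_cyl _ _, self_mem_cyl _ _⟩, hsub⟩, ?_⟩
  filter_upwards [ku h] with X hgood hXc
  set S : Set (G × G) := {p | p ∈ Cyl ws n ×ˢ Cyl wt n ∧ (uT C m3 (p.1 * X * p.2) ∧
      Red e2 (join (r p.1) (join (r p.2) (uF C m' X))) (uF C m3 (p.1 * X * p.2)) ∧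
      Red e4 (join (uF C m3 (p.1 * X * p.2)) C) (r (p.1 * X * p.2)))} with hS
  refine decodeD n l' ws wt wX X Zs hs ht hX hXc (mul3_cyl hX ht hss hXs hts) hZn' e2
    (uF C m' X) S (fun p => uF C m3 (p.1 * X * p.2)) (pref (uF C m3 Zs) l) (fun p hp => hp.1)
    ?_ (fun p hp => hp.2.2.1) ?_ ?_
  · intro V hV hVne
    have hopen2 : IsOpen (V ∩ (Cyl ws n ×ˢ Cyl wt n)) :=
      hV.inter ((isOpen_cyl _ _).prod (isOpen_cyl _ _))
    obtain ⟨p, hp, hpE⟩ := ((open_freq hopen2 hVne).and_eventually hgood).exists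
    exact ⟨p, ⟨hp.2, hpE (hsub ⟨hXc, hp.2⟩)⟩, hp.1⟩
  · intro p hp hpr
    rw [pref_length] at hpr
    have h5 := hl _ _ hp.2.2.2 hpr
    change (r (p.1 * X * p.2)) n = n
    rw [h5]
    exact hZn'
  · intro p hp hpi
    rw [pref_length]
    exact hl' _ hp.2.1 hpi

end Vale.Agent.P327
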