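import Vale.Agent.Lib.P327.Uniq

/-!
# P327 / Uniq2: Step 2 (one sided uniqueness)
-/

namespace Vale.Agent.P327

open Filter Topology Set

/-- the formal relations of Step 2 (a) -/
def E1 (C : R) (φ φs e e3 : Tr) (p : G × (G × G)) : Prop :=
  uT C φ p.1 ∧ uT C φs (p.2.1 * p.1 * p.2.2) ∧
  Red e (join (uF C φ p.2.1) (join (uF C φ p.2.2) (uF C φ p.1)))
    (uF C φs (p.2.1 * p.1 * p.2.2)) ∧
  Red e3 (join (uF C φs (p.2.1 * p.1 * p.2.2)) C) (r (p.2.1 * p.1 * p.2.2))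

/-- the formal relations of Step 2 (b) -/
def E2 (C : R) (m' m3 e2 e4 : Tr) (p : G × (G × G)) : Prop :=
  uT C m3 (p.2.1 * p.1 * p.2.2) ∧
  Red e2 (join (r p.2.1) (join (r p.2.2) (uF C m' p.1))) (uF C m3 (p.2.1 * p.1 * p.2.2)) ∧
  Red e4 (join (uF C m3 (p.2.1 * p.1 * p.2.2)) C) (r (p.2.1 * p.1 * p.2.2))

theorem meas_E1 (C : R) (φ φs e e3 : Tr) : MeasurableSet {p | E1 C φ φs e e3 p} := by
  have hX : Measurable (fun p : G × (G × G) => p.1) := measurable_fst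
  have hs : Measurable (fun p : G × (G × G) => p.2.1) := measurable_fst.comp measurable_snd
  have ht : Measurable (fun p : G × (G × G) => p.2.2) := measurable_snd.comp measurable_snd
  have hZ := meas_mul3
  refine (hX (measSet_uT C φ)).inter ((hZ (measSet_uT C φs)).inter
    ((measSet_red e (meas_join ((meas_uF C φ).comp hs) (meas_join ((meas_uF C φ).comp ht)
      ((meas_uF C φ).comp hX))) ((meas_uF C φs).comp hZ)).inter
    (measSet_red e3 (meas_join ((meas_uF C φs).comp hZ) measurable_const)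
      (measurable_r.comp hZ))))

theorem meas_E2 (C : R) (m' m3 e2 e4 : Tr) : MeasurableSet {p | E2 C m' m3 e2 e4 p} := by
  have hX : Measurable (fun p : G × (G × G) => p.1) := measurable_fst
  have hs : Measurable (fun p : G × (G × G) => p.2.1) := measurable_fst.comp measurable_snd
  have ht : Measurable (fun p : G × (G × G) => p.2.2) := measurable_snd.comp measurable_snd
  have hZ := meas_mul3
  refine (hZ (measSet_uT C m3)).inter
    ((measSet_red e2 (meas_join (measurable_r.comp hs) (meas_join (measurable_r.comp ht)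
      ((meas_uF C m').comp hX))) ((meas_uF C m3).comp hZ)).inter
    (measSet_red e4 (meas_join ((meas_uF C m3).comp hZ) measurable_const)
      (measurable_r.comp hZ)))

/-- Step 2 (a) -/
theorem step2a (π : Auto) (C : R) (hC : Bd π C) (φ : Tr) (U : Set G) (hU : IsOpen U)
    (hne : U.Nonempty) (hA : EN (uA π C φ) U) :
    ∃ (φs e e3 : Tr) (OX Os Ot : Set G), IsOpen OX ∧ OX.Nonempty ∧ OX ⊆ U ∧
      IsOpen Os ∧ Os.Nonempty ∧ Os ⊆ U ∧ IsOpen Ot ∧ Ot.Nonempty ∧ Ot ⊆ U ∧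
      ∀ᶠ p in residual (G × (G × G)), p ∈ OX ×ˢ (Os ×ˢ Ot) → E1 C φ φs e e3 p := by
  have h0 : ∃ᶠ g in residual G, g ∈ U ∧ uA π C φ g := hA U hU hne subset_rfl
  have h1 := freq_prod h0 (freq_prod h0 h0)
  have h2 : ∃ᶠ p in residual (G × (G × G)), ∃ i : Tr × Tr × Tr,
      p ∈ U ×ˢ (U ×ˢ U) ∧ p ∈ {p | E1 C φ i.1 i.2.1 i.2.2 p} := by
    refine h1.mono ?_
    rintro ⟨X, s, t⟩ ⟨⟨hXU, hXA⟩, ⟨hsU, hsA⟩, ⟨htU, htA⟩⟩
    obtain ⟨φs, hφs⟩ := tle_iff.mp (hC.1 (r (s * X * t)))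
    have hZA : uA π C φs (s * X * t) := hφs
    have hle : TLE (uF C φs (s * X * t)) (join (uF C φ s) (join (uF C φ t) (uF C φ X))) := by
      rw [hZA.eq, uA.eq hXA, uA.eq hsA, uA.eq htA]
      exact π.join3 (tle_mul3 s X t)
    obtain ⟨e, he⟩ := tle_iff.mp hle
    have hle3 : TLE (r (s * X * t)) (join (uF C φs (s * X * t)) C) := by
      rw [hZA.eq]
      exact (π.gf _).2.trans (hC.2 _)
    obtain ⟨e3, he3⟩ := tle_iff.mp hle3
    exact ⟨(φs, e, e3), ⟨hXU, hsU, htU⟩, uA.tot hXA, hZA.tot, he, he3⟩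
  obtain ⟨⟨φs, e, e3⟩, h3⟩ := pigeon h2
  obtain ⟨W, hW, hWne, hWsub, hWE⟩ := bp_in (meas_E1 C φ φs e e3) (hU.prod (hU.prod hU)) h3
  obtain ⟨lX, ls, lt, n, hX, hs, ht, hbox⟩ := exists_box hW hWne
  have hb := hbox n le_rfl
  have hb2 := hb.trans hWsub
  refine ⟨φs, e, e3, Cyl (fpn 0 lX) n, Cyl (fpn 0 ls) n, Cyl (fpn 0 lt) n, isOpen_cyl _ _,
    ⟨_, self_mem_cyl _ _⟩, fun g hg => ?_, isOpen_cyl _ _, ⟨_, self_mem_cyl _ _⟩, fun g hg => ?_,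
    isOpen_cyl _ _, ⟨_, self_mem_cyl _ _⟩, fun g hg => ?_, ?_⟩
  · exact (@hb2 (g, (fpn 0 ls, fpn 0 lt)) ⟨hg, self_mem_cyl _ _, self_mem_cyl _ _⟩).1
  · exact (@hb2 (fpn 0 lX, (g, fpn 0 lt)) ⟨self_mem_cyl _ _, hg, self_mem_cyl _ _⟩).2.1
  · exact (@hb2 (fpn 0 lX, (fpn 0 ls, g)) ⟨self_mem_cyl _ _, self_mem_cyl _ _, hg⟩).2.2
  · filter_upwards [hWE] with p hp hpm
    exact hp (hb hpm)

/-- Step 2 -/
theorem step2 (π : Auto) (C : R) (hC : Bd π C) (φ : Tr) (U : Set G) (hU : IsOpen U)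
    (hne : U.Nonempty) (hA : EN (uA π C φ) U) :
    ∃ U' : Set G, IsOpen U' ∧ U'.Nonempty ∧ U' ⊆ U ∧
      ∀ᶠ X in residual G, X ∈ U' → uT C φ X ∧ TLE (π.f (r X)) (uF C φ X) := by
  obtain ⟨φs, e, e3, OX, Os, Ot, hOX, hOXne, hOXU, hOs, hOsne, hOsU, hOt, hOtne, hOtU, hE⟩ :=
    step2a π C hC φ U hU hne hA
  refine ⟨OX, hOX, hOXne, hOXU, ?_⟩
  -- totality
  have htot : ∀ᶠ X in residual G, X ∈ OX → uT C φ X := by
    filter_upwards [ku hE] with X hX hXO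
    obtain ⟨q, hq, hq2⟩ := ((open_freq (hOs.prod hOt) (hOsne.prod hOtne)).and_eventually hX).exists
    exact (hq2 ⟨hXO, hq⟩).1
  suffices hle : ∀ᶠ X in residual G, X ∈ OX → TLE (π.f (r X)) (uF C φ X) by
    filter_upwards [htot, hle] with X h1 h2 h3
    exact ⟨h1 h3, h2 h3⟩
  by_contra hcon
  have hB : ∃ᶠ X in residual G, X ∈ OX ∧ ¬ TLE (π.f (r X)) (uF C φ X) := by
    intro h
    exact hcon (h.mono fun X hX hXO => by
      by_contra h4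
      exact hX ⟨hXO, h4⟩)
  have hs0 := hA Os hOs hOsne hOsU
  have ht0 := hA Ot hOt hOtne hOtU
  have h1 := (freq_prod hB (freq_prod hs0 ht0)).and_eventually hE
  let P : Tr × Tr × Tr × Tr → G × (G × G) → Prop := fun i p =>
    ¬ TLE (π.f (r p.1)) (uF C φ p.1) ∧ uF C i.1 p.1 = π.g (uF C φ p.1) ∧
      E2 C i.1 i.2.1 i.2.2.1 i.2.2.2 p
  have h2 : ∃ᶠ p in residual (G × (G × G)), ∃ i : Tr × Tr × Tr × Tr,
      p ∈ OX ×ˢ (Os ×ˢ Ot) ∧ P i p := by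
    refine h1.mono ?_
    rintro ⟨X, s, t⟩ ⟨⟨⟨hXO, hXB⟩, ⟨hsO, hsA⟩, ⟨htO, htA⟩⟩, hE'⟩
    obtain ⟨hTX, hTZ, hRe, hRe3⟩ := hE' ⟨hXO, hsO, htO⟩
    simp only at hXB hsO hsA htO htA hTX hTZ hRe hRe3
    set Z : G := s * X * t with hZ
    have hgX : TLE (π.g (uF C φ X)) (join (r X) C) :=
      (hC.2 _).trans (join_tle (tle_iff.mpr ⟨_, hTX.red⟩) (tle_join_right _ _))
    have hgZ : TLE (π.g (uF C φs Z)) (join (r Z) C) :=
      (hC.2 _).trans (join_tle (tle_iff.mpr ⟨_, hTZ.red⟩) (tle_join_right _ _))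
    obtain ⟨m', hm'⟩ := tle_iff.mp hgX
    obtain ⟨m3, hm3⟩ := tle_iff.mp hgZ
    have hm'e : uF C m' X = π.g (uF C φ X) := Red.val_eq hm'
    have hm3e : uF C m3 Z = π.g (uF C φs Z) := Red.val_eq hm3
    have hm3T : uT C m3 Z := Red.tot hm3
    have h2 : TLE (uF C m3 Z) (join (r s) (join (r t) (uF C m' X))) := by
      rw [hm3e, hm'e]
      have h3 : TLE (uF C φs Z) (join (uF C φ s) (join (uF C φ t) (uF C φ X))) :=
        tle_iff.mpr ⟨_, hRe⟩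
      rw [uA.eq hsA, uA.eq htA] at h3
      exact (π.join3g h3).trans (join3_mono (π.gf _).1 (π.gf _).1 (TLE.refl _))
    have h4 : TLE (r Z) (join (uF C m3 Z) C) := by
      rw [hm3e]
      refine (tle_iff.mpr ⟨_, hRe3⟩ : TLE (r Z) (join (uF C φs Z) C)).trans
        (join_tle ?_ (tle_join_right _ _))
      exact (π.fg _).2.trans (hC.1 _)
    obtain ⟨e2, he2⟩ := tle_iff.mp h2
    obtain ⟨e4, he4⟩ := tle_iff.mp h4
    exact ⟨(m', m3, e2, e4), ⟨hXO, hsO, htO⟩, hXB, hm'e, hm3T, he2, he4⟩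
  obtain ⟨⟨m', m3, e2, e4⟩, h3⟩ := pigeon h2
  obtain ⟨W, hW, hWne, hWsub, hWN⟩ := localize_in (hOX.prod (hOs.prod hOt)) h3
  have hE2 : ∀ᶠ p in residual (G × (G × G)), p ∈ W → p ∈ {p | E2 C m' m3 e2 e4 p} :=
    en_meas (meas_E2 C m' m3 e2 e4) hW hWN (Eventually.of_forall fun p hp => hp.2.2)
  obtain ⟨OX2, hOX2, hOX2ne, ⟨O2, hO2, hO2ne, hsub⟩, hfin⟩ :=
    lemmaD C m' m3 e2 e4 W hW hWne hE2
  have h5 := (hWN (OX2 ×ˢ O2) (hOX2.prod hO2) (hOX2ne.prod hO2ne) hsub).and_eventually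
    (eventually_fst (Y := G × G) hfin)
  obtain ⟨⟨X, q⟩, ⟨⟨hX, hq⟩, hXB, hm'e, -⟩, hle⟩ := h5.exists
  simp only at hXB hm'e hle
  have h6 := hle hX
  rw [hm'e] at h6
  exact hXB ((π.mono h6).trans (π.fg _).1)

end Vale.Agent.P327
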