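import Vale.Agent.Lib.P327.Uniq2

/-!
# P327 / Uniq3: Step 3, the automorphism is locally represented by one functional

Proof. Let `V` be open and nonempty. Every `g` satisfies `uA π C φ g` for some `φ` (`hC.1` and `tle_iff`).
By `open_freq`, `pigeon`, `localize_in` there are `φ` and `U0 ⊆ V` open, nonempty with `EN (uA π C φ) U0`. `step2`: `U1 ⊆ U0` with
`∀ᶠ X, X ∈ U1 → uT C φ X ∧ TLE (π.f (r X)) (uF C φ X)`. Claim: `∀ᶠ X, X ∈ U1 → TLE (uF C φ X) (π.f (r X))`.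
Otherwise `∃ᶠ X, X ∈ U1 ∧ ¬ TLE (uF C φ X) (π.f (r X))`; every `X` has an index, so by `pigeon` and `localize_in` there are `ψ` and `U2 ⊆ U1` with
`fun X => ¬ TLE (uF C φ X) (π.f (r X)) ∧ uA π C ψ X` everywhere nonmeager in `U2`. In particular `EN (uA π C ψ) U2`. `step2` for `ψ`:
`U3 ⊆ U2` with `∀ᶠ X, X ∈ U3 → TLE (π.f (r X)) (uF C ψ X)`.
The set `{X | TLE (uF C φ X) (uF C ψ X)}` is Borel (`measSet_tle`, `meas_uF`), and contains almost all `X ∈ U3` with `uA π C φ X`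
(then `uF C φ X = π.f (r X)`, `uA.eq`), and `uA π C φ` is everywhere nonmeager in `U3 ⊆ U0`; so it is comeager in `U3` (`en_meas` with
`N X := X ∈ U3 ∧ uA π C φ X`, note `V ⊆ U3`). As `∃ᶠ X, X ∈ U3 ∧ ¬ TLE .. ∧ uA π C ψ X`, some such `X` satisfies
`uF C φ X ≤ uF C ψ X = π.f (r X)`: contradiction.
-/

namespace Vale.Agent.P327

open Filter Topology Set

/-- every permutation has an index -/
theorem uniq3_index (π : Auto) {C : R} (hC : Bd π C) (g : G) : ∃ φ : Tr, uA π C φ g :=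
  tle_iff.mp (hC.1 (r g))

/-- Step 3 -/
theorem step3 (π : Auto) (C : R) (hC : Bd π C) (V : Set G) (hV : IsOpen V) (hne : V.Nonempty) :
    ∃ (U : Set G) (φ : Tr), IsOpen U ∧ U.Nonempty ∧ U ⊆ V ∧
      ∀ᶠ X in residual G, X ∈ U → uT C φ X ∧ TEq (uF C φ X) (π.f (r X)) := by
  -- the first index
  have h1 : ∃ᶠ g in residual G, ∃ φ : Tr, g ∈ V ∧ uA π C φ g :=
    (open_freq hV hne).mono fun g hg => (uniq3_index π hC g).imp fun φ hφ => ⟨hg, hφ⟩
  obtain ⟨φ, hφ⟩ := pigeon h1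
  obtain ⟨U0, hU0, hne0, hU0V, hEN⟩ := localize_in hV hφ
  obtain ⟨U1, hU1, hne1, hU10, hev1⟩ := step2 π C hC φ U0 hU0 hne0 hEN
  refine ⟨U1, φ, hU1, hne1, hU10.trans hU0V, ?_⟩
  have hclaim : ∀ᶠ X in residual G, X ∈ U1 → TLE (uF C φ X) (π.f (r X)) := by
    by_contra hcon
    have hcon' : ∃ᶠ X in residual G, ¬ (X ∈ U1 → TLE (uF C φ X) (π.f (r X))) := by
      intro hev
      apply hcon
      filter_upwards [hev] with X hX
      exact not_not.mp hX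
    have hf : ∃ᶠ X in residual G, ∃ ψ : Tr,
        X ∈ U1 ∧ (¬ TLE (uF C φ X) (π.f (r X)) ∧ uA π C ψ X) := by
      refine hcon'.mono fun X hX => ?_
      rw [Classical.not_imp] at hX
      obtain ⟨ψ, hψ⟩ := uniq3_index π hC X
      exact ⟨ψ, hX.1, hX.2, hψ⟩
    obtain ⟨ψ, hψ⟩ := pigeon hf
    obtain ⟨U2, hU2, hne2, hU21, hEN2⟩ := localize_in hU1 hψ
    have hENψ : EN (uA π C ψ) U2 := fun W hW hWne hWU =>
      (hEN2 W hW hWne hWU).mono fun x hx => ⟨hx.1, hx.2.2⟩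
    obtain ⟨U3, hU3, hne3, hU32, hev3⟩ := step2 π C hC ψ U2 hU2 hne2 hENψ
    have hmeas : MeasurableSet {X | TLE (uF C φ X) (uF C ψ X)} :=
      measSet_tle (meas_uF C φ) (meas_uF C ψ)
    have hcom : ∀ᶠ X in residual G, X ∈ U3 → X ∈ {X | TLE (uF C φ X) (uF C ψ X)} := by
      refine en_meas hmeas hU3 (N := fun X => X ∈ U3 ∧ uA π C φ X) ?_ ?_
      · intro W hW hWne hWU
        refine (hEN W hW hWne (hWU.trans (hU32.trans (hU21.trans hU10)))).mono ?_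
        rintro x ⟨h2, h3⟩
        exact ⟨h2, hWU h2, h3⟩
      · filter_upwards [hev3] with X hX
        rintro ⟨h2, h3⟩
        have h4 := (hX h2).2
        rw [← h3.eq] at h4
        exact h4
    obtain ⟨X, ⟨hX3, hXn, hXA⟩, hX⟩ := ((hEN2 U3 hU3 hne3 hU32).and_eventually hcom).exists
    have h5 : TLE (uF C φ X) (uF C ψ X) := hX hX3
    rw [hXA.eq] at h5
    exact hXn h5
  filter_upwards [hev1, hclaim] with X h2 h3 hX
  exact ⟨(h2 hX).1, h3 hX, (h2 hX).2⟩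

end Vale.Agent.P327
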